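import Vale.Agent.P092.H156.Sm

/-!
P092 (helper175), team A: the commutation theorem for a total frame.  `ρ` and `V` are commuting
regular representations with the same trace vector `ω`; then everything which commutes with `V`
commutes with everything which commutes with `ρ` (`V(Λ)'' = ρ(Γ)'`).
-/

set_option linter.all false

open scoped InnerProductSpace Topology ENNReal
open Filter ContinuousLinearMap MeasureTheory
open Vale.Agent.P092.H160 Vale.Agent.P092.H156.Sm

namespace Vale.Agent.P092.H175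

variable {Γ Λ K : Type} [Group Γ] [Group Λ]
  [NormedAddCommGroup K] [InnerProductSpace ℂ K] [CompleteSpace K]
  {ρ : Γ →* (K →L[ℂ] K)} {V : Λ →* (K →L[ℂ] K)} {ω : K}

theorem regV (h : TFrm ρ V ω) : RegRep V ω where
  adj := h.adj
  norm_one := h.reg.norm_one
  inner_zero := h.ort
  total := h.total

theorem inner_flip (h : TFrm ρ V ω) {S m : K →L[ℂ] K} (hS : Cmm V S) (hm : Cmm ρ m) :
    ⟪S ω, m ω⟫_ℂ = ⟪adjoint m ω, adjoint S ω⟫_ℂ := by
  have hV := regV h
  have h1 := hV.hasSum_inner (S ω) (m ω)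
  have h2 := hV.hasSum_inner (adjoint m ω) (adjoint S ω)
  rw [← (Equiv.inv Λ).hasSum_iff] at h2
  refine h1.unique ?_
  convert h2 using 1
  funext v
  change _ = ⟪adjoint m ω, V v⁻¹ ω⟫_ℂ * ⟪V v⁻¹ ω, adjoint S ω⟫_ℂ
  have e1 : ⟪S ω, V v ω⟫_ℂ = ⟪V v⁻¹ ω, adjoint S ω⟫_ℂ := by
    rw [← adjoint_inner_right, (hV.cmm_adjoint hS).apply, hV.inner_right]
  have e2 : ⟪V v ω, m ω⟫_ℂ = ⟪adjoint m ω, V v⁻¹ ω⟫_ℂ := by
    rw [hV.inner_left, h.reg.trace_comm (h.comm v⁻¹) hm, adjoint_inner_left]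
  rw [e1, e2, mul_comm]

theorem cmm_apply_vac (h : TFrm ρ V ω) {T m : K →L[ℂ] K} (hT : Cmm V T) (hm : Cmm ρ m) :
    T (m ω) = m (T ω) := by
  have hV := regV h
  refine h.reg.ext_vec fun g => ?_
  have hS : Cmm V (adjoint T * ρ g) :=
    (hV.cmm_adjoint hT).mul (fun v => (h.comm v g).symm)
  have h1 := inner_flip h hS hm
  have h2 : adjoint (adjoint T * ρ g) = ρ g⁻¹ * T := by
    change star (star T * ρ g) = _
    rw [star_mul, star_star, star_eq_adjoint (ρ g), h.reg.adj]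
  rw [h2, mul_ap, mul_ap, adjoint_inner_left, h.reg.inner_right, inv_inv,
    ← (h.reg.cmm_adjoint hm).apply, adjoint_inner_left] at h1
  exact h1

/-- The commutation theorem. -/
theorem cmm_commute (h : TFrm ρ V ω) {T m : K →L[ℂ] K} (hT : Cmm V T) (hm : Cmm ρ m) :
    T * m = m * T := by
  have hV := regV h
  refine hV.ext_op fun v => ?_
  have h1 := cmm_apply_vac h hT (hm.mul (h.comm v))
  rw [mul_ap, mul_ap] at h1 ⊢
  rw [h1, hT.apply]

/-- The left regular representation: the unitaries in the commutant of `ρ`. -/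
theorem exists_left (hρ : RegRep ρ ω) (g : Γ) :
    ∃ u : K →L[ℂ] K, Cmm ρ u ∧ u ω = ρ g⁻¹ ω ∧ ∀ x, ‖u x‖ = ‖x‖ := by
  classical
  have hon : Orthonormal ℂ (fun k => hρ.basis (k * g⁻¹)) :=
    hρ.basis.orthonormal.comp _ (mul_left_injective g⁻¹)
  have hr : Set.range (fun k => hρ.basis (k * g⁻¹)) = Set.range hρ.basis :=
    (Equiv.mulRight g⁻¹).surjective.range_comp hρ.basis
  set b' : HilbertBasis Γ ℂ K := HilbertBasis.mk hon (by rw [hr, hρ.basis.dense_span]) with hb'
  set u : K ≃ₗᵢ[ℂ] K := hρ.basis.repr.trans b'.repr.symm with hu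
  have h1 : ∀ k, u (ρ k ω) = ρ (k * g⁻¹) ω := by
    intro k
    rw [hu, LinearIsometryEquiv.trans_apply, ← hρ.basis_apply, HilbertBasis.repr_self,
      HilbertBasis.repr_symm_single, hb', HilbertBasis.coe_mk, hρ.basis_apply]
  refine ⟨(u.toContinuousLinearEquiv : K →L[ℂ] K), ?_, ?_, fun x => u.norm_map x⟩
  · intro k
    refine hρ.ext_op fun l => ?_
    change u (ρ k (ρ l ω)) = ρ k (u (ρ l ω))
    rw [h1, ← mul_ap, ← map_mul, h1, ← mul_ap, ← map_mul, mul_assoc]
  · have := h1 1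
    rw [map_one, one_mul] at this
    exact this

end Vale.Agent.P092.H175
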