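import Mathlib

/-!
P092 (helper175): block T2. Part 2: the scalar inequality behind the asymptotic equivariance.
-/

namespace Vale.Agent.P092.H175

lemma amgm (x y : ℝ) : |x| * |y| ≤ (x ^ 2 + y ^ 2) / 2 := by
  have := sq_nonneg (|x| - |y|)
  have h1 := sq_abs x
  have h2 := sq_abs y
  nlinarith only [this, h1, h2]

lemma mul_b {k m : ℝ} (x y : ℝ) (hm : |m| ≤ k) : |m * x * y| ≤ k * (|x| * |y|) := by
  rw [abs_mul, abs_mul, mul_assoc]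
  exact mul_le_mul_of_nonneg_right hm (by positivity)

lemma sq_b {k m : ℝ} (x : ℝ) (hm : |m| ≤ k) : |m * x ^ 2| ≤ k * x ^ 2 := by
  rw [abs_mul, abs_of_nonneg (sq_nonneg x)]
  exact mul_le_mul_of_nonneg_right hm (sq_nonneg x)

/-- The quadratic form of a symmetric matrix. -/
def SS (m11 m22 m33 m12 m13 m23 α β γ : ℝ) : ℝ :=
  m11 * α ^ 2 + m22 * β ^ 2 + m33 * γ ^ 2 + 2 * m12 * α * β + 2 * m13 * α * γ + 2 * m23 * β * γ

lemma SS_b {k α β γ m11 m22 m33 m12 m13 m23 : ℝ} (hk : 0 ≤ k)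
    (h11 : |m11| ≤ k) (h22 : |m22| ≤ k) (h33 : |m33| ≤ k)
    (h12 : |m12| ≤ k) (h13 : |m13| ≤ k) (h23 : |m23| ≤ k) :
    |SS m11 m22 m33 m12 m13 m23 α β γ| ≤ 3 * k * (α ^ 2 + β ^ 2 + γ ^ 2) := by
  have e1 := abs_le.mp (sq_b α h11)
  have e2 := abs_le.mp (sq_b β h22)
  have e3 := abs_le.mp (sq_b γ h33)
  have e4 := abs_le.mp (mul_b α β h12)
  have e5 := abs_le.mp (mul_b α γ h13)
  have e6 := abs_le.mp (mul_b β γ h23)
  have t1 : k * (|α| * |β|) ≤ k * ((α ^ 2 + β ^ 2) / 2) := mul_le_mul_of_nonneg_left (amgm _ _) hk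
  have t2 : k * (|α| * |γ|) ≤ k * ((α ^ 2 + γ ^ 2) / 2) := mul_le_mul_of_nonneg_left (amgm _ _) hk
  have t3 : k * (|β| * |γ|) ≤ k * ((β ^ 2 + γ ^ 2) / 2) := mul_le_mul_of_nonneg_left (amgm _ _) hk
  unfold SS
  rw [abs_le]
  constructor
  · linarith only [e1.1, e2.1, e3.1, e4.1, e5.1, e6.1, t1, t2, t3]
  · linarith only [e1.2, e2.2, e3.2, e4.2, e5.2, e6.2, t1, t2, t3]

lemma r_b {k α β γ a b c : ℝ} (ha : |a| ≤ k) (hb : |b| ≤ k) (hc : |c| ≤ k) :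
    (a * α + b * β + c * γ) ^ 2 ≤ 3 * k ^ 2 * (α ^ 2 + β ^ 2 + γ ^ 2) := by
  have h1 : |a * α + b * β + c * γ| ≤ k * (|α| + |β| + |γ|) := by
    calc _ ≤ |a * α| + |b * β| + |c * γ| := abs_add_three _ _ _
      _ ≤ k * |α| + k * |β| + k * |γ| := by
        rw [abs_mul, abs_mul, abs_mul]
        gcongr
      _ = _ := by ring
  have h2 : (a * α + b * β + c * γ) ^ 2 ≤ (k * (|α| + |β| + |γ|)) ^ 2 := by
    rw [← sq_abs (a * α + b * β + c * γ)]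
    gcongr
  have h3 : (|α| + |β| + |γ|) ^ 2 ≤ 3 * (α ^ 2 + β ^ 2 + γ ^ 2) := by
    have e1 := sq_abs α
    have e2 := sq_abs β
    have e3 := sq_abs γ
    have f1 := amgm α β
    have f2 := amgm α γ
    have f3 := amgm β γ
    nlinarith only [e1, e2, e3, f1, f2, f3]
  calc _ ≤ _ := h2
    _ = k ^ 2 * (|α| + |β| + |γ|) ^ 2 := by ring
    _ ≤ k ^ 2 * (3 * (α ^ 2 + β ^ 2 + γ ^ 2)) := by gcongr
    _ = _ := by ring

lemma G_b {k α β γ m11 m22 m33 m12 m13 m23 p m a b c w : ℝ} (hk : 1 ≤ k)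
    (h11 : |m11| ≤ k) (h22 : |m22| ≤ k) (h33 : |m33| ≤ k)
    (h12 : |m12| ≤ k) (h13 : |m13| ≤ k) (h23 : |m23| ≤ k)
    (hp0 : 0 ≤ p) (hpk : p ≤ k)
    (hm : |m| ≤ k) (ha : |a| ≤ k) (hb : |b| ≤ k) (hc : |c| ≤ k) (hw : 0 ≤ w)
    (hwn : w ≤ α ^ 2 + β ^ 2 + γ ^ 2) :
    |m * SS m11 m22 m33 m12 m13 m23 α β γ - (a * α + b * β + c * γ) ^ 2 - p * w| ≤
      7 * k ^ 2 * (α ^ 2 + β ^ 2 + γ ^ 2) := by
  have hk0 : 0 ≤ k := by linarith only [hk]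
  have h0 := SS_b (α := α) (β := β) (γ := γ) hk0 h11 h22 h33 h12 h13 h23
  have h2 := r_b (α := α) (β := β) (γ := γ) ha hb hc
  set S := SS m11 m22 m33 m12 m13 m23 α β γ
  set n := α ^ 2 + β ^ 2 + γ ^ 2 with hn
  have hn0 : 0 ≤ n := by positivity
  have h1 : |m * S| ≤ k * (3 * k * n) := by
    rw [abs_mul]; gcongr
  have h3 : 0 ≤ (a * α + b * β + c * γ) ^ 2 := sq_nonneg _
  have h4 : 0 ≤ p * w := by positivity
  have h5 : p * w ≤ k * n := by gcongr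
  have h6 : k * n ≤ k ^ 2 * n := by
    have : k * 1 ≤ k * k := by gcongr
    nlinarith only [this, hn0]
  have h7 := abs_le.mp h1
  rw [abs_le]
  constructor
  · nlinarith only [h7.1, h2, h3, h4, h5, h6]
  · nlinarith only [h7.2, h2, h3, h4, h5, h6]

lemma wavg {k v1 v2 v3 x1 x2 x3 p : ℝ} (hv1 : 0 ≤ v1) (hv2 : 0 ≤ v2)
    (hv : v1 + v2 + v3 = 1) (h1 : |x1| ≤ k) (h2 : |x2| ≤ k) (h3 : |x3| ≤ k)
    (hp : p = v1 * x1 + v2 * x2 + v3 * x3) : |x3 - p| ≤ 2 * k * (v1 + v2) := by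
  have e : x3 - p = v1 * (x3 - x1) + v2 * (x3 - x2) := by
    rw [hp]; linear_combination (-x3) * hv
  have d1 : |x3 - x1| ≤ 2 * k := by
    have := abs_sub x3 x1
    linarith only [this, h1, h3]
  have d2 : |x3 - x2| ≤ 2 * k := by
    have := abs_sub x3 x2
    linarith only [this, h2, h3]
  calc |x3 - p| ≤ |v1 * (x3 - x1)| + |v2 * (x3 - x2)| := by rw [e]; exact abs_add_le _ _
    _ = v1 * |x3 - x1| + v2 * |x3 - x2| := by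
      rw [abs_mul, abs_mul, abs_of_nonneg hv1, abs_of_nonneg hv2]
    _ ≤ v1 * (2 * k) + v2 * (2 * k) := by gcongr
    _ = _ := by ring

lemma wavg_le {k v1 v2 v3 x1 x2 x3 p : ℝ} (hv1 : 0 ≤ v1) (hv2 : 0 ≤ v2) (hv3 : 0 ≤ v3)
    (hv : v1 + v2 + v3 = 1) (h1 : |x1| ≤ k) (h2 : |x2| ≤ k) (h3 : |x3| ≤ k)
    (hp : p = v1 * x1 + v2 * x2 + v3 * x3) : p ≤ k := by
  have a1 := mul_le_mul_of_nonneg_left (abs_le.mp h1).2 hv1
  have a2 := mul_le_mul_of_nonneg_left (abs_le.mp h2).2 hv2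
  have a3 := mul_le_mul_of_nonneg_left (abs_le.mp h3).2 hv3
  have a4 : v1 * k + v2 * k + v3 * k = k := by rw [← add_mul, ← add_mul, hv, one_mul]
  rw [hp]
  linarith only [a1, a2, a3, a4]

lemma G1_b {k α β γ m11 m22 m33 m12 m13 m23 n22 n33 n23 p e : ℝ} (hk : 1 ≤ k)
    (g22 : |n22| ≤ k) (g23 : |n23| ≤ k)
    (c33 : n33 = m11 * m22 - m12 ^ 2) (c23 : n23 = m12 * m13 - m11 * m23)
    (c22 : n22 = m11 * m33 - m13 ^ 2) (hp0 : 0 ≤ p) (hpk : p ≤ k) (he : 0 ≤ e)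
    (h33 : |n33 - p| ≤ 2 * k * e) :
    |m11 * SS m11 m22 m33 m12 m13 m23 α β γ - (m11 * α + m12 * β + m13 * γ) ^ 2 -
      p * (β ^ 2 + γ ^ 2)| ≤
      2 * k * (|β| * |γ|) + 2 * k * γ ^ 2 + 2 * k * e * (α ^ 2 + β ^ 2 + γ ^ 2) := by
  have hk0 : 0 ≤ k := by linarith only [hk]
  have hG : m11 * SS m11 m22 m33 m12 m13 m23 α β γ - (m11 * α + m12 * β + m13 * γ) ^ 2 -
      p * (β ^ 2 + γ ^ 2) =
      (n33 - p) * β ^ 2 + -2 * (n23 * β * γ) + (n22 - p) * γ ^ 2 := by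
    rw [c33, c23, c22]; unfold SS; ring
  have e1 : |(n33 - p) * β ^ 2| ≤ 2 * k * e * β ^ 2 := sq_b β h33
  have e2 : |-2 * (n23 * β * γ)| ≤ 2 * (k * (|β| * |γ|)) := by
    rw [abs_mul, abs_neg, abs_of_pos (by norm_num : (0 : ℝ) < 2)]
    have := mul_b β γ g23
    linarith only [this]
  have e3 : |(n22 - p) * γ ^ 2| ≤ 2 * k * γ ^ 2 := by
    apply sq_b
    rw [abs_le]
    have := abs_le.mp g22
    constructor
    · linarith only [this.1, hpk]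
    · linarith only [this.2, hp0, hk0]
  have e4 : 2 * k * e * β ^ 2 ≤ 2 * k * e * (α ^ 2 + β ^ 2 + γ ^ 2) := by
    have : 0 ≤ 2 * k * e := by positivity
    have h : β ^ 2 ≤ α ^ 2 + β ^ 2 + γ ^ 2 := by nlinarith only [sq_nonneg α, sq_nonneg γ]
    exact mul_le_mul_of_nonneg_left h this
  rw [hG]
  have := abs_add_three ((n33 - p) * β ^ 2) (-2 * (n23 * β * γ)) ((n22 - p) * γ ^ 2)
  linarith only [this, e1, e2, e3, e4]

lemma e1_bound {k e α β γ m11 m22 m33 m12 m13 m23 n11 n22 n33 n23 l1 l2 l3 v1 v2 v3 p q : ℝ}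
    (hk : 1 ≤ k) (he : 0 ≤ e)
    (h11 : |m11| ≤ k) (h22 : |m22| ≤ k) (h33 : |m33| ≤ k)
    (h12 : |m12| ≤ k) (h13 : |m13| ≤ k) (h23 : |m23| ≤ k)
    (g11 : |n11| ≤ k) (g22 : |n22| ≤ k) (g33 : |n33| ≤ k) (g23 : |n23| ≤ k)
    (c33 : n33 = m11 * m22 - m12 ^ 2) (c23 : n23 = m12 * m13 - m11 * m23)
    (c22 : n22 = m11 * m33 - m13 ^ 2)
    (hl1 : 0 ≤ l1) (hl2 : 0 ≤ l2) (hl3 : 0 ≤ l3) (hl : l1 + l2 + l3 = 1) (hle : l2 + l3 ≤ e)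
    (hv1 : 0 ≤ v1) (hv2 : 0 ≤ v2) (hv3 : 0 ≤ v3) (hv : v1 + v2 + v3 = 1) (hve : v1 + v2 ≤ e)
    (hp : p = v1 * n11 + v2 * n22 + v3 * n33) (hq : q = l1 * m11 + l2 * m22 + l3 * m33)
    (hpk : 1 / k ≤ p) :
    |(q * SS m11 m22 m33 m12 m13 m23 α β γ -
      (l1 * (m11 * α + m12 * β + m13 * γ) ^ 2 + l2 * (m12 * α + m22 * β + m23 * γ) ^ 2 +
        l3 * (m13 * α + m23 * β + m33 * γ) ^ 2)) / p -
      ((1 - l1) * α ^ 2 + (1 - l2) * β ^ 2 + (1 - l3) * γ ^ 2)| ≤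
      2 * k ^ 2 * (|β| * |γ|) + 2 * k ^ 2 * γ ^ 2 + 9 * k ^ 3 * e * (α ^ 2 + β ^ 2 + γ ^ 2) := by
  have hk0 : 0 < k := by linarith only [hk]
  have hp0 : 0 < p := lt_of_lt_of_le (by positivity) hpk
  have hpk' : p ≤ k := wavg_le hv1 hv2 hv3 hv g11 g22 g33 hp
  have e33 : |n33 - p| ≤ 2 * k * e := by
    refine (wavg hv1 hv2 hv g11 g22 g33 hp).trans ?_
    have : 0 ≤ 2 * k := by positivity
    exact mul_le_mul_of_nonneg_left hve this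
  have G1 := G1_b (α := α) (β := β) (γ := γ) hk g22 g23 c33 c23 c22 hp0.le hpk' he e33
  have G2 := G_b (α := α) (β := β) (γ := γ) (w := α ^ 2 + γ ^ 2) hk h11 h22 h33 h12 h13 h23 hp0.le
    hpk' h22 h12 h22 h23 (by positivity) (by nlinarith only [sq_nonneg β])
  have G3 := G_b (α := α) (β := β) (γ := γ) (w := α ^ 2 + β ^ 2) hk h11 h22 h33 h12 h13 h23 hp0.le
    hpk' h33 h13 h23 h33 (by positivity) (by nlinarith only [sq_nonneg γ])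
  set S := SS m11 m22 m33 m12 m13 m23 α β γ
  set r1 := m11 * α + m12 * β + m13 * γ
  set r2 := m12 * α + m22 * β + m23 * γ
  set r3 := m13 * α + m23 * β + m33 * γ
  set n := α ^ 2 + β ^ 2 + γ ^ 2 with hn
  have hn0 : 0 ≤ n := by positivity
  have key : (q * S - (l1 * r1 ^ 2 + l2 * r2 ^ 2 + l3 * r3 ^ 2)) / p -
      ((1 - l1) * α ^ 2 + (1 - l2) * β ^ 2 + (1 - l3) * γ ^ 2) =
      p⁻¹ * (l1 * (m11 * S - r1 ^ 2 - p * (β ^ 2 + γ ^ 2)) +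
        l2 * (m22 * S - r2 ^ 2 - p * (α ^ 2 + γ ^ 2)) +
        l3 * (m33 * S - r3 ^ 2 - p * (α ^ 2 + β ^ 2))) := by
    rw [hq]
    have hl1' : l1 = 1 - l2 - l3 := by linarith only [hl]
    rw [hl1']
    field_simp
    ring
  rw [key, abs_mul, abs_of_pos (inv_pos.mpr hp0)]
  have hpi : p⁻¹ ≤ k := by
    rw [inv_le_comm₀ hp0 hk0]; simpa using hpk
  have hb0 : 0 ≤ 2 * k * (|β| * |γ|) + 2 * k * γ ^ 2 + 2 * k * e * n := by positivity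
  have hsum : |l1 * (m11 * S - r1 ^ 2 - p * (β ^ 2 + γ ^ 2)) +
        l2 * (m22 * S - r2 ^ 2 - p * (α ^ 2 + γ ^ 2)) +
        l3 * (m33 * S - r3 ^ 2 - p * (α ^ 2 + β ^ 2))| ≤
      2 * k * (|β| * |γ|) + 2 * k * γ ^ 2 + 9 * k ^ 2 * e * n := by
    calc _ ≤ |l1 * (m11 * S - r1 ^ 2 - p * (β ^ 2 + γ ^ 2))| +
        |l2 * (m22 * S - r2 ^ 2 - p * (α ^ 2 + γ ^ 2))| +
        |l3 * (m33 * S - r3 ^ 2 - p * (α ^ 2 + β ^ 2))| := abs_add_three _ _ _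
      _ ≤ 1 * (2 * k * (|β| * |γ|) + 2 * k * γ ^ 2 + 2 * k * e * n) +
        l2 * (7 * k ^ 2 * n) + l3 * (7 * k ^ 2 * n) := by
        rw [abs_mul, abs_mul, abs_mul, abs_of_nonneg hl1, abs_of_nonneg hl2, abs_of_nonneg hl3]
        have : l1 ≤ 1 := by linarith only [hl, hl2, hl3]
        gcongr
      _ ≤ _ := by
        have h1 : (l2 + l3) * (7 * k ^ 2 * n) ≤ e * (7 * k ^ 2 * n) := by gcongr
        have h2 : k * (e * n) ≤ k ^ 2 * (e * n) := by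
          have : k * 1 ≤ k * k := by gcongr
          have h3 : 0 ≤ e * n := by positivity
          nlinarith only [this, h3]
        nlinarith only [h1, h2]
  calc p⁻¹ * _ ≤ k * (2 * k * (|β| * |γ|) + 2 * k * γ ^ 2 + 9 * k ^ 2 * e * n) := by gcongr
    _ = _ := by ring

lemma e2_bound {k e α β γ m11 m22 m33 m12 m13 m23 l1 l2 l3 q : ℝ}
    (hk : 1 ≤ k) (he : 0 ≤ e)
    (h11 : |m11| ≤ k) (h22 : |m22| ≤ k) (h33 : |m33| ≤ k)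
    (h12 : |m12| ≤ k) (h13 : |m13| ≤ k) (h23 : |m23| ≤ k)
    (hl1 : 0 ≤ l1) (hl2 : 0 ≤ l2) (hl3 : 0 ≤ l3) (hl : l1 + l2 + l3 = 1) (hle : l2 + l3 ≤ e)
    (hq : q = l1 * m11 + l2 * m22 + l3 * m33) (hqk : 1 / k ≤ q) :
    |SS m11 m22 m33 m12 m13 m23 α β γ / q - (α ^ 2 + β ^ 2 + γ ^ 2)| ≤
      2 * k ^ 2 * e * (α ^ 2 + β ^ 2 + γ ^ 2) + 3 * k ^ 2 * (β ^ 2 + γ ^ 2) +
        2 * k ^ 2 * (|α| * (|β| + |γ|)) := by
  have hk0 : 0 < k := by linarith only [hk]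
  have hq0 : 0 < q := lt_of_lt_of_le (by positivity) hqk
  have hqk' : q ≤ k := wavg_le hl1 hl2 hl3 hl h11 h22 h33 hq
  have e11 : |m11 - q| ≤ 2 * k * e := by
    have := wavg (v1 := l2) (v2 := l3) (v3 := l1) (p := q) hl2 hl3 (by linarith only [hl])
      h22 h33 h11 (by rw [hq]; ring)
    refine this.trans ?_
    have : 0 ≤ 2 * k := by positivity
    exact mul_le_mul_of_nonneg_left hle this
  have hd : ∀ m : ℝ, |m| ≤ k → |m - q| ≤ 2 * k := by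
    intro m hm
    rw [abs_le]
    have := abs_le.mp hm
    constructor
    · linarith only [this.1, hqk']
    · linarith only [this.2, hq0, hk0]
  have hqi : q⁻¹ ≤ k := by
    rw [inv_le_comm₀ hq0 hk0]; simpa using hqk
  have key : SS m11 m22 m33 m12 m13 m23 α β γ / q - (α ^ 2 + β ^ 2 + γ ^ 2) =
      q⁻¹ * (((m11 - q) * α ^ 2 + (m22 - q) * β ^ 2 + (m33 - q) * γ ^ 2) +
        (2 * (m12 * α * β) + 2 * (m13 * α * γ) + 2 * (m23 * β * γ))) := by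
    unfold SS; field_simp; ring
  rw [key, abs_mul, abs_of_pos (inv_pos.mpr hq0)]
  have f1 := sq_b α e11
  have f2 := sq_b β (hd _ h22)
  have f3 := sq_b γ (hd _ h33)
  have f4 := mul_b α β h12
  have f5 := mul_b α γ h13
  have f6 := mul_b β γ h23
  have f7 : k * (|β| * |γ|) ≤ k * ((β ^ 2 + γ ^ 2) / 2) :=
    mul_le_mul_of_nonneg_left (amgm _ _) hk0.le
  have f8 : 2 * k * e * α ^ 2 ≤ 2 * k * e * (α ^ 2 + β ^ 2 + γ ^ 2) := by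
    have : 0 ≤ 2 * k * e := by positivity
    exact mul_le_mul_of_nonneg_left (by nlinarith only [sq_nonneg β, sq_nonneg γ]) this
  have hsum : |((m11 - q) * α ^ 2 + (m22 - q) * β ^ 2 + (m33 - q) * γ ^ 2) +
        (2 * (m12 * α * β) + 2 * (m13 * α * γ) + 2 * (m23 * β * γ))| ≤
      2 * k * e * (α ^ 2 + β ^ 2 + γ ^ 2) + 3 * k * (β ^ 2 + γ ^ 2) +
        2 * k * (|α| * (|β| + |γ|)) := by
    have a1 := abs_le.mp f1
    have a2 := abs_le.mp f2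
    have a3 := abs_le.mp f3
    have a4 := abs_le.mp f4
    have a5 := abs_le.mp f5
    have a6 := abs_le.mp f6
    rw [abs_le]
    constructor
    · linarith only [a1.1, a2.1, a3.1, a4.1, a5.1, a6.1, f7, f8]
    · linarith only [a1.2, a2.2, a3.2, a4.2, a5.2, a6.2, f7, f8]
  calc q⁻¹ * _ ≤ k * (2 * k * e * (α ^ 2 + β ^ 2 + γ ^ 2) + 3 * k * (β ^ 2 + γ ^ 2) +
        2 * k * (|α| * (|β| + |γ|))) := by gcongr
    _ = _ := by ring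

/-- The weighted estimate: the two errors against the form `f`. -/
lemma comb_bound {k e α β γ l1 l2 l3 v1 v2 v3 a τ θ E1 E2 : ℝ}
    (hk : 1 ≤ k) (he : 0 ≤ e) (he2 : e ≤ 1 / 2)
    (hl1 : 0 ≤ l1) (hl2 : 0 ≤ l2) (hl3 : 0 ≤ l3) (hl : l1 + l2 + l3 = 1) (hle : l2 + l3 ≤ e)
    (hv1 : 0 ≤ v1) (hv2 : 0 ≤ v2) (hv : v1 + v2 + v3 = 1) (hve : v1 + v2 ≤ e)
    (ha : 0 < a) (hτ : 0 < τ) (haθ : a ≤ θ) (hτθ : τ ≤ θ) (hθ : θ ≤ 1)
    (h1 : |E1| ≤ 2 * k ^ 2 * (|β| * |γ|) + 2 * k ^ 2 * γ ^ 2 +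
      9 * k ^ 3 * e * (α ^ 2 + β ^ 2 + γ ^ 2))
    (h2 : |E2| ≤ 2 * k ^ 2 * e * (α ^ 2 + β ^ 2 + γ ^ 2) + 3 * k ^ 2 * (β ^ 2 + γ ^ 2) +
        2 * k ^ 2 * (|α| * (|β| + |γ|))) :
    |a ^ 2 * E1 + a ^ 2 * τ ^ 2 * E2| ≤ (17 * k ^ 2 * θ + 11 * k ^ 3 * e / τ ^ 2) *
      (v1 * α ^ 2 + v2 * β ^ 2 + v3 * γ ^ 2 +
        a ^ 2 * ((1 - l1) * α ^ 2 + (1 - l2) * β ^ 2 + (1 - l3) * γ ^ 2) +
        a ^ 2 * τ ^ 2 * (α ^ 2 + β ^ 2 + γ ^ 2)) := by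
  have hk0 : 0 < k := by linarith only [hk]
  have hθ0 : 0 < θ := by linarith only [ha, haθ]
  set n := α ^ 2 + β ^ 2 + γ ^ 2 with hn
  have hn0 : 0 ≤ n := by positivity
  set f := v1 * α ^ 2 + v2 * β ^ 2 + v3 * γ ^ 2 +
        a ^ 2 * ((1 - l1) * α ^ 2 + (1 - l2) * β ^ 2 + (1 - l3) * γ ^ 2) +
        a ^ 2 * τ ^ 2 * n with hf
  have hf1 : γ ^ 2 / 2 + a ^ 2 * ((β ^ 2 + γ ^ 2) / 2) + a ^ 2 * τ ^ 2 * n ≤ f := by
    have b1 : γ ^ 2 / 2 ≤ v1 * α ^ 2 + v2 * β ^ 2 + v3 * γ ^ 2 := by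
      have : 1 / 2 ≤ v3 := by linarith only [hv, hve, he2]
      nlinarith only [this, mul_nonneg hv1 (sq_nonneg α), mul_nonneg hv2 (sq_nonneg β),
        sq_nonneg γ]
    have b2 : (β ^ 2 + γ ^ 2) / 2 ≤ (1 - l1) * α ^ 2 + (1 - l2) * β ^ 2 + (1 - l3) * γ ^ 2 := by
      have c1 : 0 ≤ (1 - l1) * α ^ 2 :=
        mul_nonneg (by linarith only [hl, hl2, hl3]) (sq_nonneg _)
      have c2 : (1 / 2) * β ^ 2 ≤ (1 - l2) * β ^ 2 :=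
        mul_le_mul_of_nonneg_right (by linarith only [hle, hl3, he2]) (sq_nonneg _)
      have c3 : (1 / 2) * γ ^ 2 ≤ (1 - l3) * γ ^ 2 :=
        mul_le_mul_of_nonneg_right (by linarith only [hle, hl2, he2]) (sq_nonneg _)
      linarith only [c1, c2, c3]
    have b3 := mul_le_mul_of_nonneg_left b2 (sq_nonneg a)
    linarith only [b1, b3, hf]
  have p1 : 0 ≤ γ ^ 2 / 2 := by positivity
  have p2 : 0 ≤ a ^ 2 * ((β ^ 2 + γ ^ 2) / 2) := by positivity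
  have p3 : 0 ≤ a ^ 2 * τ ^ 2 * n := by positivity
  have hf0 : 0 ≤ f := by linarith only [hf1, p1, p2, p3]
  -- the individual terms
  have t1 : a ^ 2 * (|β| * |γ|) ≤ θ * f := by
    have h := amgm (a * β) γ
    rw [abs_mul, abs_of_pos ha] at h
    have h' : (a * β) ^ 2 + γ ^ 2 ≤ 2 * f := by nlinarith only [hf1, p3, sq_nonneg (a * γ)]
    calc a ^ 2 * (|β| * |γ|) = a * (a * |β| * |γ|) := by ring
      _ ≤ a * f := by gcongr; linarith only [h, h']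
      _ ≤ θ * f := by gcongr
  have t2 : a ^ 2 * γ ^ 2 ≤ 2 * (θ * f) := by
    have h' : γ ^ 2 ≤ 2 * f := by linarith only [hf1, p2, p3]
    have h'' : a ^ 2 ≤ θ := by nlinarith only [ha, haθ, hθ]
    calc a ^ 2 * γ ^ 2 ≤ θ * (2 * f) := by gcongr
      _ = _ := by ring
  have hnf : a ^ 2 * τ ^ 2 * n ≤ f := by linarith only [hf1, p1, p2]
  have t3 : a ^ 2 * (e * n) ≤ e / τ ^ 2 * f := by
    calc a ^ 2 * (e * n) = e / τ ^ 2 * (a ^ 2 * τ ^ 2 * n) := by field_simp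
      _ ≤ _ := by gcongr
  have hτ1 : τ ≤ 1 := by linarith only [hτθ, hθ]
  have t4 : a ^ 2 * τ ^ 2 * (e * n) ≤ e / τ ^ 2 * f := by
    calc a ^ 2 * τ ^ 2 * (e * n) = τ ^ 2 * (a ^ 2 * (e * n)) := by ring
      _ ≤ 1 * (a ^ 2 * (e * n)) := by
        gcongr
        exact pow_le_one₀ hτ.le hτ1
      _ ≤ _ := by rw [one_mul]; exact t3
  have hbg : a ^ 2 * (β ^ 2 + γ ^ 2) ≤ 2 * f := by linarith only [hf1, p1, p3]
  have t5 : a ^ 2 * τ ^ 2 * (β ^ 2 + γ ^ 2) ≤ 2 * (θ * f) := by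
    have h'' : τ ^ 2 ≤ θ := by nlinarith only [hτ, hτθ, hθ]
    calc a ^ 2 * τ ^ 2 * (β ^ 2 + γ ^ 2) = τ ^ 2 * (a ^ 2 * (β ^ 2 + γ ^ 2)) := by ring
      _ ≤ θ * (2 * f) := by gcongr
      _ = _ := by ring
  have t6 : a ^ 2 * τ ^ 2 * (|α| * (|β| + |γ|)) ≤ 5 / 2 * (θ * f) := by
    have h := amgm (a * τ * α) (a * (|β| + |γ|))
    rw [abs_mul (a * τ), abs_of_pos (mul_pos ha hτ), abs_of_nonneg
      (show 0 ≤ a * (|β| + |γ|) by positivity)] at h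
    have h3 : (|β| + |γ|) ^ 2 ≤ 2 * (β ^ 2 + γ ^ 2) := by
      have e2 := sq_abs β
      have e3 := sq_abs γ
      have f3 := amgm β γ
      nlinarith only [e2, e3, f3]
    have h4 : (a * (|β| + |γ|)) ^ 2 ≤ 4 * f := by
      calc (a * (|β| + |γ|)) ^ 2 = a ^ 2 * (|β| + |γ|) ^ 2 := by ring
        _ ≤ a ^ 2 * (2 * (β ^ 2 + γ ^ 2)) := by gcongr
        _ ≤ _ := by linarith only [hbg]
    have h5 : (a * τ * α) ^ 2 ≤ f := by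
      refine le_trans ?_ hnf
      have : (a * τ * α) ^ 2 = a ^ 2 * τ ^ 2 * α ^ 2 := by ring
      rw [this]
      gcongr
      nlinarith only [hn, sq_nonneg β, sq_nonneg γ]
    calc a ^ 2 * τ ^ 2 * (|α| * (|β| + |γ|)) = τ * (a * τ * |α| * (a * (|β| + |γ|))) := by ring
      _ ≤ τ * (5 / 2 * f) :=
        mul_le_mul_of_nonneg_left (by linarith only [h, h4, h5]) hτ.le
      _ ≤ θ * (5 / 2 * f) := by gcongr
      _ = _ := by ring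
  have hk2 : 0 ≤ k ^ 2 := by positivity
  have hk3 : 0 ≤ k ^ 3 := by positivity
  have hk23 : k ^ 2 ≤ k ^ 3 := by nlinarith only [hk, hk2]
  have A1 : |a ^ 2 * E1| ≤ 2 * k ^ 2 * (θ * f) + 4 * k ^ 2 * (θ * f) +
      9 * k ^ 3 * (e / τ ^ 2 * f) := by
    rw [abs_mul, abs_of_nonneg (sq_nonneg a)]
    calc a ^ 2 * |E1| ≤ a ^ 2 * (2 * k ^ 2 * (|β| * |γ|) + 2 * k ^ 2 * γ ^ 2 +
          9 * k ^ 3 * e * n) := by gcongr
      _ = 2 * k ^ 2 * (a ^ 2 * (|β| * |γ|)) + 2 * k ^ 2 * (a ^ 2 * γ ^ 2) +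
          9 * k ^ 3 * (a ^ 2 * (e * n)) := by ring
      _ ≤ 2 * k ^ 2 * (θ * f) + 2 * k ^ 2 * (2 * (θ * f)) + 9 * k ^ 3 * (e / τ ^ 2 * f) := by
        gcongr
      _ = _ := by ring
  have A2 : |a ^ 2 * τ ^ 2 * E2| ≤ 2 * k ^ 2 * (e / τ ^ 2 * f) + 6 * k ^ 2 * (θ * f) +
      5 * k ^ 2 * (θ * f) := by
    rw [abs_mul, abs_of_nonneg (show 0 ≤ a ^ 2 * τ ^ 2 by positivity)]
    calc a ^ 2 * τ ^ 2 * |E2| ≤ a ^ 2 * τ ^ 2 * (2 * k ^ 2 * e * n + 3 * k ^ 2 * (β ^ 2 + γ ^ 2) +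
        2 * k ^ 2 * (|α| * (|β| + |γ|))) := by gcongr
      _ = 2 * k ^ 2 * (a ^ 2 * τ ^ 2 * (e * n)) + 3 * k ^ 2 * (a ^ 2 * τ ^ 2 * (β ^ 2 + γ ^ 2)) +
          2 * k ^ 2 * (a ^ 2 * τ ^ 2 * (|α| * (|β| + |γ|))) := by ring
      _ ≤ 2 * k ^ 2 * (e / τ ^ 2 * f) + 3 * k ^ 2 * (2 * (θ * f)) +
          2 * k ^ 2 * (5 / 2 * (θ * f)) := by gcongr
      _ = _ := by ring
  have hef : 0 ≤ e / τ ^ 2 * f := by positivity
  have A3 : 2 * k ^ 2 * (e / τ ^ 2 * f) ≤ 2 * k ^ 3 * (e / τ ^ 2 * f) := by gcongr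
  calc _ ≤ |a ^ 2 * E1| + |a ^ 2 * τ ^ 2 * E2| := abs_add_le _ _
    _ ≤ 17 * k ^ 2 * (θ * f) + 11 * k ^ 3 * (e / τ ^ 2 * f) := by linarith only [A1, A2, A3]
    _ = _ := by ring

end Vale.Agent.P092.H175
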