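import Vale.Agent.P092.H175.Frame

/-!
P092 (helper175): (N1)(i), the one-parameter functions `f_t(g; b)` (for the wall `G12` bounded).
-/

namespace Vale.Agent.P092.H175

open Matrix Vale.Agent.P092.H553

/-- The one-parameter function `f_t(g; b)` (for the wall `G12` bounded). -/
noncomputable def fN (t : ℝ) (g b : G3) : ℝ :=
  rA (g⁻¹ * b) / rB g + Real.exp (-t) * (rA b - hs ((rm g)ᵀ * rm b) / rA g)

end Vale.Agent.P092.H175
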