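import Mathlib
import Vale.Agent.P092.H553.Defs

/-!
P092 (helper175): block T2 (amenability functions). Part 1: Hilbert-Schmidt norms and the
singular value frame of a real `3 × 3` matrix.
-/

namespace Vale.Agent.P092.H175

open Matrix Vale.Agent.P092.H553

abbrev M3 : Type := Matrix (Fin 3) (Fin 3) ℝ

lemma hs_eq (m : M3) : hs m = trace (mᵀ * m) := by
  simp [hs, trace, Matrix.mul_apply, Fin.sum_univ_three]; ring

lemma hs_eq' (m : M3) : hs m = trace (m * mᵀ) := by
  simp [hs, trace, Matrix.mul_apply, Fin.sum_univ_three]; ring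

lemma hs_transpose (m : M3) : hs mᵀ = hs m := by
  rw [hs_eq, hs_eq', transpose_transpose]

lemma hs_nonneg (m : M3) : 0 ≤ hs m :=
  Finset.sum_nonneg fun _ _ => Finset.sum_nonneg fun _ _ => sq_nonneg _

lemma cs3 (a b : Fin 3 → ℝ) : (∑ k, a k * b k) ^ 2 ≤ (∑ k, a k ^ 2) * (∑ k, b k ^ 2) :=
  Finset.sum_mul_sq_le_sq_mul_sq Finset.univ a b

lemma hs_mul_le (a b : M3) : hs (a * b) ≤ hs a * hs b := by
  have h : hs (a * b) ≤ ∑ i, ∑ j, (∑ k, a i k ^ 2) * (∑ k, b k j ^ 2) := by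
    refine Finset.sum_le_sum fun i _ => Finset.sum_le_sum fun j _ => ?_
    rw [Matrix.mul_apply]
    exact cs3 _ _
  refine h.trans (le_of_eq ?_)
  unfold hs
  rw [Finset.sum_mul]
  refine Finset.sum_congr rfl fun i _ => ?_
  rw [← Finset.mul_sum, Finset.sum_comm (f := fun i j => b i j ^ 2)]

lemma hs_mul_orth (m : M3) {U : M3} (h : U * Uᵀ = 1) : hs (m * U) = hs m := by
  rw [hs_eq', hs_eq', transpose_mul, show m * U * (Uᵀ * mᵀ) = m * (U * Uᵀ) * mᵀ by
    simp only [Matrix.mul_assoc], h, Matrix.mul_one]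

lemma hs_orth_mul (m : M3) {U : M3} (h : Uᵀ * U = 1) : hs (U * m) = hs m := by
  rw [hs_eq, hs_eq, transpose_mul, show mᵀ * Uᵀ * (U * m) = mᵀ * (Uᵀ * U) * m by
    simp only [Matrix.mul_assoc], h, Matrix.mul_one]

/-- The singular value frame. -/
theorem exists_frame (g gi : M3) (h : g * gi = 1) :
    ∃ (U : M3) (x1 x2 x3 : ℝ), Uᵀ * U = 1 ∧ U * Uᵀ = 1 ∧ 0 < x3 ∧ x3 ≤ x2 ∧ x2 ≤ x1 ∧
      Uᵀ * (g * gᵀ) * U = diagonal ![x1, x2, x3] ∧
      Uᵀ * (giᵀ * gi) * U = diagonal ![x1⁻¹, x2⁻¹, x3⁻¹] := by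
  have h' : gi * g = 1 := mul_eq_one_comm.mp h
  have hpd : (g * gᵀ).PosDef := by
    have := Matrix.PosDef.mul_conjTranspose_self g (by
      intro v w hvw
      have h1 : (v ᵥ* g) ᵥ* gi = (w ᵥ* g) ᵥ* gi := by
        have : v ᵥ* g = w ᵥ* g := hvw
        rw [this]
      simpa [vecMul_vecMul, h] using h1)
    simpa [conjTranspose_eq_transpose_of_trivial] using this
  set hA := hpd.1 with hAdef
  set V : M3 := (hA.eigenvectorUnitary : M3) with hV
  have hV1 : Vᵀ * V = 1 := by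
    have := Unitary.coe_star_mul_self hA.eigenvectorUnitary
    simpa [star_eq_conjTranspose, conjTranspose_eq_transpose_of_trivial] using this
  have hD : Vᵀ * (g * gᵀ) * V = diagonal hA.eigenvalues := by
    have := hA.conjStarAlgAut_star_eigenvectorUnitary
    rw [Unitary.conjStarAlgAut_star_apply] at this
    simpa [star_eq_conjTranspose, conjTranspose_eq_transpose_of_trivial] using this
  set σ : Equiv.Perm (Fin 3) := Tuple.sort (fun i => - hA.eigenvalues i) with hσ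
  have hmono : Monotone ((fun i => - hA.eigenvalues i) ∘ σ) := Tuple.monotone_sort _
  have h10 : hA.eigenvalues (σ 1) ≤ hA.eigenvalues (σ 0) := by
    have := hmono (show (0 : Fin 3) ≤ 1 by decide)
    simpa using this
  have h21 : hA.eigenvalues (σ 2) ≤ hA.eigenvalues (σ 1) := by
    have := hmono (show (1 : Fin 3) ≤ 2 by decide)
    simpa using this
  have hpos : ∀ i, 0 < hA.eigenvalues i := fun i => hpd.eigenvalues_pos i
  have hsub : ∀ X : M3, (V.submatrix id σ)ᵀ * X * (V.submatrix id σ) =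
      (Vᵀ * X * V).submatrix σ σ := by
    intro X
    ext i j
    simp [Matrix.mul_apply, submatrix_apply]
  have hU1 : (V.submatrix id σ)ᵀ * (V.submatrix id σ) = 1 := by
    have := hsub 1
    rw [Matrix.mul_one, Matrix.mul_one, hV1] at this
    rw [this]
    exact submatrix_one_equiv σ
  have hU2 : (V.submatrix id σ) * (V.submatrix id σ)ᵀ = 1 := mul_eq_one_comm.mp hU1
  have hUD : (V.submatrix id σ)ᵀ * (g * gᵀ) * (V.submatrix id σ) =
      diagonal ![hA.eigenvalues (σ 0), hA.eigenvalues (σ 1), hA.eigenvalues (σ 2)] := by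
    rw [hsub, hD]
    ext i j
    fin_cases i <;> fin_cases j <;> simp [diagonal_apply, σ.injective.eq_iff]
  have hprod : ((V.submatrix id σ)ᵀ * (g * gᵀ) * (V.submatrix id σ)) *
      ((V.submatrix id σ)ᵀ * (giᵀ * gi) * (V.submatrix id σ)) = 1 := by
    set U := V.submatrix id σ
    calc (Uᵀ * (g * gᵀ) * U) * (Uᵀ * (giᵀ * gi) * U)
        = Uᵀ * (g * gᵀ) * (U * Uᵀ) * (giᵀ * gi) * U := by simp only [Matrix.mul_assoc]
      _ = Uᵀ * (g * ((gi * g)ᵀ) * gi) * U := by
          rw [hU2, Matrix.mul_one, transpose_mul]; simp only [Matrix.mul_assoc]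
      _ = 1 := by rw [h', transpose_one, Matrix.mul_one, h, Matrix.mul_one, hU1]
  refine ⟨V.submatrix id σ, hA.eigenvalues (σ 0), hA.eigenvalues (σ 1), hA.eigenvalues (σ 2),
    hU1, hU2, hpos _, h21, h10, hUD, ?_⟩
  rw [hUD] at hprod
  have hinv : diagonal ![(hA.eigenvalues (σ 0))⁻¹, (hA.eigenvalues (σ 1))⁻¹,
      (hA.eigenvalues (σ 2))⁻¹] *
      diagonal ![hA.eigenvalues (σ 0), hA.eigenvalues (σ 1), hA.eigenvalues (σ 2)] = (1 : M3) := by
    rw [diagonal_mul_diagonal]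
    ext i j
    fin_cases i <;> fin_cases j <;> simp [diagonal_apply, (hpos _).ne']
  calc _ = 1 * ((V.submatrix id σ)ᵀ * (giᵀ * gi) * (V.submatrix id σ)) := by rw [Matrix.one_mul]
    _ = _ := by rw [← hinv, Matrix.mul_assoc, hprod, Matrix.mul_one]

end Vale.Agent.P092.H175
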