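import Mathlib

/-!
P092 (helper175): block [R1a]. Sorted eigenvalues of symmetric real matrices, gaps.
-/

namespace Vale.Agent.P092.H175

open Matrix

variable {n : ℕ}

/-- Square of the Hilbert-Schmidt norm. -/
def hsn (M : Matrix (Fin n) (Fin n) ℝ) : ℝ := ∑ i, ∑ j, M i j ^ 2

/-- Decreasing eigenvalues of a symmetric matrix (`1` out of range). -/
noncomputable def ev (B : Matrix (Fin n) (Fin n) ℝ) (j : ℕ) : ℝ :=
  if h : B.IsHermitian ∧ j < n then h.1.eigenvalues₀ ⟨j, by simpa using h.2⟩ else 1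

lemma ev_anti {B : Matrix (Fin n) (Fin n) ℝ} (hB : B.IsHermitian) {i j : ℕ} (hij : i ≤ j)
    (hj : j < n) : ev B j ≤ ev B i := by
  have hi : i < n := lt_of_le_of_lt hij hj
  unfold ev
  rw [dif_pos ⟨hB, hj⟩, dif_pos ⟨hB, hi⟩]
  exact hB.eigenvalues₀_antitone (by simpa using hij)

/-- Spectral frame with sorted eigenvalues. -/
theorem frameN {B : Matrix (Fin n) (Fin n) ℝ} (hB : B.IsHermitian) :
    ∃ U : Matrix (Fin n) (Fin n) ℝ, Uᵀ * U = 1 ∧ U * Uᵀ = 1 ∧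
      Uᵀ * B * U = diagonal (fun i : Fin n => ev B i) := by
  set U0 : Matrix (Fin n) (Fin n) ℝ := (hB.eigenvectorUnitary : Matrix (Fin n) (Fin n) ℝ) with hU0
  have h1 : U0ᵀ * U0 = 1 := by
    have := (Matrix.mem_unitaryGroup_iff').mp hB.eigenvectorUnitary.2
    rwa [Matrix.star_eq_conjTranspose, conjTranspose_eq_transpose_of_trivial] at this
  have h2 : U0ᵀ * B * U0 = diagonal hB.eigenvalues := by
    have := hB.conjStarAlgAut_star_eigenvectorUnitary
    rw [Unitary.conjStarAlgAut_star_apply] at this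
    simpa [Matrix.star_eq_conjTranspose, conjTranspose_eq_transpose_of_trivial] using this
  set e : Fin (Fintype.card (Fin n)) ≃ Fin n := Fintype.equivOfCardEq (Fintype.card_fin _) with he
  set σ : Fin n ≃ Fin n := (finCongr (Fintype.card_fin n).symm).trans e with hσ
  have h3 : (U0.submatrix id σ)ᵀ * U0.submatrix id σ = 1 := by
    have : (U0.submatrix id σ)ᵀ * U0.submatrix id σ = (U0ᵀ * U0).submatrix σ σ := by
      ext i j; simp [Matrix.mul_apply]
    rw [this, h1]; simp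
  refine ⟨U0.submatrix id σ, h3, mul_eq_one_comm.mp h3, ?_⟩
  have : (U0.submatrix id σ)ᵀ * B * U0.submatrix id σ = (U0ᵀ * B * U0).submatrix σ σ := by
    ext i j; simp [Matrix.mul_apply]
  rw [this, h2, submatrix_diagonal_equiv]
  congr 1
  funext i
  unfold ev
  rw [dif_pos ⟨hB, i.2⟩]
  simp only [Function.comp_apply, IsHermitian.eigenvalues]
  congr 1
  rw [hσ, ← he]
  simp
  rfl

lemma dot_mulVec (U : Matrix (Fin n) (Fin n) ℝ) (x z : Fin n → ℝ) :
    (U *ᵥ x) ⬝ᵥ z = x ⬝ᵥ (Uᵀ *ᵥ z) := by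
  rw [dotProduct_mulVec, vecMul_transpose]

lemma dot_conj (U A : Matrix (Fin n) (Fin n) ℝ) (x : Fin n → ℝ) :
    (U *ᵥ x) ⬝ᵥ (A *ᵥ (U *ᵥ x)) = x ⬝ᵥ ((Uᵀ * A * U) *ᵥ x) := by
  rw [dot_mulVec, ← mulVec_mulVec, ← mulVec_mulVec]

lemma dot_orth {U : Matrix (Fin n) (Fin n) ℝ} (hU : Uᵀ * U = 1) (x : Fin n → ℝ) :
    (U *ᵥ x) ⬝ᵥ (U *ᵥ x) = x ⬝ᵥ x := by
  rw [dot_mulVec, mulVec_mulVec, hU, one_mulVec]

lemma dot_diag (d x : Fin n → ℝ) : x ⬝ᵥ (diagonal d *ᵥ x) = ∑ i, d i * x i ^ 2 := by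
  simp only [dotProduct, mulVec_diagonal]
  exact Finset.sum_congr rfl fun i _ => by ring

lemma dot_self (x : Fin n → ℝ) : x ⬝ᵥ x = ∑ i, x i ^ 2 := by
  simp only [dotProduct]
  exact Finset.sum_congr rfl fun i _ => by ring

lemma mulVec_nsq_le (M : Matrix (Fin n) (Fin n) ℝ) (v : Fin n → ℝ) :
    (M *ᵥ v) ⬝ᵥ (M *ᵥ v) ≤ hsn M * (v ⬝ᵥ v) := by
  rw [dot_self, dot_self, hsn, Finset.sum_mul]
  refine Finset.sum_le_sum fun i _ => ?_
  exact Finset.sum_mul_sq_le_sq_mul_sq Finset.univ (fun j => M i j) v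

lemma hsn_nonneg (M : Matrix (Fin n) (Fin n) ℝ) : 0 ≤ hsn M := by unfold hsn; positivity

lemma hsn_transpose (M : Matrix (Fin n) (Fin n) ℝ) : hsn Mᵀ = hsn M := by
  unfold hsn; rw [Finset.sum_comm]; rfl

/-- Min-max comparison of sorted eigenvalues. -/
theorem ev_le {A B T : Matrix (Fin n) (Fin n) ℝ} (hA : A.IsHermitian) (hB : B.IsHermitian)
    {a c : ℝ} (ha : 0 ≤ a) (hT : ∀ v, (T *ᵥ v) ⬝ᵥ (T *ᵥ v) ≤ c * (v ⬝ᵥ v))
    (h : ∀ v, v ⬝ᵥ (A *ᵥ v) ≤ a * ((T *ᵥ v) ⬝ᵥ (B *ᵥ (T *ᵥ v)))) {j : ℕ} (hj : j < n)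
    (hBj : 0 ≤ ev B j) : ev A j ≤ a * c * ev B j := by
  obtain ⟨U, hU1, hU2, hU⟩ := frameN hA
  obtain ⟨W, hW1, hW2, hW⟩ := frameN hB
  set jj : Fin n := ⟨j, hj⟩ with hjj
  set Q := Wᵀ * T * U with hQ
  let L : (Fin n → ℝ) →ₗ[ℝ] ({i : Fin n // i ≠ jj} → ℝ) :=
    LinearMap.pi (fun i : {i : Fin n // i ≠ jj} =>
      if jj < i.1 then LinearMap.proj i.1 else (LinearMap.proj i.1) ∘ₗ (Matrix.mulVecLin Q))
  have hker : LinearMap.ker L ≠ ⊥ := by
    apply LinearMap.ker_ne_bot_of_finrank_lt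
    rw [Module.finrank_fintype_fun_eq_card, Module.finrank_fintype_fun_eq_card,
      Fintype.card_fin, Fintype.card_subtype_compl, Fintype.card_fin, Fintype.card_subtype_eq]
    omega
  obtain ⟨x, hx, hx0⟩ := (Submodule.ne_bot_iff _).mp hker
  have hLx : ∀ i : {i : Fin n // i ≠ jj}, L x i = 0 := fun i => by
    have := LinearMap.mem_ker.mp hx
    rw [this]; rfl
  have h1 : ∀ i : Fin n, jj < i → x i = 0 := by
    intro i hi
    have := hLx ⟨i, hi.ne'⟩
    simpa [L, hi] using this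
  have h2 : ∀ i : Fin n, i < jj → (Q *ᵥ x) i = 0 := by
    intro i hi
    have := hLx ⟨i, hi.ne⟩
    simpa [L, not_lt.mpr hi.le] using this
  have hxx : 0 < x ⬝ᵥ x := by
    rw [dot_self]
    obtain ⟨i, hi⟩ := Function.ne_iff.mp hx0
    refine Finset.sum_pos' (fun i _ => sq_nonneg _) ⟨i, Finset.mem_univ _, ?_⟩
    have : x i ≠ 0 := hi
    positivity
  set v := U *ᵥ x with hv
  set y := Q *ᵥ x with hy
  have hTv : T *ᵥ v = W *ᵥ y := by
    rw [hv, hy, hQ, mulVec_mulVec, mulVec_mulVec, ← Matrix.mul_assoc, ← Matrix.mul_assoc, hW2,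
      Matrix.one_mul]
  have e1 : ev A j * (x ⬝ᵥ x) ≤ v ⬝ᵥ (A *ᵥ v) := by
    rw [hv, dot_conj, hU, dot_diag, dot_self, Finset.mul_sum]
    refine Finset.sum_le_sum fun i _ => ?_
    rcases lt_or_ge jj i with hi | hi
    · rw [h1 i hi]; simp
    · exact mul_le_mul_of_nonneg_right (ev_anti hA hi hj) (sq_nonneg _)
  have e2 : (T *ᵥ v) ⬝ᵥ (B *ᵥ (T *ᵥ v)) ≤ ev B j * ((T *ᵥ v) ⬝ᵥ (T *ᵥ v)) := by
    rw [hTv, dot_conj, hW, dot_diag, dot_orth hW1, dot_self, Finset.mul_sum]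
    refine Finset.sum_le_sum fun i _ => ?_
    rcases lt_or_ge i jj with hi | hi
    · rw [h2 i hi]; simp
    · exact mul_le_mul_of_nonneg_right (ev_anti hB hi i.2) (sq_nonneg _)
  have e3 := h v
  have e4 := hT v
  have e5 : v ⬝ᵥ v = x ⬝ᵥ x := by rw [hv, dot_orth hU1]
  rw [e5] at e4
  have e6 : ev A j * (x ⬝ᵥ x) ≤ a * c * ev B j * (x ⬝ᵥ x) := by
    calc ev A j * (x ⬝ᵥ x) ≤ a * ((T *ᵥ v) ⬝ᵥ (B *ᵥ (T *ᵥ v))) := e1.trans e3
      _ ≤ a * (ev B j * (c * (x ⬝ᵥ x))) :=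
        mul_le_mul_of_nonneg_left (e2.trans (mul_le_mul_of_nonneg_left e4 hBj)) ha
      _ = _ := by ring
  exact le_of_mul_le_mul_right e6 hxx

lemma bb_herm (M : Matrix (Fin n) (Fin n) ℝ) : (M * Mᵀ).IsHermitian := by
  have := isHermitian_mul_conjTranspose_self M
  rwa [conjTranspose_eq_transpose_of_trivial] at this

/-- Squares of the singular values of `M`, in decreasing order. -/
noncomputable def xv (M : Matrix (Fin n) (Fin n) ℝ) (j : ℕ) : ℝ := ev (M * Mᵀ) j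

lemma xv_anti (M : Matrix (Fin n) (Fin n) ℝ) {i j : ℕ} (hij : i ≤ j) (hj : j < n) :
    xv M j ≤ xv M i := ev_anti (bb_herm M) hij hj

lemma quad_bb (M : Matrix (Fin n) (Fin n) ℝ) (v : Fin n → ℝ) :
    v ⬝ᵥ ((M * Mᵀ) *ᵥ v) = (Mᵀ *ᵥ v) ⬝ᵥ (Mᵀ *ᵥ v) := by
  rw [dot_mulVec, transpose_transpose, mulVec_mulVec]

theorem frameX (M : Matrix (Fin n) (Fin n) ℝ) :
    ∃ U : Matrix (Fin n) (Fin n) ℝ, Uᵀ * U = 1 ∧ U * Uᵀ = 1 ∧
      Uᵀ * (M * Mᵀ) * U = diagonal (fun i : Fin n => xv M i) := frameN (bb_herm M)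

lemma xv_nonneg (M : Matrix (Fin n) (Fin n) ℝ) {j : ℕ} : 0 ≤ xv M j := by
  by_cases hj : j < n
  · obtain ⟨U, hU1, hU2, hU⟩ := frameX M
    have h1 := congrFun (congrFun hU ⟨j, hj⟩) ⟨j, hj⟩
    rw [diagonal_apply_eq] at h1
    simp only at h1
    rw [← h1, show Uᵀ * (M * Mᵀ) * U = (Mᵀ * U)ᵀ * (Mᵀ * U) by
      rw [transpose_mul, transpose_transpose]; simp only [Matrix.mul_assoc], Matrix.mul_apply]
    exact Finset.sum_nonneg fun i _ => by rw [transpose_apply]; exact mul_self_nonneg _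
  · unfold xv ev; rw [dif_neg (by tauto)]; norm_num

lemma sum_xv (M : Matrix (Fin n) (Fin n) ℝ) : ∑ i : Fin n, xv M i = hsn M := by
  obtain ⟨U, hU1, hU2, hU⟩ := frameX M
  have h1 : trace (Uᵀ * (M * Mᵀ) * U) = ∑ i : Fin n, xv M i := by rw [hU, trace_diagonal]
  rw [← h1, trace_mul_comm, ← Matrix.mul_assoc, hU2, Matrix.one_mul]
  simp only [trace, diag_apply, Matrix.mul_apply, transpose_apply, hsn]
  exact Finset.sum_congr rfl fun i _ => Finset.sum_congr rfl fun j _ => by ring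

lemma prod_xv (M : Matrix (Fin n) (Fin n) ℝ) : ∏ i : Fin n, xv M i = M.det ^ 2 := by
  obtain ⟨U, hU1, hU2, hU⟩ := frameX M
  have h1 : det (Uᵀ * (M * Mᵀ) * U) = ∏ i : Fin n, xv M i := by rw [hU, det_diagonal]
  have h2 := congrArg det hU1
  rw [det_mul, det_one] at h2
  rw [← h1, det_mul, det_mul, det_mul, det_transpose M, mul_right_comm, h2]
  ring

lemma xv_pos {M : Matrix (Fin n) (Fin n) ℝ} (hM : M.det ≠ 0) (j : ℕ) : 0 < xv M j := by
  by_cases hj : j < n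
  · refine lt_of_le_of_ne (xv_nonneg M) fun h0 => ?_
    have h1 : ∏ i : Fin n, xv M i = 0 := Finset.prod_eq_zero (Finset.mem_univ ⟨j, hj⟩) h0.symm
    rw [prod_xv] at h1
    exact hM (pow_eq_zero_iff (two_ne_zero)|>.mp h1)
  · unfold xv ev; rw [dif_neg (by tauto)]; norm_num

theorem xv_mul_le (S M T : Matrix (Fin n) (Fin n) ℝ) {j : ℕ} (hj : j < n) :
    xv (S * M * T) j ≤ hsn T * hsn S * xv M j := by
  refine ev_le (T := Sᵀ) (bb_herm _) (bb_herm _) (hsn_nonneg T) (fun v => ?_) (fun v => ?_) hj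
    (xv_nonneg M)
  · have := mulVec_nsq_le Sᵀ v
    rwa [hsn_transpose] at this
  · rw [quad_bb, quad_bb]
    have := mulVec_nsq_le Tᵀ (Mᵀ *ᵥ (Sᵀ *ᵥ v))
    rw [hsn_transpose] at this
    have e : (S * M * T)ᵀ *ᵥ v = Tᵀ *ᵥ (Mᵀ *ᵥ (Sᵀ *ᵥ v)) := by
      rw [transpose_mul, transpose_mul, mulVec_mulVec, mulVec_mulVec, Matrix.mul_assoc]
    rw [e]; exact this

/-- The gaps `log (x_j / x_{j+1})`. -/
noncomputable def gap (M : Matrix (Fin n) (Fin n) ℝ) (j : ℕ) : ℝ :=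
  Real.log (xv M j / xv M (j + 1))

lemma gap_nonneg {M : Matrix (Fin n) (Fin n) ℝ} (hM : M.det ≠ 0) {j : ℕ} (hj : j + 1 < n) :
    0 ≤ gap M j := by
  apply Real.log_nonneg
  rw [one_le_div (xv_pos hM _)]
  exact xv_anti M (Nat.le_succ j) hj

lemma exp_gap {M : Matrix (Fin n) (Fin n) ℝ} (hM : M.det ≠ 0) (j : ℕ) :
    xv M j = Real.exp (gap M j) * xv M (j + 1) := by
  have h1 := xv_pos hM j
  have h2 := xv_pos hM (j + 1)
  rw [gap, Real.exp_log (by positivity)]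
  field_simp

theorem gap_mul {S Si M T Ti : Matrix (Fin n) (Fin n) ℝ} (hS : Si * S = 1) (hT : T * Ti = 1)
    (hM : M.det ≠ 0) {j : ℕ} (hj : j + 1 < n) :
    |gap (S * M * T) j - gap M j| ≤ Real.log (hsn T * hsn S * (hsn Ti * hsn Si)) := by
  have hdS : S.det ≠ 0 := by
    intro h0; have := congrArg det hS; rw [det_mul, h0] at this; simp at this
  have hdT : T.det ≠ 0 := by
    intro h0; have := congrArg det hT; rw [det_mul, h0] at this; simp at this
  have hM' : (S * M * T).det ≠ 0 := by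
    rw [det_mul, det_mul]; exact mul_ne_zero (mul_ne_zero hdS hM) hdT
  have hback : Si * (S * M * T) * Ti = M := by
    rw [show Si * (S * M * T) * Ti = (Si * S) * M * (T * Ti) by simp only [Matrix.mul_assoc], hS,
      hT, Matrix.one_mul, Matrix.mul_one]
  have up : ∀ i, i < n → xv (S * M * T) i ≤ hsn T * hsn S * xv M i := fun i hi =>
    xv_mul_le S M T hi
  have dn : ∀ i, i < n → xv M i ≤ hsn Ti * hsn Si * xv (S * M * T) i := fun i hi => by
    have := xv_mul_le Si (S * M * T) Ti hi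
    rwa [hback] at this
  have a0 := xv_pos hM j
  have a1 := xv_pos hM (j + 1)
  have b0 := xv_pos hM' j
  have b1 := xv_pos hM' (j + 1)
  have hj' : j < n := Nat.lt_of_succ_lt hj
  have c0 : 0 < hsn T * hsn S := by
    by_contra hc
    have := up j hj'
    nlinarith [mul_nonneg (hsn_nonneg T) (hsn_nonneg S)]
  have c1 : 0 < hsn Ti * hsn Si := by
    by_contra hc
    have := dn j hj'
    nlinarith [mul_nonneg (hsn_nonneg Ti) (hsn_nonneg Si)]
  set u := hsn T * hsn S with hu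
  set w := hsn Ti * hsn Si with hw
  have u0 : Real.log (xv (S * M * T) j) ≤ Real.log u + Real.log (xv M j) := by
    rw [← Real.log_mul c0.ne' a0.ne']
    exact Real.log_le_log b0 (up j hj')
  have u1 : Real.log (xv (S * M * T) (j + 1)) ≤ Real.log u + Real.log (xv M (j + 1)) := by
    rw [← Real.log_mul c0.ne' a1.ne']
    exact Real.log_le_log b1 (up (j + 1) hj)
  have d0 : Real.log (xv M j) ≤ Real.log w + Real.log (xv (S * M * T) j) := by
    rw [← Real.log_mul c1.ne' b0.ne']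
    exact Real.log_le_log a0 (dn j hj')
  have d1 : Real.log (xv M (j + 1)) ≤ Real.log w + Real.log (xv (S * M * T) (j + 1)) := by
    rw [← Real.log_mul c1.ne' b1.ne']
    exact Real.log_le_log a1 (dn (j + 1) hj)
  rw [gap, gap, Real.log_div b0.ne' b1.ne', Real.log_div a0.ne' a1.ne',
    Real.log_mul c0.ne' c1.ne', abs_le]
  constructor
  · linarith only [u1, d0]
  · linarith only [u0, d1]

lemma xv_zero_le {M : Matrix (Fin n) (Fin n) ℝ} (hM : M.det ≠ 0) {R : ℝ}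
    (hR : ∀ j, j + 1 < n → gap M j ≤ R) (i : ℕ) (hi : i < n) :
    xv M 0 ≤ Real.exp (i * R) * xv M i := by
  induction i with
  | zero => simp
  | succ i ih =>
    have h1 := ih (Nat.lt_of_succ_lt hi)
    have h2 := exp_gap hM i
    have h3 : Real.exp (gap M i) ≤ Real.exp R := Real.exp_le_exp.mpr (hR i hi)
    have h4 := xv_pos hM (i + 1)
    calc xv M 0 ≤ Real.exp (i * R) * xv M i := h1
      _ = Real.exp (i * R) * (Real.exp (gap M i) * xv M (i + 1)) := by rw [h2]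
      _ ≤ Real.exp (i * R) * (Real.exp R * xv M (i + 1)) := by gcongr
      _ = Real.exp ((i + 1 : ℕ) * R) * xv M (i + 1) := by
        rw [← mul_assoc, ← Real.exp_add]; push_cast; ring_nf

theorem hsn_le_of_gap {M : Matrix (Fin n) (Fin n) ℝ} (hM : M.det = 1) {R : ℝ} (hR0 : 0 ≤ R)
    (hR : ∀ j, j + 1 < n → gap M j ≤ R) : hsn M ≤ n * Real.exp (n * R) := by
  rcases Nat.eq_zero_or_pos n with h0 | hn
  · subst h0; simp [hsn]
  have hM' : M.det ≠ 0 := by rw [hM]; exact one_ne_zero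
  have h1 : xv M (n - 1) ≤ 1 := by
    by_contra hlt
    push Not at hlt
    have hall : ∀ i : Fin n, 1 < xv M i := fun i =>
      lt_of_lt_of_le hlt (xv_anti M (by have := i.2; omega) (by omega))
    have : 1 < ∏ i : Fin n, xv M i := by
      have hne : (Finset.univ : Finset (Fin n)).Nonempty := ⟨⟨0, hn⟩, Finset.mem_univ _⟩
      have := Finset.prod_lt_prod_of_nonempty (s := (Finset.univ : Finset (Fin n)))
        (f := fun _ : Fin n => (1 : ℝ)) (g := fun i : Fin n => xv M i) (fun _ _ => one_pos) (fun i _ => hall i) hne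
      simpa using this
    rw [prod_xv, hM] at this
    norm_num at this
  have h2 : xv M 0 ≤ Real.exp (n * R) := by
    have e1 := xv_zero_le hM' hR (n - 1) (by omega)
    have e2 : Real.exp ((n - 1 : ℕ) * R) ≤ Real.exp (n * R) := by
      apply Real.exp_le_exp.mpr
      gcongr
      omega
    calc xv M 0 ≤ Real.exp ((n - 1 : ℕ) * R) * xv M (n - 1) := e1
      _ ≤ Real.exp (n * R) * 1 := by gcongr; exact (xv_nonneg M)
      _ = _ := mul_one _
  rw [← sum_xv]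
  calc ∑ i : Fin n, xv M i ≤ ∑ i : Fin n, Real.exp (n * R) :=
        Finset.sum_le_sum fun i _ => (xv_anti M (Nat.zero_le _) i.2).trans h2
    _ = _ := by simp

end Vale.Agent.P092.H175
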