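import Mathlib

/-! (KB) of helper464's text of (K'), part (B1): the abstract sum over the dyadic scales. -/

namespace Vale.Agent.P092.H175.Kb

open Finset

variable {E : Type*} [NormedAddCommGroup E] [InnerProductSpace ℂ E]

/-- Cauchy-Schwarz for a finite sum of vectors. -/
theorem norm_sum_sq_le {F : Type*} [SeminormedAddCommGroup F] {ι : Type*} (s : Finset ι)
    (v : ι → F) : ‖∑ i ∈ s, v i‖ ^ 2 ≤ (#s : ℝ) * ∑ i ∈ s, ‖v i‖ ^ 2 := by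
  have h1 : ‖∑ i ∈ s, v i‖ ≤ ∑ i ∈ s, ‖v i‖ := norm_sum_le _ _
  have h2 : (∑ i ∈ s, ‖v i‖) ^ 2 ≤ (#s : ℝ) * ∑ i ∈ s, ‖v i‖ ^ 2 := sq_sum_le_card_mul_sum_sq
  have h3 : (0 : ℝ) ≤ ‖∑ i ∈ s, v i‖ := norm_nonneg _
  nlinarith [h1, h2, h3]

/-- Cauchy-Schwarz with one extra term. -/
theorem norm_sum_add_sq_le {F : Type*} [SeminormedAddCommGroup F] (J : ℕ)
    (v : ℕ → F) (w : F) :
    ‖(∑ j ∈ range J, v j) + w‖ ^ 2 ≤ ((J : ℝ) + 1) * ((∑ j ∈ range J, ‖v j‖ ^ 2) + ‖w‖ ^ 2) := by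
  have h := norm_sum_sq_le (range (J + 1)) (fun j => if j = J then w else v j)
  have e1 : ∑ j ∈ range (J + 1), (if j = J then w else v j) = (∑ j ∈ range J, v j) + w := by
    rw [sum_range_succ]
    congr 1
    · refine sum_congr rfl fun j hj => ?_
      rw [if_neg (ne_of_lt (mem_range.1 hj))]
    · simp
  have e2 : ∑ j ∈ range (J + 1), ‖(if j = J then w else v j)‖ ^ 2
      = (∑ j ∈ range J, ‖v j‖ ^ 2) + ‖w‖ ^ 2 := by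
    rw [sum_range_succ]
    congr 1
    · refine sum_congr rfl fun j hj => ?_
      rw [if_neg (ne_of_lt (mem_range.1 hj))]
    · simp
  rw [e1, e2, card_range] at h
  push_cast at h
  exact h

/-- **(B1) The sum over the scales.** `Q j c` and `Ql k` are the operators of the pieces. -/
theorem scales_abs {κ γ : Type*} [DecidableEq γ] (S : Finset κ) (J : ℕ) (g : ℕ → κ → γ)
    (Q : ℕ → γ → (E →L[ℂ] E)) (Ql : κ → (E →L[ℂ] E)) (V : κ → (E →L[ℂ] E))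
    (A MN ML : ℝ) (hA : 0 ≤ A)
    (hV : ∀ k ∈ S, ‖V k‖ ≤ 1)
    (hone : ∀ k ∈ S, ∀ ξ, ξ = (∑ j ∈ range J, Q j (g j k) ξ) + Ql k ξ)
    (hMN : ∀ j < J, ∀ ξ, ∑ c ∈ S.image (g j), ‖Q j c ξ‖ ^ 2 ≤ MN * ‖ξ‖ ^ 2)
    (hML : ∀ ξ, ∑ k ∈ S, ‖Ql k ξ‖ ^ 2 ≤ ML * ‖ξ‖ ^ 2)
    (core : ∀ j < J, ∀ c ∈ S.image (g j), ∀ ξ,
      ∑ k ∈ S with g j k = c, ‖V k (Q j c ξ)‖ ^ 2 ≤ A * ‖Q j c ξ‖ ^ 2) (ξ : E) :
    ∑ k ∈ S, ‖V k ξ‖ ^ 2 ≤ ((J : ℝ) + 1) * ((J : ℝ) * (A * MN) + ML) * ‖ξ‖ ^ 2 := by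
  classical
  have h1 : ∀ k ∈ S, ‖V k ξ‖ ^ 2 ≤ ((J : ℝ) + 1) *
      ((∑ j ∈ range J, ‖V k (Q j (g j k) ξ)‖ ^ 2) + ‖Ql k ξ‖ ^ 2) := by
    intro k hk
    have h2 : V k ξ = (∑ j ∈ range J, V k (Q j (g j k) ξ)) + V k (Ql k ξ) := by
      conv_lhs => rw [hone k hk ξ]
      rw [map_add, map_sum]
    rw [h2]
    refine (norm_sum_add_sq_le J _ _).trans ?_
    have h3 : ‖V k (Ql k ξ)‖ ≤ ‖Ql k ξ‖ := by
      calc ‖V k (Ql k ξ)‖ ≤ ‖V k‖ * ‖Ql k ξ‖ := (V k).le_opNorm _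
        _ ≤ 1 * ‖Ql k ξ‖ := mul_le_mul_of_nonneg_right (hV k hk) (norm_nonneg _)
        _ = _ := one_mul _
    have h4 : ‖V k (Ql k ξ)‖ ^ 2 ≤ ‖Ql k ξ‖ ^ 2 := pow_le_pow_left₀ (norm_nonneg _) h3 2
    have h5 : (0 : ℝ) ≤ (J : ℝ) + 1 := by positivity
    nlinarith
  have hj : ∀ j ∈ range J, ∑ k ∈ S, ‖V k (Q j (g j k) ξ)‖ ^ 2 ≤ A * (MN * ‖ξ‖ ^ 2) := by
    intro j hj
    have hjJ := mem_range.1 hj
    have h6 : ∑ k ∈ S, ‖V k (Q j (g j k) ξ)‖ ^ 2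
        = ∑ c ∈ S.image (g j), ∑ k ∈ S with g j k = c, ‖V k (Q j (g j k) ξ)‖ ^ 2 := by
      refine (sum_fiberwise_of_maps_to (fun k hk => mem_image_of_mem _ hk) _).symm
    rw [h6]
    calc ∑ c ∈ S.image (g j), ∑ k ∈ S with g j k = c, ‖V k (Q j (g j k) ξ)‖ ^ 2
        = ∑ c ∈ S.image (g j), ∑ k ∈ S with g j k = c, ‖V k (Q j c ξ)‖ ^ 2 := by
          refine sum_congr rfl fun c _ => sum_congr rfl fun k hk => ?_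
          rw [(mem_filter.1 hk).2]
      _ ≤ ∑ c ∈ S.image (g j), A * ‖Q j c ξ‖ ^ 2 := by
          refine sum_le_sum fun c hc => core j hjJ c hc ξ
      _ = A * ∑ c ∈ S.image (g j), ‖Q j c ξ‖ ^ 2 := by rw [mul_sum]
      _ ≤ A * (MN * ‖ξ‖ ^ 2) := mul_le_mul_of_nonneg_left (hMN j hjJ ξ) hA
  calc ∑ k ∈ S, ‖V k ξ‖ ^ 2
      ≤ ∑ k ∈ S, ((J : ℝ) + 1) *
        ((∑ j ∈ range J, ‖V k (Q j (g j k) ξ)‖ ^ 2) + ‖Ql k ξ‖ ^ 2) := sum_le_sum h1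
    _ = ((J : ℝ) + 1) * ((∑ j ∈ range J, ∑ k ∈ S, ‖V k (Q j (g j k) ξ)‖ ^ 2)
        + ∑ k ∈ S, ‖Ql k ξ‖ ^ 2) := by
        rw [← mul_sum, sum_add_distrib, sum_comm]
    _ ≤ ((J : ℝ) + 1) * ((∑ _j ∈ range J, A * (MN * ‖ξ‖ ^ 2)) + ML * ‖ξ‖ ^ 2) := by
        refine mul_le_mul_of_nonneg_left (add_le_add (sum_le_sum hj) (hML ξ)) (by positivity)
    _ = ((J : ℝ) + 1) * ((J : ℝ) * (A * MN) + ML) * ‖ξ‖ ^ 2 := by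
        rw [sum_const, card_range, nsmul_eq_mul]; ring

end Vale.Agent.P092.H175.Kb
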