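import Vale.Agent.P092.H464.Pv
import Vale.Agent.P092.H175.KbA

/-! (KB) of helper464's text of (K'), part (B2): the dyadic lattice instance. -/

set_option linter.unusedSectionVars false

namespace Vale.Agent.P092.H175.Kb

open Finset MeasureTheory
open Vale.Agent.P092.H464

/-- the dyadic label of a point of the dual plane -/
noncomputable def ng (j : ℕ) (η : ℝ × ℝ) : ℤ × ℤ := (⌊2 ^ j * η.1⌋, ⌊2 ^ j * η.2⌋)

/-- the parent label -/
def par (c : ℤ × ℤ) : ℤ × ℤ := (c.1 / 2, c.2 / 2)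

/-- first chart coordinate of a line -/
noncomputable def et1 (ν : Fin 3 → ℝ) : ℝ := - ν 1 / ν 0

/-- second chart coordinate of a line -/
noncomputable def et2 (ν : Fin 3 → ℝ) : ℝ := - ν 2 / ν 0

variable {Y : Type*} [MeasurableSpace Y]

/-- the neighbourhood of radius `8 / 2 ^ j` of the lattice point `c / 2 ^ j` -/
def near (t : Y → Fin 3 → ℝ) (j : ℕ) (c : ℤ × ℤ) : Set Y :=
  {ν | t ν 0 ≠ 0 ∧ |2 ^ j * et1 (t ν) - c.1| ≤ 8 ∧ |2 ^ j * et2 (t ν) - c.2| ≤ 8}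

/-- the pieces -/
def piece (t : Y → Fin 3 → ℝ) : ℕ → ℤ × ℤ → Set Y
  | 0, c => (near t 0 c)ᶜ
  | j + 1, c => near t j (par c) \ near t (j + 1) c

theorem meas_near {t : Y → Fin 3 → ℝ} (ht : Measurable t) (j : ℕ) (c : ℤ × ℤ) :
    MeasurableSet (near t j c) := by
  have h0 : Measurable fun ν => t ν 0 := (measurable_pi_apply 0).comp ht
  have h1 : Measurable fun ν => t ν 1 := (measurable_pi_apply 1).comp ht
  have h2 : Measurable fun ν => t ν 2 := (measurable_pi_apply 2).comp ht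
  have e1 : Measurable fun ν => |2 ^ j * et1 (t ν) - (c.1 : ℝ)| :=
    (((h1.neg.div h0).const_mul _).sub_const _).abs
  have e2 : Measurable fun ν => |2 ^ j * et2 (t ν) - (c.2 : ℝ)| :=
    (((h2.neg.div h0).const_mul _).sub_const _).abs
  have m0 : MeasurableSet {ν | t ν 0 ≠ 0} := (measurableSet_eq_fun h0 measurable_const).compl
  exact m0.inter ((measurableSet_le e1 measurable_const).inter
    (measurableSet_le e2 measurable_const))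

theorem meas_piece {t : Y → Fin 3 → ℝ} (ht : Measurable t) (j : ℕ) (c : ℤ × ℤ) :
    MeasurableSet (piece t j c) := by
  cases j with
  | zero => exact (meas_near ht 0 c).compl
  | succ j => exact (meas_near ht j _).diff (meas_near ht (j + 1) c)

theorem floor_half (j : ℕ) (x : ℝ) : ⌊2 ^ (j + 1) * x⌋ / 2 = ⌊2 ^ j * x⌋ := by
  symm
  rw [Int.floor_eq_iff]
  have h1 := Int.floor_le (2 ^ (j + 1) * x)
  have h2 := Int.lt_floor_add_one (2 ^ (j + 1) * x)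
  set n := ⌊2 ^ (j + 1) * x⌋ with hn
  have e : (2 : ℝ) ^ (j + 1) * x = 2 * (2 ^ j * x) := by ring
  rw [e] at h1 h2
  have h3 : 2 * (n / 2) ≤ n := by omega
  have h4 : n ≤ 2 * (n / 2) + 1 := by omega
  have h3' : (2 : ℝ) * ((n / 2 : ℤ) : ℝ) ≤ n := by exact_mod_cast h3
  have h4' : (n : ℝ) ≤ 2 * ((n / 2 : ℤ) : ℝ) + 1 := by exact_mod_cast h4
  constructor <;> linarith

theorem par_ng (j : ℕ) (η : ℝ × ℝ) : par (ng (j + 1) η) = ng j η := by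
  unfold par ng
  simp only [floor_half]

theorem half_bounds (n : ℤ) : |(n : ℝ) / 2 - ((n / 2 : ℤ) : ℝ)| ≤ 1 / 2 := by
  have h3 : 2 * (n / 2) ≤ n := by omega
  have h4 : n ≤ 2 * (n / 2) + 1 := by omega
  have h3' : (2 : ℝ) * ((n / 2 : ℤ) : ℝ) ≤ n := by exact_mod_cast h3
  have h4' : (n : ℝ) ≤ 2 * ((n / 2 : ℤ) : ℝ) + 1 := by exact_mod_cast h4
  rw [abs_le]
  constructor <;> linarith

theorem near_one {j : ℕ} {x : ℝ} {n : ℤ} (h : |2 ^ (j + 1) * x - n| ≤ 8) :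
    |2 ^ j * x - ((n / 2 : ℤ) : ℝ)| ≤ 8 := by
  have h1 := half_bounds n
  have e : (2 : ℝ) ^ j * x - ((n / 2 : ℤ) : ℝ)
      = (2 ^ (j + 1) * x - n) / 2 + ((n : ℝ) / 2 - ((n / 2 : ℤ) : ℝ)) := by ring
  rw [e]
  rw [abs_le] at h h1 ⊢
  constructor <;> linarith [h.1, h.2, h1.1, h1.2]

theorem near_nested (t : Y → Fin 3 → ℝ) (j : ℕ) (c : ℤ × ℤ) :
    near t (j + 1) c ⊆ near t j (par c) :=
  fun _ hν => ⟨hν.1, near_one hν.2.1, near_one hν.2.2⟩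

variable {K : Type*} [NormedAddCommGroup K] [InnerProductSpace ℂ K] [CompleteSpace K]

/-- the telescoping identity -/
theorem telescope {L : Set Y → (K →L[ℂ] K)} (hL : Pv L) {t : Y → Fin 3 → ℝ} (ht : Measurable t)
    (η : ℝ × ℝ) (J : ℕ) :
    (1 : K →L[ℂ] K) = (∑ j ∈ range (J + 1), L (piece t j (ng j η))) + L (near t J (ng J η)) := by
  induction J with
  | zero =>
    rw [zero_add, sum_range_one]
    change 1 = L (near t 0 (ng 0 η))ᶜ + _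
    rw [hL.compl _ (meas_near ht _ _)]; abel
  | succ J ih =>
    rw [sum_range_succ]
    change 1 = _ + L (near t J (par (ng (J + 1) η)) \ near t (J + 1) (ng (J + 1) η)) + _
    rw [hL.diff (meas_near ht _ _) (meas_near ht _ _)]
    rw [hL.mul_of_subset' (meas_near ht _ _) (meas_near ht _ _) (near_nested t J _)]
    rw [par_ng]
    conv_lhs => rw [ih]
    abel

/-! ### Geometry of the pieces -/

theorem ng_close (j : ℕ) (x : ℝ) : |2 ^ j * x - (⌊2 ^ j * x⌋ : ℝ)| ≤ 1 := by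
  rw [abs_le]
  constructor <;> linarith [Int.floor_le (2 ^ j * x), Int.lt_floor_add_one (2 ^ j * x)]

theorem abs_scale (j : ℕ) (x y : ℝ) : |2 ^ j * x - 2 ^ j * y| = 2 ^ j * |x - y| := by
  rw [← mul_sub, abs_mul, abs_of_pos (by positivity)]

/-- the lines of `near` are close to the points with the label -/
theorem near_le {t : Y → Fin 3 → ℝ} {j : ℕ} {η : ℝ × ℝ} {ν : Y} (h : ν ∈ near t j (ng j η)) :
    t ν 0 ≠ 0 ∧ 2 ^ j * |et1 (t ν) - η.1| ≤ 9 ∧ 2 ^ j * |et2 (t ν) - η.2| ≤ 9 := by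
  obtain ⟨h0, h1, h2⟩ := h
  have c1 := ng_close j η.1
  have c2 := ng_close j η.2
  refine ⟨h0, ?_, ?_⟩
  · rw [← abs_scale]
    change |2 ^ j * et1 (t ν) - (⌊2 ^ j * η.1⌋ : ℝ)| ≤ 8 at h1
    rw [abs_le] at *
    constructor <;> linarith [h1.1, h1.2, c1.1, c1.2]
  · rw [← abs_scale]
    change |2 ^ j * et2 (t ν) - (⌊2 ^ j * η.2⌋ : ℝ)| ≤ 8 at h2
    rw [abs_le] at *
    constructor <;> linarith [h2.1, h2.2, c2.1, c2.2]

/-- the lines outside `near` are away from the points with the label -/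
theorem near_ge {t : Y → Fin 3 → ℝ} {j : ℕ} {η : ℝ × ℝ} {ν : Y} (h0 : t ν 0 ≠ 0)
    (h : ν ∉ near t j (ng j η)) :
    7 ≤ 2 ^ j * |et1 (t ν) - η.1| ∨ 7 ≤ 2 ^ j * |et2 (t ν) - η.2| := by
  have c1 := ng_close j η.1
  have c2 := ng_close j η.2
  by_contra hc
  push Not at hc
  obtain ⟨d1, d2⟩ := hc
  apply h
  rw [← abs_scale] at d1 d2
  refine ⟨h0, ?_, ?_⟩
  · change |2 ^ j * et1 (t ν) - (⌊2 ^ j * η.1⌋ : ℝ)| ≤ 8
    rw [abs_le] at *
    rw [abs_lt] at d1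
    constructor <;> linarith [d1.1, d1.2, c1.1, c1.2]
  · change |2 ^ j * et2 (t ν) - (⌊2 ^ j * η.2⌋ : ℝ)| ≤ 8
    rw [abs_le] at *
    rw [abs_lt] at d2
    constructor <;> linarith [d2.1, d2.2, c2.1, c2.2]

/-- geometry of the first piece -/
theorem piece_zero {t : Y → Fin 3 → ℝ} {η : ℝ × ℝ} {ν : Y} (h : ν ∈ piece t 0 (ng 0 η)) :
    t ν 0 = 0 ∨ 7 ≤ |et1 (t ν) - η.1| ∨ 7 ≤ |et2 (t ν) - η.2| := by
  by_cases h0 : t ν 0 = 0
  · exact Or.inl h0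
  · right
    have := near_ge h0 h
    simpa using this

/-- geometry of the other pieces -/
theorem piece_succ {t : Y → Fin 3 → ℝ} {j : ℕ} {η : ℝ × ℝ} {ν : Y}
    (h : ν ∈ piece t (j + 1) (ng (j + 1) η)) :
    t ν 0 ≠ 0 ∧ 2 ^ j * |et1 (t ν) - η.1| ≤ 9 ∧ 2 ^ j * |et2 (t ν) - η.2| ≤ 9 ∧
      (3 ≤ 2 ^ j * |et1 (t ν) - η.1| ∨ 3 ≤ 2 ^ j * |et2 (t ν) - η.2|) := by
  have h1 : ν ∈ near t j (par (ng (j + 1) η)) := h.1
  rw [par_ng] at h1
  obtain ⟨h0, a1, a2⟩ := near_le h1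
  refine ⟨h0, a1, a2, ?_⟩
  have h2 := near_ge h0 h.2
  rw [pow_succ] at h2
  rcases h2 with h2 | h2
  · left; linarith
  · right; linarith

/-! ### Multiplicities -/

theorem card_near_half (j : ℕ) (x : ℝ) :
    ∃ I : Finset ℤ, I.card ≤ 35 ∧ ∀ n : ℤ, |2 ^ j * x - ((n / 2 : ℤ) : ℝ)| ≤ 8 → n ∈ I := by
  refine ⟨Finset.Icc (2 * ⌈2 ^ j * x - 8⌉) (2 * ⌊2 ^ j * x + 8⌋ + 1), ?_, ?_⟩
  · rw [Int.card_Icc]
    have h1 := Int.le_ceil (2 ^ j * x - 8)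
    have h2 := Int.floor_le (2 ^ j * x + 8)
    have h3 : ((⌊2 ^ j * x + 8⌋ - ⌈2 ^ j * x - 8⌉ : ℤ) : ℝ) ≤ (16 : ℤ) := by
      push_cast; linarith
    have h4 : ⌊2 ^ j * x + 8⌋ - ⌈2 ^ j * x - 8⌉ ≤ 16 := by exact_mod_cast h3
    omega
  · intro n hn
    rw [abs_le] at hn
    have h1 : ⌈2 ^ j * x - 8⌉ ≤ n / 2 := Int.ceil_le.2 (by linarith [hn.1, hn.2])
    have h2 : n / 2 ≤ ⌊2 ^ j * x + 8⌋ := Int.le_floor.2 (by linarith [hn.1, hn.2])
    rw [Finset.mem_Icc]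
    omega

theorem floor_small {x : ℝ} (h : |x| ≤ 1) : ⌊(2 : ℝ) ^ 0 * x⌋ ∈ Finset.Icc (-1 : ℤ) 1 := by
  rw [pow_zero, one_mul, Finset.mem_Icc]
  rw [abs_le] at h
  constructor
  · rw [Int.le_floor]; push_cast; exact h.1
  · have h3 : ((⌊x⌋ : ℤ) : ℝ) ≤ (1 : ℤ) := by
      push_cast; exact (Int.floor_le x).trans h.2
    exact_mod_cast h3

theorem mult_piece (t : Y → Fin 3 → ℝ) {κ : Type*} (η : κ → ℝ × ℝ) (S : Finset κ)
    (hη : ∀ k ∈ S, |(η k).1| ≤ 1 ∧ |(η k).2| ≤ 1) (j : ℕ) (ν : Y) (T : Finset (ℤ × ℤ))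
    (hT : T ⊆ S.image (fun k => ng j (η k))) (h : ∀ c ∈ T, ν ∈ piece t j c) :
    T.card ≤ 35 ^ 2 := by
  cases j with
  | zero =>
    have h1 : T ⊆ Finset.Icc (-1 : ℤ) 1 ×ˢ Finset.Icc (-1 : ℤ) 1 := by
      intro c hc
      obtain ⟨k, hk, rfl⟩ := Finset.mem_image.1 (hT hc)
      exact Finset.mem_product.2 ⟨floor_small (hη k hk).1, floor_small (hη k hk).2⟩
    refine (Finset.card_le_card h1).trans ?_
    rw [Finset.card_product]
    decide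
  | succ j =>
    obtain ⟨I1, hI1, hm1⟩ := card_near_half j (et1 (t ν))
    obtain ⟨I2, hI2, hm2⟩ := card_near_half j (et2 (t ν))
    have h1 : T ⊆ I1 ×ˢ I2 := by
      intro c hc
      have h2 := (h c hc).1
      exact Finset.mem_product.2 ⟨hm1 _ h2.2.1, hm2 _ h2.2.2⟩
    refine (Finset.card_le_card h1).trans ?_
    rw [Finset.card_product, pow_two]
    exact Nat.mul_le_mul hI1 hI2

theorem floor_div_close {x r : ℝ} (hr : 0 < r) : |x - ⌊x / r⌋ * r| ≤ r := by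
  have h1 := Int.floor_le (x / r)
  have h2 := Int.lt_floor_add_one (x / r)
  rw [le_div_iff₀ hr] at h1
  rw [div_lt_iff₀ hr] at h2
  rw [abs_le]
  constructor <;> nlinarith

theorem floor_div_mem {x r : ℝ} (hr : 0 < r) {m : ℕ} (h : |x| ≤ m * r) :
    ⌊x / r⌋ ∈ Finset.Icc (-(m : ℤ)) m := by
  rw [abs_le] at h
  rw [Finset.mem_Icc]
  constructor
  · rw [Int.le_floor]; push_cast
    rw [le_div_iff₀ hr]; linarith [h.1]
  · have h3 : ((⌊x / r⌋ : ℤ) : ℝ) ≤ ((m : ℤ) : ℝ) := by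
      refine (Int.floor_le _).trans ?_
      rw [div_le_iff₀ hr]; push_cast; exact h.2
    exact_mod_cast h3

/-- covering a big square by small ones -/
theorem card_square {κ : Type*} (η : κ → ℝ × ℝ) (S : Finset κ) {r : ℝ} (hr : 0 < r) {C₀ : ℕ}
    (hcnt : ∀ n : ℝ × ℝ, #{k ∈ S | |(η k).1 - n.1| ≤ r ∧ |(η k).2 - n.2| ≤ r} ≤ C₀)
    (m : ℕ) (n : ℝ × ℝ) :
    #{k ∈ S | |(η k).1 - n.1| ≤ m * r ∧ |(η k).2 - n.2| ≤ m * r} ≤ (2 * m + 1) ^ 2 * C₀ := by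
  classical
  set I : Finset (ℤ × ℤ) := Finset.Icc (-(m : ℤ)) m ×ˢ Finset.Icc (-(m : ℤ)) m with hI
  have hcard : I.card = (2 * m + 1) ^ 2 := by
    rw [hI, Finset.card_product, Int.card_Icc, pow_two]
    have : ((m : ℤ) + 1 - -(m : ℤ)).toNat = 2 * m + 1 := by omega
    rw [this]
  have hsub : (S.filter fun k => |(η k).1 - n.1| ≤ m * r ∧ |(η k).2 - n.2| ≤ m * r) ⊆
      I.biUnion fun i => S.filter fun k =>
        |(η k).1 - (n.1 + i.1 * r)| ≤ r ∧ |(η k).2 - (n.2 + i.2 * r)| ≤ r := by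
    intro k hk
    obtain ⟨hkS, h1, h2⟩ := Finset.mem_filter.1 hk
    refine Finset.mem_biUnion.2 ⟨(⌊((η k).1 - n.1) / r⌋, ⌊((η k).2 - n.2) / r⌋), ?_, ?_⟩
    · exact Finset.mem_product.2 ⟨floor_div_mem hr h1, floor_div_mem hr h2⟩
    · refine Finset.mem_filter.2 ⟨hkS, ?_, ?_⟩
      · have := floor_div_close (x := (η k).1 - n.1) hr
        rwa [← sub_sub]
      · have := floor_div_close (x := (η k).2 - n.2) hr
        rwa [← sub_sub]
  calc _ ≤ _ := Finset.card_le_card hsub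
    _ ≤ I.card * C₀ := by
        refine Finset.card_biUnion_le_card_mul _ _ _ fun i _ => ?_
        exact hcnt (n.1 + i.1 * r, n.2 + i.2 * r)
    _ = _ := by rw [hcard]

/-- multiplicity of the last pieces -/
theorem mult_last (t : Y → Fin 3 → ℝ) {κ : Type*} (η : κ → ℝ × ℝ) (S : Finset κ)
    {r : ℝ} (hr : 0 < r) {C₀ : ℕ}
    (hcnt : ∀ n : ℝ × ℝ, #{k ∈ S | |(η k).1 - n.1| ≤ r ∧ |(η k).2 - n.2| ≤ r} ≤ C₀)
    (J m : ℕ) (hJ : 9 ≤ m * r * 2 ^ J) (ν : Y) (T : Finset κ) (hT : T ⊆ S)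
    (h : ∀ k ∈ T, ν ∈ near t J (ng J (η k))) :
    T.card ≤ (2 * m + 1) ^ 2 * C₀ := by
  classical
  refine le_trans (Finset.card_le_card ?_) (card_square η S hr hcnt m (et1 (t ν), et2 (t ν)))
  intro k hk
  obtain ⟨-, h1, h2⟩ := near_le (h k hk)
  have hp : (0 : ℝ) < 2 ^ J := by positivity
  refine Finset.mem_filter.2 ⟨hT hk, ?_, ?_⟩
  · rw [abs_sub_comm]
    have : 2 ^ J * |et1 (t ν) - (η k).1| ≤ 2 ^ J * (m * r) := by linarith
    exact le_of_mul_le_mul_left this hp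
  · rw [abs_sub_comm]
    have : 2 ^ J * |et2 (t ν) - (η k).2| ≤ 2 ^ J * (m * r) := by linarith
    exact le_of_mul_le_mul_left this hp

/-- **(KB)** The sum over the scales, with the lattice pieces. `V k = Lm (B k) * W k`. -/
theorem kb {L : Set Y → (K →L[ℂ] K)} (hL : Pv L) {t : Y → Fin 3 → ℝ} (ht : Measurable t)
    {κ : Type*} (η : κ → ℝ × ℝ) (S : Finset κ)
    (hη : ∀ k ∈ S, |(η k).1| ≤ 1 ∧ |(η k).2| ≤ 1) {r : ℝ} (hr : 0 < r) {C₀ : ℕ}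
    (hcnt : ∀ n : ℝ × ℝ, #{k ∈ S | |(η k).1 - n.1| ≤ r ∧ |(η k).2 - n.2| ≤ r} ≤ C₀)
    (J m : ℕ) (hJ : 9 ≤ m * r * 2 ^ J) (V : κ → (K →L[ℂ] K)) (hV : ∀ k ∈ S, ‖V k‖ ≤ 1)
    (A : ℝ) (hA : 0 ≤ A)
    (core : ∀ j ≤ J, ∀ c : ℤ × ℤ, ∀ ζ, ∑ k ∈ S with ng j (η k) = c,
      ‖V k (L (piece t j c) ζ)‖ ^ 2 ≤ A * ‖L (piece t j c) ζ‖ ^ 2) (ξ : K) :
    ∑ k ∈ S, ‖V k ξ‖ ^ 2 ≤ ((J : ℝ) + 2) *
      (((J : ℝ) + 1) * (A * 35 ^ 2) + ((2 * m + 1) ^ 2 * C₀ : ℕ)) * ‖ξ‖ ^ 2 := by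
  classical
  have h := scales_abs S (J + 1) (fun j k => ng j (η k)) (fun j c => L (piece t j c))
    (fun k => L (near t J (ng J (η k)))) V A (35 ^ 2 : ℕ) ((2 * m + 1) ^ 2 * C₀ : ℕ) hA hV
    (fun k _ ξ => by
      have h1 := congrArg (fun T : K →L[ℂ] K => T ξ) (telescope hL ht (η k) J)
      simpa using h1)
    (fun j _ ξ => hL.mult _ _ (fun c _ => meas_piece ht j c) _
      (fun ν T hT h => mult_piece t η S hη j ν T hT h) ξ)
    (fun ξ => hL.mult S (fun k => near t J (ng J (η k))) (fun k _ => meas_near ht _ _) _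
      (fun ν T hT h => mult_last t η S hr hcnt J m hJ ν T hT h) ξ)
    (fun j hj c _ ξ => core j (Nat.lt_succ_iff.1 hj) c ξ) ξ
  refine h.trans (le_of_eq ?_)
  push_cast
  ring

end Vale.Agent.P092.H175.Kb
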