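import Vale.Agent.P092.H175.MatchB
import Vale.Agent.P092.H156.Int
import Vale.Agent.P092.H132.Cj
import Vale.Agent.P092.PA.Blocks

/-!
P092 (helper175), team A, block [MATCH]: there are no nonzero smooth elements for one place of `Γ`
and two different places of `Λ`.
-/

set_option linter.all false

open scoped InnerProductSpace Topology ENNReal Pointwise
open Filter ContinuousLinearMap MeasureTheory
open Vale.Agent.P092.H160 Vale.Agent.P092.H156.Sm
open Vale.Agent.P092.H933 (HoweMoore)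

namespace Vale.Agent.P092.H175

variable {Γ Λ G H H₁ H₂ K : Type} [Group Γ] [Countable Γ] [Group Λ] [Group G] [Group H]
  [Group H₁] [Group H₂]
  [TopologicalSpace G] [TopologicalSpace H] [TopologicalSpace H₁] [TopologicalSpace H₂]
  [IsTopologicalGroup G] [IsTopologicalGroup H]
  [IsTopologicalGroup H₁] [IsTopologicalGroup H₂] [MeasurableSpace G] [BorelSpace G]
  [SecondCountableTopology G]
  [NormedAddCommGroup K] [InnerProductSpace ℂ K] [CompleteSpace K]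
  {ρ : Γ →* (K →L[ℂ] K)} {V : Λ →* (K →L[ℂ] K)} {ω : K} {ι : Γ →* G} {κ : Λ →* H}
  {κ₁ : Λ →* H₁} {κ₂ : Λ →* H₂}
  {μ : Measure G} [μ.IsMulLeftInvariant]
  {a b : G → K →L[ℂ] K}

/-- [F1] of helper156 in the form used here. -/
theorem f1' [T1Space H] (h : TFrm ρ V ω) (hd : DenseRange κ)
    (hC : ∀ v, v ≠ 1 → ¬ IsOpen ((Subgroup.centralizer {κ v} : Subgroup H) : Set H)) :
    F1' ι κ ρ V ω μ := fun a b ha hb ζ η => by
  have oa := Smo.ort h.toFrm hd hC ha ha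
  have ob := Smo.ort h.toFrm hd hC hb hb
  have oab := Smo.ort h.toFrm hd hC ha hb
  exact ⟨memLp_apply h ha.toFd ha.l2 oa ζ,
    integral_apply h ha.toFd hb.toFd ha.l2 hb.l2 oa ob oab ζ η⟩

theorem cj_cjr (h : Frm ρ V ω) : Cj ι ρ V ω (H132.cjr h ι μ) where
  norm := fun v ξ => H132.norm_cjr h ι v ξ
  fld := fun v b hb ξ hξ => H132.cjr_field h ι v hb.equiv hξ

/-- the smooth vectors are continuous vectors -/
theorem cont_smSp (h : Frm ρ V ω) {c : Λ →* (Lp K 2 μ →L[ℂ] Lp K 2 μ)} (hc : Cj ι ρ V ω c)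
    {ξ : Lp K 2 μ} (hξ : ξ ∈ smSp ι κ ρ V ω μ) :
    Tendsto (fun v => c v ξ) (comap κ (𝓝 1)) (𝓝 ξ) := by
  obtain ⟨b, hb, hb'⟩ := hξ
  rw [Metric.tendsto_nhds]
  intro ε hε
  obtain ⟨U, hU, h1⟩ := conj_cont h hb (ε ^ 2 / 4) (by positivity)
  filter_upwards [preimage_mem_comap hU] with v hv
  have h2 := h1 v hv
  have hl : L2 ω μ (fun x => V v * b x * V v⁻¹ - b x) := (L2.conj h hb.toFd hb.l2 v).sub hb.l2
  have h3 : c v ξ - ξ = hl.toLp _ := by
    refine Lp.ext ?_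
    filter_upwards [Lp.coeFn_sub (c v ξ) ξ, hc.fld v b hb.toFd ξ hb', hb', hl.coeFn_toLp]
      with x e1 e2 e3 e4
    rw [e1, Pi.sub_apply, e2, e3, e4]; rfl
  rw [dist_eq_norm, h3]
  rw [← norm_toLp_sq hl] at h2
  nlinarith [norm_nonneg (MemLp.toLp _ hl)]

/-- [MATCH] along a filter. -/
theorem match_zero [T2Space G] [NoncompactSpace G] [SigmaCompactSpace G]
    [μ.IsMulRightInvariant] [μ.IsOpenPosMeasure] [T1Space H₂]
    (h : TFrm ρ V ω) (hι : DenseRange ι) (hκ₂ : DenseRange κ₂)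
    (hC : ∀ v, v ≠ 1 → ¬ IsOpen ((Subgroup.centralizer {κ₂ v} : Subgroup H₂) : Set H₂))
    {l : Filter Λ} [l.NeBot] (hl₁ : l ≤ comap κ₁ (𝓝 1)) (hl₂ : Tendsto κ₂ l (cocompact H₂))
    (hHM : HoweMoore H₂) (ha : Smo ι κ₁ ρ V ω μ a) (hb : Smo ι κ₂ ρ V ω μ b) : a = 0 ∨ b = 0 :=
  match_filter h hι hκ₂ hl₁ hl₂ hHM (f1' h hκ₂ hC) (cj_cjr h.toFrm)
    (fun ξ hξ => cont_smSp h.toFrm (cj_cjr h.toFrm) hξ)
    (fun ξ hξ => cont_smSp h.toFrm (cj_cjr h.toFrm) hξ) ha hb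

theorem not_open_of_noc {κ : Λ →* H} (hn : PA.Noc κ) (v : Λ) (hv : v ≠ 1) :
    ¬ IsOpen ((Subgroup.centralizer {κ v} : Subgroup H) : Set H) := by
  intro ho
  obtain ⟨u, hu, hne⟩ := hn v hv _ (ho.mem_nhds (one_mem _))
  exact hne (Subgroup.mem_centralizer_singleton_iff.1 hu)

/-- A nontrivial place is not discrete. -/
theorem neBot_of_noc [Nontrivial Λ] {κ : Λ →* H} (hn : PA.Noc κ) : (𝓝[≠] (1 : H)).NeBot := by
  obtain ⟨v, hv⟩ := exists_ne (1 : Λ)
  by_contra hne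
  have h1 : 𝓝[≠] (1 : H) = ⊥ := not_neBot.1 hne
  have h2 : ({1} : Set H) ∈ 𝓝 (1 : H) := by
    have h3 := (isOpen_singleton_iff_punctured_nhds (1 : H)).2 h1
    exact h3.mem_nhds rfl
  obtain ⟨u, hu, hne⟩ := hn v hv _ h2
  rw [Set.mem_singleton_iff.1 hu] at hne
  exact hne (by simp)

theorem howeMoore_of_hm {G : Type} [Group G] [TopologicalSpace G] (h : PA.HM G) : HoweMoore G := by
  intro E _ _ _ π h1 h2 h3 ξ η
  have h4 := h E π h1 h2 h3 η ξ
  have h5 := (Complex.continuous_conj.tendsto (0 : ℂ)).comp h4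
  rw [map_zero] at h5
  refine h5.congr fun g => ?_
  rw [Function.comp_apply, inner_conj_symm]

theorem neBot_of_noc' [T2Space H] (hH : ¬ CompactSpace H) {κ : Λ →* H} (hd : DenseRange κ)
    (hn : PA.Noc κ) : (𝓝[≠] (1 : H)).NeBot := by
  rcases subsingleton_or_nontrivial Λ with hs | hs
  · exfalso
    apply hH
    have h1 : Set.range κ = {1} := by
      ext x
      constructor
      · rintro ⟨v, rfl⟩
        rw [Subsingleton.elim v 1, map_one]
        rfl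
      · intro hx
        exact ⟨1, by rw [map_one]; exact hx.symm⟩
    have h2 : (Set.univ : Set H) = {1} := by
      have h3 := hd.closure_range
      rw [h1, closure_singleton] at h3
      exact h3.symm
    exact ⟨by rw [h2]; exact isCompact_singleton⟩
  · exact neBot_of_noc hn

/-- [MATCH] for two places with properness. -/
theorem match_proper [Countable Γ] [T2Space G] [LocallyCompactSpace G]
    [μ.IsMulRightInvariant] [μ.IsOpenPosMeasure] [T2Space H₁] [LocallyCompactSpace H₁]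
    [T1Space H₂] (hG : ¬ CompactSpace G) (hH : ¬ CompactSpace H₁)
    (h : TFrm ρ V ω) (hι : DenseRange ι) (hκ₁ : DenseRange κ₁) (hκ₂ : DenseRange κ₂)
    (hn₁ : PA.Noc κ₁) (hn₂ : PA.Noc κ₂)
    (hp : ∀ C : Set (H₁ × H₂), IsCompact C → {v | (κ₁ v, κ₂ v) ∈ C}.Finite)
    (hHM : HoweMoore H₂) (ha : Smo ι κ₁ ρ V ω μ a) (hb : Smo ι κ₂ ρ V ω μ b) :
    a = 0 ∨ b = 0 := by
  haveI : NoncompactSpace G := not_compactSpace_iff.1 hG
  haveI : (𝓝[≠] (1 : H₁)).NeBot := neBot_of_noc' hH hκ₁ hn₁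
  haveI : (lf κ₁).NeBot := neBot_lf hκ₁
  have hp' : Tendsto (fun v => (κ₁ v, κ₂ v)) cofinite (cocompact (H₁ × H₂)) := by
    rw [Filter.hasBasis_cocompact.tendsto_right_iff]
    intro C hC
    rw [eventually_cofinite]
    refine (hp C hC).subset fun v hv => ?_
    simpa using hv
  exact match_zero h hι hκ₂ (not_open_of_noc hn₂) (lf_le κ₁) (tendsto_snd_lf hp') hHM ha hb

/-- The field `mat` of `PA.Blocks`. -/
theorem mat (Γ Λ K G H₁ H₂ : Type) [Group Γ] [Countable Γ] [Group Λ] [Countable Λ]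
    [NormedAddCommGroup K] [InnerProductSpace ℂ K] [CompleteSpace K]
    [Group G] [TopologicalSpace G] [IsTopologicalGroup G] [LocallyCompactSpace G]
    [SecondCountableTopology G] [T2Space G] [MeasurableSpace G] [BorelSpace G]
    [Group H₁] [TopologicalSpace H₁] [IsTopologicalGroup H₁] [LocallyCompactSpace H₁]
    [SecondCountableTopology H₁] [T2Space H₁]
    [Group H₂] [TopologicalSpace H₂] [IsTopologicalGroup H₂] [LocallyCompactSpace H₂]
    [SecondCountableTopology H₂] [T2Space H₂]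
    (D : PA.Pic Γ Λ K) (p : Γ →* G) (q₁ : Λ →* H₁) (q₂ : Λ →* H₂)
    (μ : Measure G) [μ.IsHaarMeasure] [μ.IsMulRightInvariant]
    (hp : PA.Pl p) (hq₁ : PA.Pl q₁) (hq₂ : PA.Pl q₂) (hG : ¬ CompactSpace G)
    (hH₁ : ¬ CompactSpace H₁) (hHM : PA.HM H₂)
    (hpr : ∀ C : Set (H₁ × H₂), IsCompact C → {v | (q₁ v, q₂ v) ∈ C}.Finite)
    (n₁ : PA.NeS D p q₁ μ) (n₂ : PA.NeS D p q₂ μ) : False := by
  obtain ⟨a, ha, ha0⟩ := n₁
  obtain ⟨b, hb, hb0⟩ := n₂
  rcases match_proper hG hH₁ D.tfrm hp.dense hq₁.dense hq₂.dense hq₁.noc hq₂.noc hpr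
    (howeMoore_of_hm hHM) ha hb with h | h
  · exact ha0 h
  · exact hb0 h

/-- [MATCH] with a sequence instead of properness; only one factor needs Howe–Moore (use it with
`a` and `b` exchanged if Howe–Moore is known for the other factor). -/
theorem mat_seq [T2Space G] [LocallyCompactSpace G]
    [μ.IsMulRightInvariant] [μ.IsOpenPosMeasure] [T1Space H₂] (hG : ¬ CompactSpace G)
    (h : TFrm ρ V ω) (hι : DenseRange ι) (hκ₂ : DenseRange κ₂) (hn₂ : PA.Noc κ₂)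
    {w : ℕ → Λ} (hw₁ : Tendsto (fun n => κ₁ (w n)) atTop (𝓝 1))
    (hw₂ : Tendsto (fun n => κ₂ (w n)) atTop (cocompact H₂))
    (hHM : PA.HM H₂) (ha : Smo ι κ₁ ρ V ω μ a) (hb : Smo ι κ₂ ρ V ω μ b) : a = 0 ∨ b = 0 := by
  haveI : NoncompactSpace G := not_compactSpace_iff.1 hG
  exact match_zero (l := map w atTop) h hι hκ₂ (not_open_of_noc hn₂)
    (tendsto_comap_iff.2 hw₁) (tendsto_map'_iff.2 hw₂)
    (howeMoore_of_hm hHM) ha hb

end Vale.Agent.P092.H175
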