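import Vale.Agent.P092.H175.NoInv
import Vale.Agent.P092.H796.Alpha
import Vale.Agent.P092.PA.Defs

/-!
P092 (helper175), team A, block MATCH, part A: filters, the space of smooth vectors and the absence
of fixed vectors in it.
-/

set_option linter.all false

open scoped InnerProductSpace Topology ENNReal Pointwise
open Filter ContinuousLinearMap MeasureTheory
open Vale.Agent.P092.H160 Vale.Agent.P092.H156.Sm

namespace Vale.Agent.P092.H175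

section filters

variable {Λ H₁ H₂ : Type*} [Group Λ] [Group H₁] [TopologicalSpace H₁] [TopologicalSpace H₂]

/-- the filter of elements which are close to `1` in the first factor and leave finite sets -/
def lf (κ₁ : Λ → H₁) : Filter Λ := comap κ₁ (𝓝 1) ⊓ cofinite

theorem tendsto_snd_lf [LocallyCompactSpace H₁] {κ₁ : Λ → H₁} {κ₂ : Λ → H₂}
    (hp : Tendsto (fun v => (κ₁ v, κ₂ v)) cofinite (cocompact (H₁ × H₂))) :
    Tendsto κ₂ (lf κ₁) (cocompact H₂) := by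
  rw [Filter.hasBasis_cocompact.tendsto_right_iff]
  intro C hC
  obtain ⟨D, hD, hD1⟩ := exists_compact_mem_nhds (1 : H₁)
  have h1 : ∀ᶠ v in cofinite, (κ₁ v, κ₂ v) ∈ (D ×ˢ C)ᶜ := hp (hD.prod hC).compl_mem_cocompact
  have h2 : ∀ᶠ v in comap κ₁ (𝓝 1), κ₁ v ∈ D := preimage_mem_comap hD1
  filter_upwards [mem_inf_of_right h1, mem_inf_of_left h2] with v hv1 hv2 hv3
  exact hv1 ⟨hv2, hv3⟩

theorem neBot_lf [T1Space H₁] [(𝓝[≠] (1 : H₁)).NeBot] {κ₁ : Λ → H₁} (hd : DenseRange κ₁) :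
    (lf κ₁).NeBot := by
  rw [lf, inf_neBot_iff]
  intro s hs t ht
  obtain ⟨U, hU, hUs⟩ := mem_comap.1 hs
  obtain ⟨O, hOU, hO, h1⟩ := mem_nhds_iff.1 hU
  have ht' : (tᶜ).Finite := ht
  have hfin : (κ₁ '' tᶜ).Finite := ht'.image _
  have hO2 : IsOpen (O \ κ₁ '' tᶜ) := hO.sdiff hfin.isClosed
  have hne : (O \ κ₁ '' tᶜ).Nonempty :=
    ((infinite_of_mem_nhds 1 (hO.mem_nhds h1)).diff hfin).nonempty
  obtain ⟨v, hv⟩ := hd.exists_mem_open hO2 hne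
  refine ⟨v, hUs (hOU hv.1), ?_⟩
  by_contra hvt
  exact hv.2 ⟨v, hvt, rfl⟩

theorem lf_le (κ₁ : Λ → H₁) : lf κ₁ ≤ comap κ₁ (𝓝 1) := inf_le_left

end filters

section sp

variable {Γ Λ G H K : Type} [Group Γ] [Group Λ] [Group G] [Group H]
  [TopologicalSpace G] [TopologicalSpace H] [IsTopologicalGroup G] [IsTopologicalGroup H]
  [MeasurableSpace G]
  [NormedAddCommGroup K] [InnerProductSpace ℂ K] [CompleteSpace K]
  (ι : Γ →* G) (κ : Λ →* H) (ρ : Γ →* (K →L[ℂ] K)) (V : Λ →* (K →L[ℂ] K)) (ω : K)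
  (μ : Measure G)

/-- The vectors of the smooth fields. -/
def smSp : Submodule ℂ (Lp K 2 μ) where
  carrier := {ξ | ∃ b, Smo ι κ ρ V ω μ b ∧ ξ =ᵐ[μ] fun x => b x ω}
  add_mem' := by
    rintro ξ η ⟨a, ha, hξ⟩ ⟨b, hb, hη⟩
    refine ⟨fun x => a x + b x, ⟨ha.toFd.add hb.toFd, ha.acont.add hb.acont, ?_⟩, ?_⟩
    · exact ha.l2.add hb.l2
    · filter_upwards [hξ, hη, Lp.coeFn_add ξ η] with x h1 h2 h3
      rw [h3, Pi.add_apply, h1, h2]; rfl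
  zero_mem' := by
    refine ⟨fun _ => 0, ⟨Fd.zero, ACont.zero, ?_⟩, ?_⟩
    · exact MemLp.zero
    · filter_upwards [Lp.coeFn_zero K 2 μ] with x h1
      rw [h1]; rfl
  smul_mem' := by
    rintro c ξ ⟨a, ha, hξ⟩
    refine ⟨fun x => c • a x, ⟨ha.toFd.smul c, ha.acont.smul c, ?_⟩, ?_⟩
    · exact ha.l2.const_smul c
    · filter_upwards [hξ, Lp.coeFn_smul c ξ] with x h1 h3
      rw [h3, Pi.smul_apply, h1]; rfl

variable {ι κ ρ V ω μ} {a b : G → K →L[ℂ] K}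

theorem mem_smSp {ξ : Lp K 2 μ} :
    ξ ∈ smSp ι κ ρ V ω μ ↔ ∃ b, Smo ι κ ρ V ω μ b ∧ ξ =ᵐ[μ] fun x => b x ω := Iff.rfl

/-- `E_M(a* a) = ‖a‖²` as a statement on fields: the output of [F1]. -/
def F1' (ι : Γ →* G) (κ : Λ →* H) (ρ : Γ →* (K →L[ℂ] K)) (V : Λ →* (K →L[ℂ] K)) (ω : K)
    (μ : Measure G) : Prop :=
  ∀ a b, Smo ι κ ρ V ω μ a → Smo ι κ ρ V ω μ b → ∀ ζ η : K, MemLp (fun x => a x ζ) 2 μ ∧
    ∫ x, ⟪a x ζ, b x η⟫_ℂ ∂μ = ip ω μ a b * ⟪ζ, η⟫_ℂ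

theorem norm_field (hF : F1' ι κ ρ V ω μ) (ha : Smo ι κ ρ V ω μ a) (hω : ‖ω‖ = 1)
    {ξ η : Lp K 2 μ} {ζ : K} (hξ : ξ =ᵐ[μ] fun x => a x ω) (hη : η =ᵐ[μ] fun x => a x ζ) :
    ‖η‖ = ‖ξ‖ * ‖ζ‖ := by
  have h1 : ∀ {θ : Lp K 2 μ} {z : K}, θ =ᵐ[μ] (fun x => a x z) →
      ((‖θ‖ ^ 2 : ℝ) : ℂ) = ip ω μ a a * ⟪z, z⟫_ℂ := by
    intro θ z hθ
    rw [← (hF a a ha ha z z).2]
    have e : (((‖θ‖ ^ 2 : ℝ)) : ℂ) = ⟪θ, θ⟫_ℂ := by
      rw [inner_self_eq_norm_sq_to_K]; norm_cast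
    rw [e, L2.inner_def]
    refine integral_congr_ae ?_
    filter_upwards [hθ] with x hx
    rw [hx]
  have h2 := h1 hξ
  have h3 := h1 hη
  rw [inner_self_eq_norm_sq_to_K, hω] at h2
  rw [inner_self_eq_norm_sq_to_K] at h3
  have h4 : ((‖η‖ ^ 2 : ℝ) : ℂ) = ((‖ξ‖ ^ 2 * ‖ζ‖ ^ 2 : ℝ) : ℂ) := by
    rw [h3]
    push_cast at h2 ⊢
    rw [h2]
    simp
  have h5 : ‖η‖ ^ 2 = (‖ξ‖ * ‖ζ‖) ^ 2 := by
    rw [mul_pow]; exact_mod_cast h4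
  exact (pow_left_inj₀ (norm_nonneg _) (by positivity) two_ne_zero).1 h5

/-- The map `ζ ↦ (x ↦ b(x) ζ)`. -/
theorem exists_W (hF : F1' ι κ ρ V ω μ) (ha : Smo ι κ ρ V ω μ a) (hω : ‖ω‖ = 1) :
    ∃ W : K →L[ℂ] Lp K 2 μ, ∀ ζ, W ζ =ᵐ[μ] fun x => a x ζ := by
  have hm : ∀ ζ, MemLp (fun x => a x ζ) 2 μ := fun ζ => (hF a a ha ha ζ ζ).1
  refine ⟨LinearMap.mkContinuous
    { toFun := fun ζ => (hm ζ).toLp _
      map_add' := fun ζ ζ' => ?_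
      map_smul' := fun c ζ => ?_ } ‖(hm ω).toLp _‖ (fun ζ => ?_), fun ζ => ?_⟩
  · rw [← MemLp.toLp_add]
    congr 1
    funext x
    rw [map_add]; rfl
  · rw [RingHom.id_apply, ← MemLp.toLp_const_smul]
    congr 1
    funext x
    rw [map_smul]; rfl
  · exact (norm_field hF ha hω (MemLp.coeFn_toLp (hm ω)) (MemLp.coeFn_toLp (hm ζ))).le
  · exact MemLp.coeFn_toLp (hm ζ)

/-- The conjugation representation on `L²(G; K)`. -/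
structure Cj (ι : Γ →* G) (ρ : Γ →* (K →L[ℂ] K)) (V : Λ →* (K →L[ℂ] K)) (ω : K)
    (c : Λ →* (Lp K 2 μ →L[ℂ] Lp K 2 μ)) : Prop where
  norm : ∀ v ξ, ‖c v ξ‖ = ‖ξ‖
  fld : ∀ v b, Fd ι ρ b → ∀ ξ : Lp K 2 μ, ξ =ᵐ[μ] (fun x => b x ω) →
    c v ξ =ᵐ[μ] fun x => (V v * b x * V v⁻¹) ω

theorem Smo.neg' (hb : Smo ι κ ρ V ω μ b) : Smo ι κ ρ V ω μ (fun x => - b x) :=
  ⟨hb.toFd.neg, hb.acont.neg, by
    have := hb.l2.neg
    exact this⟩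

theorem Smo.sub' (ha : Smo ι κ ρ V ω μ a) (hb : Smo ι κ ρ V ω μ b) :
    Smo ι κ ρ V ω μ (fun x => a x - b x) :=
  ⟨ha.toFd.sub hb.toFd, ha.acont.sub hb.acont, by
    have := ha.l2.sub hb.l2
    exact this⟩

theorem Smo.conj' (h : Frm ρ V ω) {c : Λ →* (Lp K 2 μ →L[ℂ] Lp K 2 μ)} (hc : Cj ι ρ V ω c)
    (hb : Smo ι κ ρ V ω μ b) (v : Λ) : Smo ι κ ρ V ω μ (fun x => V v * b x * V v⁻¹) :=
  ⟨hb.toFd.conj h v, hb.acont.conj h v, by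
    have h1 := hc.fld v b hb.toFd (hb.l2.toLp _) (MemLp.coeFn_toLp hb.l2)
    exact (memLp_congr_ae h1).1 (Lp.memLp _)⟩

theorem c_smSp (h : Frm ρ V ω) {c : Λ →* (Lp K 2 μ →L[ℂ] Lp K 2 μ)} (hc : Cj ι ρ V ω c) (v : Λ)
    {ξ : Lp K 2 μ} (hξ : ξ ∈ smSp ι κ ρ V ω μ) : c v ξ ∈ smSp ι κ ρ V ω μ := by
  obtain ⟨b, hb, hb'⟩ := hξ
  exact ⟨_, Smo.conj' h hc hb v, hc.fld v b hb.toFd ξ hb'⟩

theorem c_clos (h : Frm ρ V ω) {c : Λ →* (Lp K 2 μ →L[ℂ] Lp K 2 μ)} (hc : Cj ι ρ V ω c) (v : Λ)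
    {ξ : Lp K 2 μ} (hξ : ξ ∈ (smSp ι κ ρ V ω μ).topologicalClosure) :
    c v ξ ∈ (smSp ι κ ρ V ω μ).topologicalClosure :=
  map_mem_closure (c v).continuous hξ fun η hη => c_smSp h hc v hη

theorem norm_sub_W (hF : F1' ι κ ρ V ω μ) (ha : Smo ι κ ρ V ω μ a) (hb : Smo ι κ ρ V ω μ b)
    (hω : ‖ω‖ = 1) {ξ η : Lp K 2 μ} (hξ : ξ =ᵐ[μ] fun x => a x ω) (hη : η =ᵐ[μ] fun x => b x ω)
    {ξ' η' : Lp K 2 μ} {ζ : K} (hξ' : ξ' =ᵐ[μ] fun x => a x ζ) (hη' : η' =ᵐ[μ] fun x => b x ζ) :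
    ‖ξ' - η'‖ = ‖ξ - η‖ * ‖ζ‖ := by
  refine norm_field hF (Smo.sub' ha hb) hω ?_ ?_
  · filter_upwards [hξ, hη, Lp.coeFn_sub ξ η] with x h1 h2 h3
    rw [h3, Pi.sub_apply, h1, h2]; rfl
  · filter_upwards [hξ', hη', Lp.coeFn_sub ξ' η'] with x h1 h2 h3
    rw [h3, Pi.sub_apply, h1, h2]; rfl

/-- The operator `ζ ↦ ξ ζ` for `ξ` in the closure of the smooth vectors, as a limit. -/
theorem exists_W_lim (hF : F1' ι κ ρ V ω μ) (hω : ‖ω‖ = 1) {ξ : Lp K 2 μ}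
    (hξ : ξ ∈ (smSp ι κ ρ V ω μ).topologicalClosure) :
    ∃ (b : ℕ → G → K →L[ℂ] K) (x : ℕ → Lp K 2 μ) (Wn : ℕ → K →L[ℂ] Lp K 2 μ)
      (W : K →L[ℂ] Lp K 2 μ), (∀ n, Smo ι κ ρ V ω μ (b n)) ∧ (∀ n, x n =ᵐ[μ] fun y => b n y ω) ∧
      (∀ n ζ, Wn n ζ =ᵐ[μ] fun y => b n y ζ) ∧ Tendsto x atTop (𝓝 ξ) ∧ Tendsto Wn atTop (𝓝 W) ∧
      W ω = ξ := by
  obtain ⟨x, hx, hxξ⟩ := mem_closure_iff_seq_limit.1
    (show ξ ∈ closure (smSp ι κ ρ V ω μ : Set (Lp K 2 μ)) from hξ)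
  choose b hb hbx using hx
  choose Wn hWn using fun n => exists_W hF (hb n) hω
  have h1 : ∀ n m, ‖Wn n - Wn m‖ ≤ ‖x n - x m‖ := by
    intro n m
    refine ContinuousLinearMap.opNorm_le_bound _ (norm_nonneg _) fun ζ => ?_
    rw [ContinuousLinearMap.sub_apply]
    exact (norm_sub_W hF (hb n) (hb m) hω (hbx n) (hbx m) (hWn n ζ) (hWn m ζ)).le
  have h2 : CauchySeq Wn := by
    have h3 := hxξ.cauchySeq
    rw [Metric.cauchySeq_iff] at h3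
    refine (Metric.cauchySeq_iff (α := K →L[ℂ] Lp K 2 μ) (β := ℕ)).2 fun ε hε => ?_
    obtain ⟨N, hN⟩ := h3 ε hε
    refine ⟨N, fun n hn m hm => lt_of_le_of_lt ?_ (hN n hn m hm)⟩
    exact (dist_eq_norm (Wn n) (Wn m)).le.trans ((h1 n m).trans (dist_eq_norm (x n) (x m)).ge)
  obtain ⟨W, hW⟩ := cauchySeq_tendsto_of_complete h2
  refine ⟨b, x, Wn, W, hb, hbx, hWn, hxξ, hW, ?_⟩
  have h3 : Tendsto (fun n => Wn n ω) atTop (𝓝 (W ω)) :=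
    ((ContinuousLinearMap.apply ℂ (Lp K 2 μ) ω).continuous.tendsto W).comp hW
  refine tendsto_nhds_unique h3 (hxξ.congr fun n => ?_)
  exact Lp.ext ((hbx n).trans (hWn n ω).symm)

variable [T2Space G] [NoncompactSpace G] [SigmaCompactSpace G] [BorelSpace G]
  [μ.IsMulLeftInvariant]

/-- There is no fixed vector in the closure of the smooth vectors. -/
theorem no_fixed (h : TFrm ρ V ω) (hd : DenseRange ι) (hF : F1' ι κ ρ V ω μ)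
    {c : Λ →* (Lp K 2 μ →L[ℂ] Lp K 2 μ)} (hc : Cj ι ρ V ω c) {ξ : Lp K 2 μ}
    (hξ : ξ ∈ (smSp ι κ ρ V ω μ).topologicalClosure) (hfix : ∀ v, c v ξ = ξ) : ξ = 0 := by
  have hω : ‖ω‖ = 1 := h.reg.norm_one
  obtain ⟨b, x, Wn, W, hb, hbx, hWn, hxξ, hW, hWω⟩ := exists_W_lim hF hω hξ
  have hap : ∀ ζ, Tendsto (fun n => Wn n ζ) atTop (𝓝 (W ζ)) := fun ζ =>
    ((ContinuousLinearMap.apply ℂ (Lp K 2 μ) ζ).continuous.tendsto W).comp hW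
  have h1 : ∀ v ζ, W (V v ζ) =ᵐ[μ] fun x => V v (W ζ x) := by
    intro v ζ
    have h2 : (V v).compLpL 2 μ (W ζ) = W (V v ζ) := by
      have h3 : Tendsto (fun n => (V v).compLpL 2 μ (Wn n ζ)) atTop
          (𝓝 ((V v).compLpL 2 μ (W ζ))) := (((V v).compLpL 2 μ).continuous.tendsto _).comp (hap ζ)
      have h4 : Tendsto (fun n => Wn n (V v ζ) - (V v).compLpL 2 μ (Wn n ζ)) atTop (𝓝 0) := by
        rw [tendsto_zero_iff_norm_tendsto_zero]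
        have h5 : ∀ n, ‖Wn n (V v ζ) - (V v).compLpL 2 μ (Wn n ζ)‖ =
            ‖x n - c v (x n)‖ * ‖V v ζ‖ := by
          intro n
          refine norm_sub_W hF (hb n) (Smo.conj' h.toFrm hc (hb n) v) hω (hbx n)
            (hc.fld v (b n) (hb n).toFd (x n) (hbx n)) (hWn n _) ?_
          refine ((V v).coeFn_compLpL (Wn n ζ)).trans ?_
          filter_upwards [hWn n ζ] with y hy
          rw [hy]
          change _ = (V v) ((b n y) (V v⁻¹ (V v ζ)))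
          rw [h.toFrm.inv_apply]
        simp only [h5]
        have h6 : Tendsto (fun n => ‖x n - c v (x n)‖) atTop (𝓝 ‖ξ - c v ξ‖) :=
          (hxξ.sub (((c v).continuous.tendsto ξ).comp hxξ)).norm
        rw [hfix, sub_self, norm_zero] at h6
        have h7 := h6.mul_const ‖V v ζ‖
        rwa [zero_mul] at h7
      have h5 := (hap (V v ζ)).sub h3
      have h6 := tendsto_nhds_unique h4 h5
      exact (sub_eq_zero.1 h6.symm).symm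
    rw [← h2]
    exact (V v).coeFn_compLpL (W ζ)
  have h2 : ∀ g, W (ρ g⁻¹ ω) =ᵐ[μ] fun x => ρ g⁻¹ (W ω (ι g * x)) := by
    intro g
    set T : Lp K 2 μ →ₗᵢ[ℂ] Lp K 2 μ := Lp.compMeasurePreservingₗᵢ ℂ (fun y => ι g * y)
      (measurePreserving_mul_left μ (ι g)) with hT
    have hTa : ∀ η : Lp K 2 μ, T η =ᵐ[μ] fun y => η (ι g * y) := fun η =>
      Lp.coeFn_compMeasurePreserving η (measurePreserving_mul_left μ (ι g))
    have h3 : W (ρ g⁻¹ ω) = (ρ g⁻¹).compLpL 2 μ (T (W ω)) := by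
      have h4 : Tendsto (fun n => (ρ g⁻¹).compLpL 2 μ (T (Wn n ω))) atTop
          (𝓝 ((ρ g⁻¹).compLpL 2 μ (T (W ω)))) :=
        (((ρ g⁻¹).compLpL 2 μ).continuous.tendsto _).comp ((T.continuous.tendsto _).comp (hap ω))
      refine tendsto_nhds_unique (hap (ρ g⁻¹ ω)) (h4.congr fun n => Lp.ext ?_)
      have h5 : ∀ᵐ y ∂μ, (Wn n ω) (ι g * y) = b n (ι g * y) ω :=
        (measurePreserving_mul_left μ (ι g)).quasiMeasurePreserving.ae (hWn n ω)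
      filter_upwards [(ρ g⁻¹).coeFn_compLpL (T (Wn n ω)), hTa (Wn n ω), h5, hWn n (ρ g⁻¹ ω)]
        with y h6 h7 h8 h9
      rw [h6, h7, h8, h9, (hb n).equiv]
      change (ρ g⁻¹ * (ρ g * b n y * ρ g⁻¹)) ω = _
      rw [← mul_assoc, ← mul_assoc, rho_inv_mul, one_mul]
      rfl
    rw [h3]
    filter_upwards [(ρ g⁻¹).coeFn_compLpL (T (W ω)), hTa (W ω)] with y h6 h7
    rw [h6, h7]
  have h3 := noinv h hd W h1 h2
  rw [← hWω, h3]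
  rfl

end sp

end Vale.Agent.P092.H175
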