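import Vale.Agent.P092.H175.MatchA
import Vale.Agent.P092.H156.Tr
import Vale.Agent.P092.H933.HMPA

/-!
P092 (helper175), team A, block MATCH, part B.
-/

set_option linter.all false

open scoped InnerProductSpace Topology ENNReal Pointwise
open Filter ContinuousLinearMap MeasureTheory
open Vale.Agent.P092.H160 Vale.Agent.P092.H156.Sm Vale.Agent.P092.H796
open Vale.Agent.P092.H933 (HoweMoore)

namespace Vale.Agent.P092.H175

section restr

variable {Λ 𝓗 : Type} [Group Λ] [NormedAddCommGroup 𝓗] [InnerProductSpace ℂ 𝓗]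

/-- restriction of a representation to an invariant subspace -/
noncomputable def rst (c : Λ →* (𝓗 →L[ℂ] 𝓗)) (E : Submodule ℂ 𝓗) (hE : ∀ v, ∀ ξ ∈ E, c v ξ ∈ E) :
    Λ →* (E →L[ℂ] E) where
  toFun v := ((c v).comp E.subtypeL).codRestrict E fun x => hE v _ x.2
  map_one' := by
    ext x
    simp
  map_mul' v w := by
    refine ContinuousLinearMap.ext fun x => Subtype.ext ?_
    change c (v * w) (x : 𝓗) = c v (c w (x : 𝓗))
    rw [map_mul]
    rfl

theorem rst_coe (c : Λ →* (𝓗 →L[ℂ] 𝓗)) (E : Submodule ℂ 𝓗) (hE : ∀ v, ∀ ξ ∈ E, c v ξ ∈ E) (v : Λ)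
    (x : E) : (rst c E hE v x : 𝓗) = c v x := rfl

variable [CompleteSpace 𝓗] {H : Type} [Group H] [TopologicalSpace H] [IsTopologicalGroup H]

/-- Howe–Moore for the extension to `H` of the restriction of `c` to the closure of a space of
continuous vectors. -/
theorem coeff_tendsto {c : Λ →* (𝓗 →L[ℂ] 𝓗)} (hcn : ∀ v ξ, ‖c v ξ‖ = ‖ξ‖) {κ : Λ →* H}
    (hκ : DenseRange κ) (hHM : HoweMoore H) {S : Submodule ℂ 𝓗} (hS : ∀ v, ∀ ξ ∈ S, c v ξ ∈ S)
    (hcont : ∀ ξ ∈ S, Tendsto (fun v => c v ξ) (comap κ (𝓝 1)) (𝓝 ξ))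
    (hfix : ∀ ξ ∈ S.topologicalClosure, (∀ v, c v ξ = ξ) → ξ = 0)
    {l : Filter Λ} (hl : Tendsto κ l (cocompact H)) (ξ : 𝓗) {η : 𝓗} (hη : η ∈ S) :
    Tendsto (fun v => ⟪ξ, c v η⟫_ℂ) l (𝓝 0) := by
  set E := S.topologicalClosure with hE
  have hEc : ∀ v, ∀ ξ ∈ E, c v ξ ∈ E := fun v ξ hξ =>
    map_mem_closure (c v).continuous hξ fun η hη => hS v η hη
  have hcl : IsClosed (E : Set 𝓗) := S.isClosed_topologicalClosure
  haveI : CompleteSpace E := hcl.completeSpace_coe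
  set A : Λ →* (E →L[ℂ] E) := rst c E hEc with hA
  have hAn : ∀ v (x : E), ‖A v x‖ = ‖x‖ := fun v x => hcn v x
  have hSE : ∀ x : E, (x : 𝓗) ∈ S → x ∈ cvec κ A hAn := by
    intro x hx
    rw [mem_cvec]
    rw [tendsto_subtype_rng]
    exact hcont x hx
  have hall : ∀ x : E, x ∈ cvec κ A hAn := by
    intro x
    have hx : (x : 𝓗) ∈ closure (S : Set 𝓗) := x.2
    obtain ⟨y, hy, hyx⟩ := mem_closure_iff_seq_limit.1 hx
    have h1 : ∀ n, y n ∈ E := fun n => S.le_topologicalClosure (hy n)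
    have h2 : Tendsto (fun n => (⟨y n, h1 n⟩ : E)) atTop (𝓝 x) := by
      rw [tendsto_subtype_rng]
      exact hyx
    exact isClosed_cvec.mem_of_tendsto h2 (Eventually.of_forall fun n => hSE _ (hy n))
  set π := alpha κ A hAn hκ with hπ
  have h1 : ∀ x : cvec κ A hAn, (∀ h, π h x = x) → x = 0 := by
    intro x hx
    have h2 : ∀ v, c v (x : E) = ((x : E) : 𝓗) := by
      intro v
      have h3 := congrArg (fun y : cvec κ A hAn => ((y : E) : 𝓗)) (hx (κ v))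
      simp only [hπ, alpha_coe] at h3
      rw [ext_coe hκ v x.2] at h3
      exact h3
    have h4 := hfix _ (x : E).2 h2
    exact Subtype.ext (Subtype.ext h4)
  have h2 := hHM (cvec κ A hAn) π (fun h x => norm_alpha hκ h x) (fun x => continuous_alpha hκ x) h1
  -- the functional `⟪ξ, ·⟫`
  set j : cvec κ A hAn →L[ℂ] 𝓗 := E.subtypeL.comp (cvec κ A hAn).subtypeL with hj
  set ηE : E := ⟨η, S.le_topologicalClosure hη⟩ with hηE
  set ηc : cvec κ A hAn := ⟨ηE, hall ηE⟩ with hηc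
  have h3 : ∀ v, ⟪ξ, c v η⟫_ℂ = ⟪adjoint j ξ, π (κ v) ηc⟫_ℂ := by
    intro v
    rw [adjoint_inner_left]
    congr 1
    change c v η = ((π (κ v) ηc : E) : 𝓗)
    rw [hπ, alpha_coe, ext_coe hκ v ηc.2]
    rfl
  simp only [h3]
  have h4 := (h2 ηc (adjoint j ξ)).comp hl
  have h5 := (Complex.continuous_conj.tendsto (0 : ℂ)).comp h4
  rw [map_zero] at h5
  refine h5.congr fun v => ?_
  simp only [Function.comp_apply]
  rw [inner_conj_symm]

/-- A vector which is almost fixed along `l` is orthogonal to the space `S`. -/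
theorem orth {c : Λ →* (𝓗 →L[ℂ] 𝓗)} (hcn : ∀ v ξ, ‖c v ξ‖ = ‖ξ‖) {l : Filter Λ} [l.NeBot]
    {ξ η : 𝓗} (hξ : Tendsto (fun v => c v ξ) l (𝓝 ξ))
    (h0 : Tendsto (fun v => ⟪ξ, c v η⟫_ℂ) l (𝓝 0)) : ⟪ξ, η⟫_ℂ = 0 := by
  have h1 : ∀ v, ⟪ξ, η⟫_ℂ = ⟪ξ, c v η⟫_ℂ + ⟪c v ξ - ξ, c v η⟫_ℂ := by
    intro v
    rw [inner_sub_left, (LinearMap.norm_map_iff_inner_map_map (c v)).1 (hcn v) ξ η]
    ring
  have h2 : Tendsto (fun v => ⟪c v ξ - ξ, c v η⟫_ℂ) l (𝓝 0) := by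
    refine squeeze_zero_norm (fun v => norm_inner_le_norm _ _) ?_
    have h3 : Tendsto (fun v => ‖c v ξ - ξ‖ * ‖η‖) l (𝓝 0) := by
      have h4 := ((tendsto_iff_norm_sub_tendsto_zero.1 hξ)).mul_const ‖η‖
      rwa [zero_mul] at h4
    simpa only [hcn] using h3
  have h3 := h0.add h2
  rw [add_zero] at h3
  exact tendsto_nhds_unique (tendsto_const_nhds.congr h1) h3

end restr

section main

variable {Γ Λ G H₁ H₂ K : Type} [Group Γ] [Countable Γ] [Group Λ] [Group G] [Group H₁] [Group H₂]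
  [TopologicalSpace G] [TopologicalSpace H₁] [TopologicalSpace H₂] [IsTopologicalGroup G]
  [IsTopologicalGroup H₁] [IsTopologicalGroup H₂] [MeasurableSpace G] [BorelSpace G]
  [T2Space G] [NoncompactSpace G] [SigmaCompactSpace G] [SecondCountableTopology G]
  [NormedAddCommGroup K] [InnerProductSpace ℂ K] [CompleteSpace K]
  {ρ : Γ →* (K →L[ℂ] K)} {V : Λ →* (K →L[ℂ] K)} {ω : K} {ι : Γ →* G} {κ₁ : Λ →* H₁} {κ₂ : Λ →* H₂}
  {μ : Measure G} [μ.IsMulLeftInvariant] [μ.IsMulRightInvariant] [μ.IsOpenPosMeasure]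
  {a b : G → K →L[ℂ] K}

theorem field_eq_zero (h : RegRep ρ ω) (hb : Fd ι ρ b) (h0 : ∀ x, b x ω = 0) : b = 0 := by
  funext x
  refine h.ext_op fun γ => ?_
  have h1 := hb.equiv γ⁻¹ x
  have h2 := congrArg (fun T : K →L[ℂ] K => T ω) h1
  simp only [mul_ap, inv_inv] at h2
  rw [h0] at h2
  have h3 : ρ γ (ρ γ⁻¹ (b x (ρ γ ω))) = 0 := by rw [← h2, map_zero]
  rw [h.apply_inv] at h3
  rw [h3]; rfl

theorem zero_of_nsq (hb : Fd ι ρ b) (h0 : nsq ω μ b = 0) : ∀ x, b x ω = 0 := by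
  have hc := hb.continuous_apply ω
  have h1 : (fun x => ‖b x ω‖ₑ ^ 2) =ᵐ[μ] 0 := by
    rw [nsq, lintegral_eq_zero_iff ((hc.enorm.measurable).pow_const 2)] at h0
    exact h0
  have h2 : (fun x => b x ω) =ᵐ[μ] fun _ => 0 := by
    filter_upwards [h1] with x hx
    simpa using hx
  exact fun x => congrFun (Continuous.ae_eq_iff_eq μ hc continuous_const |>.1 h2) x

theorem Smo.adj' (h : Frm ρ V ω) {H : Type} [Group H] [TopologicalSpace H] [IsTopologicalGroup H]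
    {κ : Λ →* H} (hb : Smo ι κ ρ V ω μ b) : Smo ι κ ρ V ω μ (fun x => adjoint (b x)) :=
  ⟨hb.toFd.adj h.reg, hb.acont.adj h, L2.adj h.reg hb.toFd hb.l2⟩

theorem Smo.mul' (h : Frm ρ V ω) {H : Type} [Group H] [TopologicalSpace H] [IsTopologicalGroup H]
    {κ : Λ →* H} (ha : Smo ι κ ρ V ω μ a) (hb : Smo ι κ ρ V ω μ b) :
    Smo ι κ ρ V ω μ (fun x => a x * b x) :=
  ⟨ha.toFd.mul hb.toFd, ha.acont.mul h hb.acont ha.bdd hb.bdd,
    L2.mul_left ha.toFd.continuous hb.toFd.continuous ha.bdd hb.l2⟩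

theorem Smo.rt' {H : Type} [Group H] [TopologicalSpace H] [IsTopologicalGroup H]
    {κ : Λ →* H} (hb : Smo ι κ ρ V ω μ b) (z : G) : Smo ι κ ρ V ω μ (fun x => b (x * z)) :=
  ⟨hb.toFd.rt z, hb.acont.rt z, L2.rt hb.toFd hb.l2 z⟩

omit [T2Space G] [NoncompactSpace G] [SigmaCompactSpace G] [μ.IsMulRightInvariant]
  [μ.IsOpenPosMeasure] in
/-- `⟨a* a, c c*⟩ = ‖c* a*‖²` -/
theorem ip_prod (h : Frm ρ V ω) {c : G → K →L[ℂ] K} (ha : Fd ι ρ a) (hc : Fd ι ρ c)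
    (ha2 : L2 ω μ a) (hc2 : L2 ω μ c) :
    ip ω μ (fun x => adjoint (a x) * a x) (fun x => c x * adjoint (c x)) =
      ((nsq ω μ (fun x => adjoint (c x) * adjoint (a x))).toReal : ℂ) := by
  have e1 : ip ω μ (fun x => adjoint (a x) * a x) (fun x => c x * adjoint (c x)) =
      ip ω μ a (fun x => a x * (c x * adjoint (c x))) := by
    unfold ip
    refine integral_congr_ae (Eventually.of_forall fun x => ?_)
    simp only [mul_ap]
    rw [adjoint_inner_left]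
  have hcc : Fd ι ρ (fun x => c x * adjoint (c x)) := hc.mul (hc.adj h.reg)
  have hacc : Fd ι ρ (fun x => a x * (c x * adjoint (c x))) := ha.mul hcc
  have hacc2 : L2 ω μ (fun x => a x * (c x * adjoint (c x))) := L2.mul_right h.reg ha hcc ha2
  have e2 := ip_adj (μ := μ) h.reg ha hacc ha2 hacc2
  have hca : Fd ι ρ (fun x => adjoint (c x) * adjoint (a x)) :=
    (hc.adj h.reg).mul (ha.adj h.reg)
  have hca2 : L2 ω μ (fun x => adjoint (c x) * adjoint (a x)) :=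
    L2.mul_left (hc.adj h.reg).continuous (ha.adj h.reg).continuous (hc.adj h.reg).bdd
      (L2.adj h.reg ha ha2)
  rw [e1, ← e2, ← ip_self hca2]
  unfold ip
  refine integral_congr_ae (Eventually.of_forall fun x => ?_)
  have e3 : adjoint (a x * (c x * adjoint (c x))) = c x * (adjoint (c x) * adjoint (a x)) := by
    change star (a x * (c x * star (c x))) = _
    rw [star_mul, star_mul, star_star, mul_assoc]
    rfl
  simp only [e3, mul_ap]
  rw [← adjoint_inner_right]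

/-- [MATCH], with the conjugation representation as an input, along a filter `l`. -/
theorem match_filter (h : TFrm ρ V ω) (hι : DenseRange ι) (hκ₂ : DenseRange κ₂)
    {l : Filter Λ} [l.NeBot] (hl₁ : l ≤ comap κ₁ (𝓝 1)) (hl₂ : Tendsto κ₂ l (cocompact H₂))
    (hHM : HoweMoore H₂)
    (hF : F1' ι κ₂ ρ V ω μ) {c : Λ →* (Lp K 2 μ →L[ℂ] Lp K 2 μ)} (hc : Cj ι ρ V ω c)
    (hal₁ : ∀ ξ ∈ smSp ι κ₁ ρ V ω μ, Tendsto (fun v => c v ξ) (comap κ₁ (𝓝 1)) (𝓝 ξ))
    (hal₂ : ∀ ξ ∈ smSp ι κ₂ ρ V ω μ, Tendsto (fun v => c v ξ) (comap κ₂ (𝓝 1)) (𝓝 ξ))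
    (ha : Smo ι κ₁ ρ V ω μ a) (hb : Smo ι κ₂ ρ V ω μ b) : a = 0 ∨ b = 0 := by
  have hf := h.toFrm
  -- orthogonality
  have h1 : ∀ {ξ η : Lp K 2 μ}, ξ ∈ smSp ι κ₁ ρ V ω μ → η ∈ smSp ι κ₂ ρ V ω μ →
      ⟪ξ, η⟫_ℂ = 0 := by
    intro ξ η hξ hη
    refine orth hc.norm ((hal₁ ξ hξ).mono_left hl₁) ?_
    exact coeff_tendsto hc.norm hκ₂ hHM (fun v η hη => c_smSp hf hc v hη) hal₂
      (fun θ hθ hfix => no_fixed h hι hF hc hθ hfix) hl₂ ξ hη
  -- the product vanishes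
  have h2 : ∀ x y, adjoint (b (x * y)) (adjoint (a x) ω) = 0 := by
    intro x y
    set d : G → K →L[ℂ] K := fun x => b (x * y) with hd
    have hd' : Smo ι κ₂ ρ V ω μ d := Smo.rt' hb y
    have hP := Smo.mul' hf (Smo.adj' hf ha) ha
    have hQ := Smo.mul' hf hd' (Smo.adj' hf hd')
    have h3 := h1 (ξ := hP.l2.toLp _) (η := hQ.l2.toLp _) ⟨_, hP, MemLp.coeFn_toLp hP.l2⟩
      ⟨_, hQ, MemLp.coeFn_toLp hQ.l2⟩
    rw [← integral_inner_toLp hP.l2 hQ.l2] at h3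
    have h4 := ip_prod (μ := μ) hf ha.toFd hd'.toFd ha.l2 hd'.l2
    have h5 : ip ω μ (fun x => adjoint (a x) * a x) (fun x => d x * adjoint (d x)) = 0 := h3
    rw [h5] at h4
    have hda : Fd ι ρ (fun x => adjoint (d x) * adjoint (a x)) :=
      (hd'.toFd.adj hf.reg).mul (ha.toFd.adj hf.reg)
    have hda2 : L2 ω μ (fun x => adjoint (d x) * adjoint (a x)) :=
      L2.mul_left (hd'.toFd.adj hf.reg).continuous (ha.toFd.adj hf.reg).continuous
        (hd'.toFd.adj hf.reg).bdd (L2.adj hf.reg ha.toFd ha.l2)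
    have h6 : nsq ω μ (fun x => adjoint (d x) * adjoint (a x)) = 0 := by
      have h7 : (nsq ω μ (fun x => adjoint (d x) * adjoint (a x))).toReal = 0 := by
        exact_mod_cast h4.symm
      rcases (ENNReal.toReal_eq_zero_iff _).1 h7 with h8 | h8
      · exact h8
      · exact absurd h8 (nsq_lt_top hda2).ne
    exact zero_of_nsq hda h6 x
  -- conclusion
  by_cases hb0 : ip ω μ (fun x => adjoint (b x)) (fun x => adjoint (b x)) = 0
  · right
    have hb' := Smo.adj' hf hb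
    rw [ip_self hb'.l2] at hb0
    have h6 : nsq ω μ (fun x => adjoint (b x)) = 0 := by
      have h7 : (nsq ω μ (fun x => adjoint (b x))).toReal = 0 := by exact_mod_cast hb0
      rcases (ENNReal.toReal_eq_zero_iff _).1 h7 with h8 | h8
      · exact h8
      · exact absurd h8 (nsq_lt_top hb'.l2).ne
    have h7 := field_eq_zero hf.reg hb'.toFd (zero_of_nsq hb'.toFd h6)
    funext x
    have h8 := congrFun h7 x
    have h9 : adjoint (b x) = 0 := h8
    rw [← adjoint_adjoint (b x), h9, map_zero]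
    rfl
  · left
    have ha' := Smo.adj' hf ha
    have h7 : (fun x => adjoint (a x)) = 0 := by
      refine field_eq_zero hf.reg ha'.toFd fun x => ?_
      set ζ := adjoint (a x) ω with hζ
      have h8 := (hF _ _ (Smo.adj' hf hb) (Smo.adj' hf hb) ζ ζ).2
      have h9 : ∫ z, ⟪adjoint (b z) ζ, adjoint (b z) ζ⟫_ℂ ∂μ = 0 := by
        rw [← integral_zero G ℂ (μ := μ)]
        refine integral_congr_ae (Eventually.of_forall fun z => ?_)
        have h10 := h2 x (x⁻¹ * z)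
        rw [mul_inv_cancel_left] at h10
        simp only [hζ, h10, inner_zero_left]
      rw [h9] at h8
      have h10 := (mul_eq_zero.1 h8.symm).resolve_left hb0
      exact inner_self_eq_zero.1 h10
    funext x
    have h9 : adjoint (a x) = 0 := congrFun h7 x
    rw [← adjoint_adjoint (a x), h9, map_zero]
    rfl

theorem match_core (h : TFrm ρ V ω) (hι : DenseRange ι) (hκ₁ : DenseRange κ₁)
    (hκ₂ : DenseRange κ₂)
    (hp : Tendsto (fun v => (κ₁ v, κ₂ v)) cofinite (cocompact (H₁ × H₂)))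
    [LocallyCompactSpace H₁] [T1Space H₁] [(𝓝[≠] (1 : H₁)).NeBot] (hHM : HoweMoore H₂)
    (hF : F1' ι κ₂ ρ V ω μ) {c : Λ →* (Lp K 2 μ →L[ℂ] Lp K 2 μ)} (hc : Cj ι ρ V ω c)
    (hal₁ : ∀ ξ ∈ smSp ι κ₁ ρ V ω μ, Tendsto (fun v => c v ξ) (comap κ₁ (𝓝 1)) (𝓝 ξ))
    (hal₂ : ∀ ξ ∈ smSp ι κ₂ ρ V ω μ, Tendsto (fun v => c v ξ) (comap κ₂ (𝓝 1)) (𝓝 ξ))
    (ha : Smo ι κ₁ ρ V ω μ a) (hb : Smo ι κ₂ ρ V ω μ b) : a = 0 ∨ b = 0 := by
  haveI : (lf κ₁).NeBot := neBot_lf hκ₁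
  exact match_filter h hι hκ₂ (lf_le κ₁) (tendsto_snd_lf hp) hHM hF hc hal₁ hal₂ ha hb

end main

end Vale.Agent.P092.H175
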