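import Mathlib

/-!
P092 (helper175), team C: existence of minimal projections in an increasing union of closed star
algebras from one positive element of finite weight.
-/

set_option linter.all false

namespace Vale.Agent.P092.H175.MinEx

open scoped ENNReal NNReal ComplexConjugate

theorem exists_delta {ι : Type*} (s : Finset ι) (g : ι → ℝ) (h : ∀ a ∈ s, 0 < g a) :
    ∃ δ : ℝ, 0 < δ ∧ ∀ a ∈ s, δ ≤ g a := by
  classical
  induction s using Finset.induction_on with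
  | empty => exact ⟨1, one_pos, fun a ha => absurd ha (Finset.notMem_empty a)⟩
  | insert a s ha ih =>
    obtain ⟨δ, hδ, h1⟩ := ih fun b hb => h b (Finset.mem_insert_of_mem hb)
    refine ⟨min δ (g a), lt_min hδ (h a (Finset.mem_insert_self a s)), fun b hb => ?_⟩
    rcases Finset.mem_insert.1 hb with rfl | hb
    · exact min_le_right _ _
    · exact (min_le_left _ _).trans (h1 b hb)

/-- the bump at `l` of width `δ` -/
noncomputable def bump (l δ : ℝ) (t : ℝ) : ℝ := max 0 (1 - |t - l| / δ)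

theorem continuous_bump (l δ : ℝ) : Continuous (bump l δ) := by
  unfold bump; fun_prop

theorem bump_self (l δ : ℝ) : bump l δ l = 1 := by
  unfold bump; simp

theorem bump_nonneg (l δ t : ℝ) : 0 ≤ bump l δ t := le_max_left _ _

theorem bump_le_one (l : ℝ) {δ : ℝ} (hδ : 0 < δ) (t : ℝ) : bump l δ t ≤ 1 := by
  unfold bump
  refine max_le zero_le_one ?_
  have : 0 ≤ |t - l| / δ := by positivity
  linarith

theorem bump_eq_zero {l δ t : ℝ} (hδ : 0 < δ) (h : δ ≤ |t - l|) : bump l δ t = 0 := by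
  unfold bump
  refine max_eq_left ?_
  have : 1 ≤ |t - l| / δ := (one_le_div hδ).2 h
  linarith

variable {𝔅 : Type*} [NonUnitalCStarAlgebra 𝔅] [PartialOrder 𝔅] [StarOrderedRing 𝔅]

/-- the hypotheses on the weight on one algebra -/
structure Wg (B : NonUnitalStarSubalgebra ℂ 𝔅) (τ : 𝔅 → ℝ≥0∞) : Prop where
  closed : IsClosed (B : Set 𝔅)
  add : ∀ x ∈ B, ∀ y ∈ B, 0 ≤ x → 0 ≤ y → τ (x + y) = τ x + τ y
  norm : ∀ x ∈ B, 0 ≤ x → ‖x‖ₑ ≤ τ x

variable {B : NonUnitalStarSubalgebra ℂ 𝔅} {τ : 𝔅 → ℝ≥0∞}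

theorem Wg.mono (h : Wg B τ) {x y : 𝔅} (hx : x ∈ B) (hy : y ∈ B) (h0 : 0 ≤ x) (hxy : x ≤ y) :
    τ x ≤ τ y := by
  have h1 := h.add x hx (y - x) (sub_mem hy hx) h0 (sub_nonneg.2 hxy)
  rw [add_sub_cancel] at h1
  rw [h1]
  exact le_self_add

theorem Wg.sum_le (h : Wg B τ) {ι : Type*} (s : Finset ι) (y : ι → 𝔅) (hy : ∀ i ∈ s, y i ∈ B)
    (h0 : ∀ i ∈ s, 0 ≤ y i) : ∑ i ∈ s, τ (y i) ≤ τ (∑ i ∈ s, y i) := by
  classical
  induction s using Finset.induction_on with
  | empty => simp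
  | insert a s ha ih =>
    rw [Finset.sum_insert ha, Finset.sum_insert ha, h.add _ (hy a (Finset.mem_insert_self a s)) _
      (sum_mem fun i hi => hy i (Finset.mem_insert_of_mem hi)) (h0 a (Finset.mem_insert_self a s))
      (Finset.sum_nonneg fun i hi => h0 i (Finset.mem_insert_of_mem hi))]
    exact add_le_add le_rfl (ih (fun i hi => hy i (Finset.mem_insert_of_mem hi))
      fun i hi => h0 i (Finset.mem_insert_of_mem hi))

theorem Wg.nsmul_lt (h : Wg B τ) {x : 𝔅} (hx : x ∈ B) (h0 : 0 ≤ x) (ht : τ x < ∞) (N : ℕ) :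
    τ ((N + 1) • x) < ∞ := by
  induction N with
  | zero => simpa using ht
  | succ N ih =>
    rw [succ_nsmul, h.add _ (nsmul_mem hx _) _ hx (nsmul_nonneg h0 _) h0]
    exact ENNReal.add_lt_top.2 ⟨ih, ht⟩

theorem Wg.smul_lt (h : Wg B τ) {x : 𝔅} (hx : x ∈ B) (h0 : 0 ≤ x) (ht : τ x < ∞) {r : ℝ}
    (hr : 0 ≤ r) : τ (r • x) < ∞ := by
  obtain ⟨N, hN⟩ := exists_nat_ge r
  refine lt_of_le_of_lt (h.mono ?_ (nsmul_mem hx (N + 1)) (smul_nonneg hr h0) ?_)
    (h.nsmul_lt hx h0 ht N)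
  · exact SMulMemClass.smul_mem (r : ℂ) hx
  · rw [← Nat.cast_smul_eq_nsmul ℝ]
    refine smul_le_smul_of_nonneg_right ?_ h0
    push_cast
    linarith

/-- Large spectral values are finitely many. -/
theorem finite_spec (h : Wg B τ) {x : 𝔅} (hx : x ∈ B) (hsa : IsSelfAdjoint x)
    (ht : τ (cfcₙ (fun t : ℝ => |t|) x) < ∞) {ε : ℝ} (hε : 0 < ε) :
    {l | l ∈ quasispectrum ℝ x ∧ ε < |l|}.Finite := by
  classical
  haveI := h.closed
  by_contra hinf
  have hinf' : {l | l ∈ quasispectrum ℝ x ∧ ε < |l|}.Infinite := hinf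
  set A : 𝔅 := cfcₙ (fun t : ℝ => |t|) x with hA
  have hAB : A ∈ B := cfcₙ_mem _ hx
  have hA0 : 0 ≤ A := cfcₙ_nonneg fun t _ => abs_nonneg t
  have h1 : τ ((2 / ε) • A) < ∞ := h.smul_lt hAB hA0 ht (by positivity)
  obtain ⟨N, hN⟩ := ENNReal.exists_nat_gt h1.ne
  obtain ⟨F, hF, hcard⟩ := hinf'.exists_subset_card_eq N
  obtain ⟨δ₀, hδ₀, h2⟩ := exists_delta F.offDiag (fun q : ℝ × ℝ => |q.1 - q.2|) (by
    intro q hq
    have h3 := (Finset.mem_offDiag.1 hq).2.2
    exact abs_pos.2 (sub_ne_zero.2 h3))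
  set δ : ℝ := min (δ₀ / 2) (ε / 2) with hδd
  have hδ : 0 < δ := by positivity
  have hδ1 : δ ≤ δ₀ / 2 := min_le_left _ _
  have hδ2 : δ ≤ ε / 2 := min_le_right _ _
  have hF' : ∀ l ∈ F, l ∈ quasispectrum ℝ x ∧ ε < |l| := fun l hl => hF hl
  -- the bumps
  have hz : ∀ l ∈ F, bump l δ 0 = 0 := by
    intro l hl
    refine bump_eq_zero hδ ?_
    rw [zero_sub, abs_neg]
    linarith [(hF' l hl).2]
  have hle : ∀ t : ℝ, ∑ l ∈ F, bump l δ t ≤ 2 / ε * |t| := by
    intro t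
    by_cases hall : ∀ l ∈ F, bump l δ t = 0
    · rw [Finset.sum_eq_zero hall]
      positivity
    push Not at hall
    obtain ⟨l, hl, hlt⟩ := hall
    have h3 : |t - l| < δ := by
      by_contra hcon
      exact hlt (bump_eq_zero hδ (not_lt.1 hcon))
    rw [Finset.sum_eq_single_of_mem l hl]
    · have h4 : ε / 2 ≤ |t| := by
        have h5 := abs_sub_abs_le_abs_sub l t
        rw [abs_sub_comm] at h5
        linarith [(hF' l hl).2]
      calc bump l δ t ≤ 1 := bump_le_one l hδ t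
        _ = 2 / ε * (ε / 2) := by field_simp
        _ ≤ 2 / ε * |t| := by gcongr
    · intro m hm hml
      refine bump_eq_zero hδ ?_
      have h4 := h2 (m, l) (Finset.mem_offDiag.2 ⟨hm, hl, hml⟩)
      simp only at h4
      have h5 : |m - l| ≤ |t - m| + |t - l| := by
        have h6 : m - l = (t - l) - (t - m) := by ring
        rw [h6]
        calc |t - l - (t - m)| ≤ |t - l| + |t - m| := abs_sub _ _
          _ = |t - m| + |t - l| := add_comm _ _
      linarith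
  have hcont : ∀ l : ℝ, ContinuousOn (bump l δ) (quasispectrum ℝ x) := fun l =>
    (continuous_bump l δ).continuousOn
  have hsum : ∑ l ∈ F, cfcₙ (bump l δ) x = cfcₙ (fun t => ∑ l ∈ F, bump l δ t) x := by
    rw [← cfcₙ_sum (fun l => bump l δ) x F (fun l _ => hcont l) (fun l hl => hz l hl)]
    congr 1
    funext t
    rw [Finset.sum_apply]
  have hle2 : ∑ l ∈ F, cfcₙ (bump l δ) x ≤ (2 / ε) • A := by
    rw [hsum, hA, ← cfcₙ_smul (2 / ε) (fun t : ℝ => |t|) x (by fun_prop) (by simp)]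
    refine cfcₙ_mono (fun t _ => ?_) ?_ ?_ ?_ ?_
    · simpa using hle t
    · exact continuousOn_finsetSum _ fun l _ => hcont l
    · fun_prop
    · simpa using Finset.sum_eq_zero hz
    · simp
  have h3 : (N : ℝ≥0∞) ≤ ∑ l ∈ F, τ (cfcₙ (bump l δ) x) := by
    rw [← hcard, ← nsmul_one F.card, ← Finset.sum_const]
    refine Finset.sum_le_sum fun l hl => ?_
    refine le_trans ?_ (h.norm _ (cfcₙ_mem _ hx) (cfcₙ_nonneg fun t _ => bump_nonneg l δ t))
    have h4 := norm_apply_le_norm_cfcₙ (bump l δ) x (hF' l hl).1 (hcont l) (hz l hl) hsa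
    rw [bump_self, norm_one] at h4
    rw [← ofReal_norm_eq_enorm]
    exact ENNReal.one_le_ofReal.2 h4
  have h4 := (h3.trans (h.sum_le F _ (fun l _ => cfcₙ_mem _ hx)
    (fun l _ => cfcₙ_nonneg fun t _ => bump_nonneg l δ t))).trans
    (h.mono (sum_mem fun l _ => cfcₙ_mem _ hx) (SMulMemClass.smul_mem ((2 / ε : ℝ) : ℂ) hAB)
      (Finset.sum_nonneg fun l _ => cfcₙ_nonneg fun t _ => bump_nonneg l δ t) hle2)
  exact absurd hN (not_lt.2 h4)

/-- Spectral projections of non-zero spectral values. -/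
theorem exists_proj (h : Wg B τ) {x : 𝔅} (hx : x ∈ B) (hsa : IsSelfAdjoint x)
    (ht : τ (cfcₙ (fun t : ℝ => |t|) x) < ∞) {l : ℝ} (hl : l ∈ quasispectrum ℝ x) (hl0 : l ≠ 0) :
    ∃ e ∈ B, star e = e ∧ e * e = e ∧ e ≠ 0 ∧ x * e = (l : ℂ) • e ∧ τ e < ∞ := by
  classical
  haveI := h.closed
  have hlp : 0 < |l| := abs_pos.2 hl0
  have hfin := finite_spec h hx hsa ht (half_pos hlp)
  obtain ⟨δ₀, hδ₀, h2⟩ := exists_delta (hfin.toFinset.erase l) (fun m : ℝ => |m - l|) (by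
    intro m hm
    exact abs_pos.2 (sub_ne_zero.2 (Finset.ne_of_mem_erase hm)))
  set δ : ℝ := min δ₀ (|l| / 2) with hδd
  have hδ : 0 < δ := by positivity
  have hcont : ContinuousOn (bump l δ) (quasispectrum ℝ x) := (continuous_bump l δ).continuousOn
  have hz : bump l δ 0 = 0 := by
    refine bump_eq_zero hδ ?_
    rw [zero_sub, abs_neg]
    exact (min_le_right _ _).trans (by linarith)
  have hval : ∀ t ∈ quasispectrum ℝ x, t = l ∨ bump l δ t = 0 := by
    intro t ht'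
    by_cases htl : t = l
    · exact Or.inl htl
    right
    refine bump_eq_zero hδ ?_
    by_cases h3 : |l| / 2 < |t|
    · refine (min_le_left _ _).trans (h2 t ?_)
      exact Finset.mem_erase.2 ⟨htl, hfin.mem_toFinset.2 ⟨ht', h3⟩⟩
    · have h4 := abs_sub_abs_le_abs_sub l t
      rw [abs_sub_comm] at h4
      exact (min_le_right _ _).trans (by linarith [not_lt.1 h3])
  refine ⟨cfcₙ (bump l δ) x, cfcₙ_mem _ hx, (cfcₙ_predicate (bump l δ) x), ?_, ?_, ?_, ?_⟩
  · rw [← cfcₙ_mul (bump l δ) (bump l δ) x hcont hz hcont hz]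
    refine cfcₙ_congr fun t ht' => ?_
    rcases hval t ht' with rfl | h3
    · simp [bump_self]
    · simp [h3]
  · intro h0
    have h4 := norm_apply_le_norm_cfcₙ (bump l δ) x hl hcont hz hsa
    rw [bump_self, norm_one, h0, norm_zero] at h4
    linarith
  · have h5 : x * cfcₙ (bump l δ) x = cfcₙ (fun t : ℝ => t * bump l δ t) x := by
      conv_lhs => rw [← cfcₙ_id ℝ x]
      rw [cfcₙ_id ℝ x]
      have h6 := cfcₙ_mul (fun t : ℝ => t) (bump l δ) x (by fun_prop) (by simp) hcont hz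
      rw [h6]
      congr 1
      exact (cfcₙ_id' ℝ x).symm
    have h6 : (l : ℂ) • cfcₙ (bump l δ) x = cfcₙ (fun t : ℝ => l • bump l δ t) x := by
      rw [cfcₙ_smul l (bump l δ) x hcont hz]
      exact Complex.coe_smul l _
    rw [h5, h6]
    refine cfcₙ_congr fun t ht' => ?_
    rcases hval t ht' with rfl | h3
    · simp
    · simp [h3]
  · have hA0 : 0 ≤ cfcₙ (fun t : ℝ => |t|) x := cfcₙ_nonneg fun t _ => abs_nonneg t
    have h7 : τ (|l|⁻¹ • cfcₙ (fun t : ℝ => |t|) x) < ∞ :=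
      h.smul_lt (cfcₙ_mem _ hx) hA0 ht (by positivity)
    refine lt_of_le_of_lt (h.mono (cfcₙ_mem _ hx)
      (SMulMemClass.smul_mem ((|l|⁻¹ : ℝ) : ℂ) (cfcₙ_mem _ hx))
      (cfcₙ_nonneg fun t _ => bump_nonneg l δ t) ?_) h7
    rw [Complex.coe_smul, ← cfcₙ_smul (|l|⁻¹) (fun t : ℝ => |t|) x (by fun_prop) (by simp)]
    refine cfcₙ_mono (fun t ht' => ?_) hcont (by fun_prop) hz (by simp)
    rcases hval t ht' with rfl | h3
    · rw [bump_self, smul_eq_mul, inv_mul_cancel₀ hlp.ne']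
    · rw [h3]
      positivity

/-- the weight of a projection is at least one -/
theorem Wg.one_le (h : Wg B τ) {e : 𝔅} (he : e ∈ B) (hsa : star e = e) (hid : e * e = e)
    (h0 : e ≠ 0) : 1 ≤ τ e := by
  have h1 : 0 ≤ e := by
    rw [← hid]
    nth_rw 1 [← hsa]
    exact star_mul_self_nonneg e
  refine le_trans ?_ (h.norm e he h1)
  have h2 : ‖e‖ = 1 := by
    have h3 : ‖e‖ * ‖e‖ = ‖e‖ := by
      rw [← CStarRing.norm_star_mul_self, hsa, hid]
    have h4 : ‖e‖ ≠ 0 := norm_ne_zero_iff.2 h0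
    exact mul_left_cancel₀ h4 (by rw [h3, mul_one])
  rw [← ofReal_norm_eq_enorm, h2, ENNReal.ofReal_one]

/-- the corner of a projection, as a closed star subalgebra -/
def crn (e : 𝔅) (he : star e = e) : NonUnitalStarSubalgebra ℂ 𝔅 where
  carrier := {x | e * x = x ∧ x * e = x}
  add_mem' := fun {a b} ha hb => ⟨by rw [mul_add, ha.1, hb.1], by rw [add_mul, ha.2, hb.2]⟩
  zero_mem' := ⟨mul_zero _, zero_mul _⟩
  mul_mem' := fun {a b} ha hb => ⟨by rw [← mul_assoc, ha.1], by rw [mul_assoc, hb.2]⟩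
  smul_mem' := fun c a ha => ⟨by rw [mul_smul_comm, ha.1], by rw [smul_mul_assoc, ha.2]⟩
  star_mem' := fun {a} ha => ⟨by
      have h1 := congrArg star ha.2
      rwa [star_mul, he] at h1, by
      have h1 := congrArg star ha.1
      rwa [star_mul, he] at h1⟩

theorem closed_crn (e : 𝔅) (he : star e = e) : IsClosed (crn e he : Set 𝔅) := by
  have h1 : (crn e he : Set 𝔅) = {x | e * x = x} ∩ {x | x * e = x} := rfl
  rw [h1]
  exact (isClosed_eq (by fun_prop) (by fun_prop)).inter (isClosed_eq (by fun_prop) (by fun_prop))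

/-- A projection of nearly minimal weight is a minimal projection. -/
theorem scal_of_min (h : Wg B τ) {e : 𝔅} (he : e ∈ B) (hsa : star e = e) (hid : e * e = e)
    (hfin : τ e < ∞)
    (hmin : ∀ q ∈ B, star q = q → q * q = q → q ≠ 0 → τ q < ∞ → τ e < τ q + 1)
    {x : 𝔅} (hx : x ∈ B) (hxs : star x = x) (hex : e * x = x) (hxe : x * e = x) :
    ∃ c : ℂ, x = c • e := by
  have he0 : 0 ≤ e := by
    rw [← hid]
    nth_rw 1 [← hsa]
    exact star_mul_self_nonneg e
  have hxsa : IsSelfAdjoint x := hxs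
  haveI := h.closed
  -- the weight of the absolute value
  have ht : τ (cfcₙ (fun t : ℝ => |t|) x) < ∞ := by
    have hA : cfcₙ (fun t : ℝ => |t|) x ∈ B := cfcₙ_mem _ hx
    have hA0 : 0 ≤ cfcₙ (fun t : ℝ => |t|) x := cfcₙ_nonneg fun t _ => abs_nonneg t
    haveI := closed_crn e hsa
    have hAc : cfcₙ (fun t : ℝ => |t|) x ∈ crn e hsa := cfcₙ_mem _ (show x ∈ crn e hsa from ⟨hex, hxe⟩)
    have h1 := CStarAlgebra.star_left_conjugate_le_norm_smul (a := e)
      (b := cfcₙ (fun t : ℝ => |t|) x) (cfcₙ_predicate _ x)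
    rw [hsa, hAc.1, hAc.2, hid] at h1
    exact lt_of_le_of_lt (h.mono hA (SMulMemClass.smul_mem ((‖cfcₙ (fun t : ℝ => |t|) x‖ : ℝ) : ℂ) he)
      hA0 (by rw [Complex.coe_smul]; exact h1))
      (by rw [Complex.coe_smul]; exact h.smul_lt he he0 hfin (norm_nonneg _))
  by_cases hq : ∀ l ∈ quasispectrum ℝ x, l = 0
  · refine ⟨0, ?_⟩
    have h1 : cfcₙ (fun t : ℝ => t) x = cfcₙ (fun _ : ℝ => (0 : ℝ)) x :=
      cfcₙ_congr fun t ht' => hq t ht'
    rw [cfcₙ_id' ℝ x, cfcₙ_const_zero] at h1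
    rw [h1, zero_smul]
  push Not at hq
  obtain ⟨l, hl, hl0⟩ := hq
  obtain ⟨q, hqB, hqs, hqi, hq0, hxq, hqt⟩ := exists_proj h hx hxsa ht hl hl0
  have hlC : (l : ℂ) ≠ 0 := by exact_mod_cast hl0
  have heq : e * q = q := by
    have h1 : q = (l : ℂ)⁻¹ • (x * q) := by
      rw [hxq, smul_smul, inv_mul_cancel₀ hlC, one_smul]
    rw [h1, mul_smul_comm, ← mul_assoc, hex]
  have hqe : q * e = q := by
    have h1 := congrArg star heq
    rwa [star_mul, hqs, hsa] at h1
  by_cases hne : e = q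
  · refine ⟨l, ?_⟩
    rw [← hxe]
    nth_rw 1 [hne]
    rw [hxq, hne]
  exfalso
  have h1 : star (e - q) = e - q := by rw [star_sub, hsa, hqs]
  have h2 : (e - q) * (e - q) = e - q := by
    rw [sub_mul, mul_sub, mul_sub, hid, heq, hqe, hqi, sub_self, sub_zero]
  have h3 : e - q ≠ 0 := sub_ne_zero.2 hne
  have h4 := h.one_le (sub_mem he hqB) h1 h2 h3
  have h5 : 0 ≤ q := by
    rw [← hqi]
    nth_rw 1 [← hqs]
    exact star_mul_self_nonneg q
  have h6 : 0 ≤ e - q := by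
    rw [← h2]
    nth_rw 1 [← h1]
    exact star_mul_self_nonneg (e - q)
  have h7 := h.add q hqB (e - q) (sub_mem he hqB) h5 h6
  rw [add_sub_cancel] at h7
  have h8 := hmin q hqB hqs hqi hq0 hqt
  rw [h7] at h8
  exact absurd h8 (not_lt.2 (add_le_add le_rfl h4))

theorem eq_zero_of_spec {x : 𝔅} (hx : IsSelfAdjoint x) (h : ∀ l ∈ quasispectrum ℝ x, l = 0) :
    x = 0 := by
  have h1 : cfcₙ (fun t : ℝ => t) x = cfcₙ (fun _ : ℝ => (0 : ℝ)) x :=
    cfcₙ_congr fun t ht' => h t ht'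
  rwa [cfcₙ_id' ℝ x, cfcₙ_const_zero] at h1

/-- **Existence of minimal projections**: an increasing union of closed star algebras with an
additive weight `τ` (on positive elements) which dominates the norm; if some positive `a ≠ 0` has
finite weight, then there is a projection `e ≠ 0` which is minimal in the whole union. -/
theorem exists_minproj {ι : Type*} (B : ι → NonUnitalStarSubalgebra ℂ 𝔅)
    (hdir : ∀ i j, ∃ k, B i ≤ B k ∧ B j ≤ B k) (h : ∀ i, Wg (B i) τ) {i₀ : ι} {a : 𝔅}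
    (ha : a ∈ B i₀) (ha0 : 0 ≤ a) (hne : a ≠ 0) (ht : τ a < ∞) :
    ∃ i, ∃ e ∈ B i, star e = e ∧ e * e = e ∧ e ≠ 0 ∧ τ e < ∞ ∧
      ∀ j, ∀ x ∈ B j, ∃ c : ℂ, e * x * e = c • e := by
  classical
  have hsa : IsSelfAdjoint a := IsSelfAdjoint.of_nonneg ha0
  -- a first projection of finite weight
  have h1 : ∃ l ∈ quasispectrum ℝ a, l ≠ 0 := by
    by_contra hcon
    push Not at hcon
    exact hne (eq_zero_of_spec hsa hcon)
  obtain ⟨l, hl, hl0⟩ := h1
  have h2 : cfcₙ (fun t : ℝ => |t|) a = a := by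
    conv_rhs => rw [← cfcₙ_id' ℝ a]
    refine cfcₙ_congr fun t ht' => ?_
    exact abs_of_nonneg (quasispectrum_nonneg_of_nonneg a ha0 t ht')
  obtain ⟨q, hqB, hqs, hqi, hq0, _, hqt⟩ := exists_proj (h i₀) ha hsa (by rwa [h2]) hl hl0
  set Q : Set ℝ≥0∞ := {t | ∃ i, ∃ e ∈ B i, star e = e ∧ e * e = e ∧ e ≠ 0 ∧ τ e < ∞ ∧ τ e = t}
    with hQ
  have hQ1 : sInf Q < ∞ := lt_of_le_of_lt (sInf_le ⟨i₀, q, hqB, hqs, hqi, hq0, hqt, rfl⟩) hqt
  have hQ2 : sInf Q < sInf Q + 1 := ENNReal.lt_add_right hQ1.ne one_ne_zero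
  obtain ⟨t, ⟨i, e, heB, hes, hei, he0, het, rfl⟩, hlt⟩ := sInf_lt_iff.1 hQ2
  refine ⟨i, e, heB, hes, hei, he0, het, fun j x hx => ?_⟩
  obtain ⟨k, hik, hjk⟩ := hdir i j
  have hmin : ∀ q ∈ B k, star q = q → q * q = q → q ≠ 0 → τ q < ∞ → τ e < τ q + 1 := by
    intro q hq h3 h4 h5 h6
    refine lt_of_lt_of_le hlt (add_le_add (sInf_le ⟨k, q, hq, h3, h4, h5, h6, rfl⟩) le_rfl)
  set y := e * x * e with hy
  have heK : e ∈ B k := hik heB
  have hyK : y ∈ B k := mul_mem (mul_mem heK (hjk hx)) heK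
  have hey : e * y = y := by rw [hy, ← mul_assoc, ← mul_assoc, hei]
  have hye : y * e = y := by rw [hy, mul_assoc, hei]
  have hsy : e * star y = star y := by
    have h3 := congrArg star hye
    rwa [star_mul, hes] at h3
  have hys : star y * e = star y := by
    have h3 := congrArg star hey
    rwa [star_mul, hes] at h3
  obtain ⟨c, hc⟩ := scal_of_min (h k) heK hes hei het hmin (add_mem hyK (star_mem hyK))
    (by rw [star_add, star_star, add_comm]) (by rw [mul_add, hey, hsy])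
    (by rw [add_mul, hye, hys])
  obtain ⟨d, hd⟩ := scal_of_min (h k) heK hes hei het hmin
    (x := Complex.I • (y - star y))
    (SMulMemClass.smul_mem Complex.I (sub_mem hyK (star_mem hyK)))
    (by
      rw [star_smul, star_sub, star_star, Complex.star_def, Complex.conj_I, neg_smul, ← smul_neg,
        neg_sub])
    (by rw [mul_smul_comm, mul_sub, hey, hsy]) (by rw [smul_mul_assoc, sub_mul, hye, hys])
  refine ⟨(1 / 2 : ℂ) * (c - Complex.I * d), ?_⟩
  have h3 : y - star y = (-Complex.I * d) • e := by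
    rw [mul_smul, ← hd, smul_smul]
    simp
  have h4 : y = (1 / 2 : ℂ) • ((y + star y) + (y - star y)) := by
    rw [add_add_sub_cancel, ← two_smul ℂ y, smul_smul]
    norm_num
  rw [h4, hc, h3, ← add_smul, smul_smul]
  congr 1
  ring

end Vale.Agent.P092.H175.MinEx
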