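import Vale.Agent.P092.H175.Core

/-!
P092 (helper175): (N1)(i), the scalar inequality for the one-parameter functions.
-/

namespace Vale.Agent.P092.H175

lemma n_core {k e α β γ l1 l2 l3 v1 v2 v3 n11 n22 n33 n12 n13 n23 p a θ : ℝ}
    (hk : 1 ≤ k) (he2 : e ≤ 1 / 2)
    (h11 : |n11| ≤ k) (h22 : |n22| ≤ k) (h33 : |n33| ≤ k)
    (h12 : |n12| ≤ k) (h13 : |n13| ≤ k) (h23 : |n23| ≤ k)
    (hl1 : 0 ≤ l1) (hl2 : 0 ≤ l2) (hl3 : 0 ≤ l3) (hl : l1 + l2 + l3 = 1)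
    (hl32 : l3 ≤ 2 * e * l2) (hl31 : l3 ≤ 2 * e * l1)
    (hv1 : 0 ≤ v1) (hv2 : 0 ≤ v2) (hv : v1 + v2 + v3 = 1) (hve : v1 + v2 ≤ e)
    (hp : p = v1 * n11 + v2 * n22 + v3 * n33) (hpk : 1 / k ≤ p)
    (ha : 0 < a) (haθ : a ≤ θ) (hθ : θ ≤ 1) :
    |a ^ 2 * ((l3 * (n22 * α ^ 2 + n11 * β ^ 2 - 2 * n12 * α * β) +
        l2 * (n33 * α ^ 2 + n11 * γ ^ 2 - 2 * n13 * α * γ) +
        l1 * (n33 * β ^ 2 + n22 * γ ^ 2 - 2 * n23 * β * γ)) / p -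
      ((1 - l1) * α ^ 2 + (1 - l2) * β ^ 2 + (1 - l3) * γ ^ 2))| ≤
      (10 * k ^ 2 * θ + 8 * k ^ 2 * e) * (v1 * α ^ 2 + v2 * β ^ 2 + v3 * γ ^ 2 +
        a ^ 2 * ((1 - l1) * α ^ 2 + (1 - l2) * β ^ 2 + (1 - l3) * γ ^ 2)) := by
  have hk0 : 0 < k := by linarith only [hk]
  have he0 : 0 ≤ e := by linarith only [hv1, hv2, hve]
  have hp0 : 0 < p := lt_of_lt_of_le (by positivity) hpk
  have hv3' : 1 / 2 ≤ v3 := by linarith only [hv, hve, he2]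
  have hv3 : 0 ≤ v3 := by linarith only [hv3']
  have hpk' : p ≤ k := wavg_le hv1 hv2 hv3 hv h11 h22 h33 hp
  have hpi : p⁻¹ ≤ k := by
    rw [inv_le_comm₀ hp0 hk0]; simpa using hpk
  have hpi0 : 0 < p⁻¹ := inv_pos.mpr hp0
  have ha1 : a ≤ 1 := haθ.trans hθ
  have hθ0 : 0 ≤ θ := ha.le.trans haθ
  set P := a ^ 2 * (l2 * α ^ 2 + l1 * β ^ 2) with hP
  have hP0 : 0 ≤ P := by positivity
  set F := v1 * α ^ 2 + v2 * β ^ 2 + v3 * γ ^ 2 +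
        a ^ 2 * ((1 - l1) * α ^ 2 + (1 - l2) * β ^ 2 + (1 - l3) * γ ^ 2) with hF
  have hFP : γ ^ 2 / 2 + P ≤ F := by
    have h1 : (1 / 2) * γ ^ 2 ≤ v3 * γ ^ 2 := mul_le_mul_of_nonneg_right hv3' (sq_nonneg _)
    have h2 : 0 ≤ v1 * α ^ 2 + v2 * β ^ 2 := by positivity
    have h3 : 0 ≤ a ^ 2 * (l3 * α ^ 2 + l3 * β ^ 2 + (l1 + l2) * γ ^ 2) := by positivity
    have e1 : (1 - l1) = l2 + l3 := by linarith only [hl]
    have e2 : (1 - l2) = l1 + l3 := by linarith only [hl]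
    have e3 : (1 - l3) = l1 + l2 := by linarith only [hl]
    have e4 : a ^ 2 * ((1 - l1) * α ^ 2 + (1 - l2) * β ^ 2 + (1 - l3) * γ ^ 2) =
        P + a ^ 2 * (l3 * α ^ 2 + l3 * β ^ 2 + (l1 + l2) * γ ^ 2) := by
      rw [hP, e1, e2, e3]; ring
    rw [hF, e4]; linarith only [h1, h2, h3]
  have hg : γ ^ 2 ≤ 2 * F := by linarith only [hFP, hP0]
  have hPF : P ≤ F := by have := sq_nonneg γ; linarith only [hFP, this]
  have hF0 : 0 ≤ F := hP0.trans hPF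
  -- coefficient bounds
  have cgen : ∀ q : ℝ, |q| ≤ k → |q * p⁻¹ - 1| ≤ 2 * k ^ 2 := by
    intro q hq
    have h1 : q * p⁻¹ - 1 = (q - p) * p⁻¹ := by field_simp
    have h2 : |q - p| ≤ 2 * k := by
      rw [abs_le]
      have := abs_le.mp hq
      constructor
      · linarith only [this.1, hpk']
      · linarith only [this.2, hp0, hk0]
    rw [h1, abs_mul, abs_of_pos hpi0]
    calc |q - p| * p⁻¹ ≤ 2 * k * k := by gcongr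
      _ = _ := by ring
  have c33 : |n33 * p⁻¹ - 1| ≤ 2 * k ^ 2 * e := by
    have h1 : n33 * p⁻¹ - 1 = (n33 - p) * p⁻¹ := by field_simp
    have h2 := wavg hv1 hv2 hv h11 h22 h33 hp
    rw [h1, abs_mul, abs_of_pos hpi0]
    calc |n33 - p| * p⁻¹ ≤ 2 * k * (v1 + v2) * k := by gcongr
      _ ≤ 2 * k * e * k := by gcongr
      _ = _ := by ring
  have cab : ∀ q : ℝ, |q| ≤ k → |q * p⁻¹| ≤ k ^ 2 := by
    intro q hq
    rw [abs_mul, abs_of_pos hpi0]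
    calc |q| * p⁻¹ ≤ k * k := by gcongr
      _ = _ := by ring
  -- term 4
  have T4 : |a ^ 2 * (l3 * ((n22 * p⁻¹ - 1) * α ^ 2 + (n11 * p⁻¹ - 1) * β ^ 2 -
      2 * (n12 * p⁻¹ * α * β)))| ≤ 6 * k ^ 2 * e * P := by
    have e1 := sq_b α (cgen _ h22)
    have e2 := sq_b β (cgen _ h11)
    have e3 := mul_b α β (cab _ h12)
    have e4 : k ^ 2 * (|α| * |β|) ≤ k ^ 2 * ((α ^ 2 + β ^ 2) / 2) :=
      mul_le_mul_of_nonneg_left (amgm _ _) (by positivity)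
    have e5 : |(n22 * p⁻¹ - 1) * α ^ 2 + (n11 * p⁻¹ - 1) * β ^ 2 - 2 * (n12 * p⁻¹ * α * β)| ≤
        3 * k ^ 2 * (α ^ 2 + β ^ 2) := by
      have a1 := abs_le.mp e1
      have a2 := abs_le.mp e2
      have a3 := abs_le.mp e3
      rw [abs_le]
      constructor
      · linarith only [a1.1, a2.1, a3.2, e4]
      · linarith only [a1.2, a2.2, a3.1, e4]
    have e6 : a ^ 2 * (l3 * (α ^ 2 + β ^ 2)) ≤ 2 * e * P := by
      have f1 : l3 * α ^ 2 ≤ 2 * e * l2 * α ^ 2 := by gcongr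
      have f2 : l3 * β ^ 2 ≤ 2 * e * l1 * β ^ 2 := by gcongr
      calc a ^ 2 * (l3 * (α ^ 2 + β ^ 2)) = a ^ 2 * (l3 * α ^ 2 + l3 * β ^ 2) := by ring
        _ ≤ a ^ 2 * (2 * e * l2 * α ^ 2 + 2 * e * l1 * β ^ 2) := by gcongr
        _ = _ := by rw [hP]; ring
    rw [abs_mul, abs_mul, abs_of_nonneg (sq_nonneg a), abs_of_nonneg hl3]
    calc a ^ 2 * (l3 * _) ≤ a ^ 2 * (l3 * (3 * k ^ 2 * (α ^ 2 + β ^ 2))) := by gcongr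
      _ = 3 * k ^ 2 * (a ^ 2 * (l3 * (α ^ 2 + β ^ 2))) := by ring
      _ ≤ 3 * k ^ 2 * (2 * e * P) := by gcongr
      _ = _ := by ring
  -- terms 1, 2, 3 for one index
  have Ti : ∀ (l x ni n3 : ℝ), 0 ≤ l → |ni| ≤ k → |n3| ≤ k →
      |a ^ 2 * (l * ((n33 * p⁻¹ - 1) * x ^ 2 + (ni * p⁻¹ - 1) * γ ^ 2 -
        2 * (n3 * p⁻¹ * x * γ)))| ≤
        2 * k ^ 2 * e * (a ^ 2 * (l * x ^ 2)) + 3 * k ^ 2 * θ * (l * γ ^ 2) +
          k ^ 2 * θ * (a ^ 2 * (l * x ^ 2)) := by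
    intro l x ni n3 hl0 hni hn3
    have e1 := sq_b x c33
    have e2 := sq_b γ (cgen _ hni)
    have e3 := mul_b x γ (cab _ hn3)
    have e5 : |(n33 * p⁻¹ - 1) * x ^ 2 + (ni * p⁻¹ - 1) * γ ^ 2 - 2 * (n3 * p⁻¹ * x * γ)| ≤
        2 * k ^ 2 * e * x ^ 2 + 2 * k ^ 2 * γ ^ 2 + 2 * (k ^ 2 * (|x| * |γ|)) := by
      have a1 := abs_le.mp e1
      have a2 := abs_le.mp e2
      have a3 := abs_le.mp e3
      rw [abs_le]
      constructor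
      · linarith only [a1.1, a2.1, a3.2]
      · linarith only [a1.2, a2.2, a3.1]
    have e6 : a ^ 2 * (|x| * |γ|) ≤ θ * ((a ^ 2 * x ^ 2 + γ ^ 2) / 2) := by
      have f1 := amgm (a * x) γ
      rw [abs_mul, abs_of_pos ha] at f1
      calc a ^ 2 * (|x| * |γ|) = a * (a * |x| * |γ|) := by ring
        _ ≤ θ * (((a * x) ^ 2 + γ ^ 2) / 2) := by gcongr
        _ = _ := by ring
    have e7 : a ^ 2 * γ ^ 2 ≤ θ * γ ^ 2 := by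
      have : a ^ 2 ≤ θ := by
        calc a ^ 2 = a * a := by ring
          _ ≤ θ * 1 := by gcongr
          _ = θ := by ring
      gcongr
    rw [abs_mul, abs_mul, abs_of_nonneg (sq_nonneg a), abs_of_nonneg hl0]
    calc a ^ 2 * (l * _) ≤ a ^ 2 * (l * (2 * k ^ 2 * e * x ^ 2 + 2 * k ^ 2 * γ ^ 2 +
          2 * (k ^ 2 * (|x| * |γ|)))) := by gcongr
      _ = 2 * k ^ 2 * e * (a ^ 2 * (l * x ^ 2)) + 2 * k ^ 2 * (l * (a ^ 2 * γ ^ 2)) +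
          2 * k ^ 2 * (l * (a ^ 2 * (|x| * |γ|))) := by ring
      _ ≤ 2 * k ^ 2 * e * (a ^ 2 * (l * x ^ 2)) + 2 * k ^ 2 * (l * (θ * γ ^ 2)) +
          2 * k ^ 2 * (l * (θ * ((a ^ 2 * x ^ 2 + γ ^ 2) / 2))) := by gcongr
      _ = _ := by ring
  have T2 := Ti l2 α n11 n13 hl2 h11 h13
  have T1 := Ti l1 β n22 n23 hl1 h22 h23
  have e1 : (1 - l1) = l2 + l3 := by linarith only [hl]
  have e2 : (1 - l2) = l1 + l3 := by linarith only [hl]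
  have e3 : (1 - l3) = l1 + l2 := by linarith only [hl]
  have key : a ^ 2 * ((l3 * (n22 * α ^ 2 + n11 * β ^ 2 - 2 * n12 * α * β) +
        l2 * (n33 * α ^ 2 + n11 * γ ^ 2 - 2 * n13 * α * γ) +
        l1 * (n33 * β ^ 2 + n22 * γ ^ 2 - 2 * n23 * β * γ)) / p -
      ((1 - l1) * α ^ 2 + (1 - l2) * β ^ 2 + (1 - l3) * γ ^ 2)) =
      a ^ 2 * (l3 * ((n22 * p⁻¹ - 1) * α ^ 2 + (n11 * p⁻¹ - 1) * β ^ 2 -
      2 * (n12 * p⁻¹ * α * β))) +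
      a ^ 2 * (l2 * ((n33 * p⁻¹ - 1) * α ^ 2 + (n11 * p⁻¹ - 1) * γ ^ 2 -
        2 * (n13 * p⁻¹ * α * γ))) +
      a ^ 2 * (l1 * ((n33 * p⁻¹ - 1) * β ^ 2 + (n22 * p⁻¹ - 1) * γ ^ 2 -
        2 * (n23 * p⁻¹ * β * γ))) := by
    rw [e1, e2, e3, div_eq_mul_inv]; ring
  rw [key]
  refine (abs_add_three _ _ _).trans ?_
  have h5 : a ^ 2 * (l2 * α ^ 2) + a ^ 2 * (l1 * β ^ 2) = P := by rw [hP]; ring
  have h6 : l2 * γ ^ 2 + l1 * γ ^ 2 ≤ γ ^ 2 := by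
    have : (l2 + l1) * γ ^ 2 ≤ 1 * γ ^ 2 := by gcongr; linarith only [hl, hl3]
    linarith only [this]
  have hk2 : 0 ≤ k ^ 2 := by positivity
  calc _ ≤ 6 * k ^ 2 * e * P + (2 * k ^ 2 * e * (a ^ 2 * (l2 * α ^ 2)) +
        3 * k ^ 2 * θ * (l2 * γ ^ 2) + k ^ 2 * θ * (a ^ 2 * (l2 * α ^ 2))) +
        (2 * k ^ 2 * e * (a ^ 2 * (l1 * β ^ 2)) + 3 * k ^ 2 * θ * (l1 * γ ^ 2) +
          k ^ 2 * θ * (a ^ 2 * (l1 * β ^ 2))) := add_le_add (add_le_add T4 T2) T1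
    _ = 6 * k ^ 2 * e * P + 2 * k ^ 2 * e * (a ^ 2 * (l2 * α ^ 2) + a ^ 2 * (l1 * β ^ 2)) +
        3 * k ^ 2 * θ * (l2 * γ ^ 2 + l1 * γ ^ 2) +
        k ^ 2 * θ * (a ^ 2 * (l2 * α ^ 2) + a ^ 2 * (l1 * β ^ 2)) := by ring
    _ ≤ 6 * k ^ 2 * e * P + 2 * k ^ 2 * e * P + 3 * k ^ 2 * θ * γ ^ 2 + k ^ 2 * θ * P := by
        rw [h5]; gcongr
    _ ≤ 6 * k ^ 2 * e * F + 2 * k ^ 2 * e * F + 3 * k ^ 2 * θ * (2 * F) + k ^ 2 * θ * F := by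
        gcongr
    _ ≤ _ := by
        have : 0 ≤ k ^ 2 * θ * F := by positivity
        nlinarith only [this]

end Vale.Agent.P092.H175
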