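import Vale.Agent.P092.H175.Left
import Vale.Agent.P092.H175.FN
import Vale.Agent.P092.H175.NCore

/-!
P092 (helper175): (N1)(i), asymptotic left equivariance of the one-parameter functions `fN`.
-/

namespace Vale.Agent.P092.H175

open Matrix Vale.Agent.P092.H553

/-- Left estimate with matrices only (one-parameter functions). -/
theorem left_matN {G Gi S Si Bm : M3} (hG : G * Gi = 1) (hdG : G.det = 1) (hS : S * Si = 1)
    (hdS : S.det = 1) {k θ e a : ℝ} (hk : 1 ≤ k) (hSk : hs S ≤ k) (hSik : hs Si ≤ k)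
    (he2 : e ≤ 1 / 2) (h23 : 6 * hs G / hs Gi ^ 2 ≤ e)
    (ha : 0 < a) (haθ : a ≤ θ) (hθ : θ ≤ 1)
    {p q : ℝ} (hp : p = hs (Gi * Si) / hs Gi) (hq : q = hs (S * G) / hs G) :
    |a ^ 2 * ((q * hs (S * Bm) - hs (Gᵀ * (Sᵀ * S) * Bm) / hs G) / p -
        (hs Bm - hs (Gᵀ * Bm) / hs G))| ≤
      (10 * k ^ 2 * θ + 8 * k ^ 2 * e) *
        (hs (Gi * Bm) / hs Gi + a ^ 2 * (hs Bm - hs (Gᵀ * Bm) / hs G)) := by
  have hk0 : 0 < k := by linarith only [hk]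
  have hG' : Gi * G = 1 := mul_eq_one_comm.mp hG
  have hS' : Si * S = 1 := mul_eq_one_comm.mp hS
  obtain ⟨U, x1, x2, x3, hU1, hU2, hx3, hx32, hx21, hX, hXi⟩ := exists_frame G Gi hG
  have hx2 : 0 < x2 := lt_of_lt_of_le hx3 hx32
  have hx1 : 0 < x1 := lt_of_lt_of_le hx2 hx21
  -- traces
  have conj : ∀ Y Z : M3, trace (Yᵀ * Z * Y) = trace ((Uᵀ * Y)ᵀ * (Uᵀ * Z * U) * (Uᵀ * Y)) := by
    intro Y Z
    have : (Uᵀ * Y)ᵀ * (Uᵀ * Z * U) * (Uᵀ * Y) = Yᵀ * ((U * Uᵀ) * Z * (U * Uᵀ)) * Y := by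
      rw [transpose_mul, transpose_transpose]; simp only [Matrix.mul_assoc]
    rw [this, hU2, Matrix.one_mul, Matrix.mul_one]
  have conj1 : ∀ Z : M3, trace Z = trace (Uᵀ * Z * U) := by
    intro Z
    rw [trace_mul_comm, ← Matrix.mul_assoc, hU2, Matrix.one_mul]
  set b := Uᵀ * Bm with hb
  set M := Uᵀ * (Sᵀ * S) * U with hM
  set N := Uᵀ * (Si * Siᵀ) * U with hN
  have hMt : Mᵀ = M := by
    rw [hM]; simp only [transpose_mul, transpose_transpose, Matrix.mul_assoc]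
  have hA : hs G = x1 + x2 + x3 := by
    rw [hs_eq', conj1, hX]; simp [trace, Fin.sum_univ_three, diagonal_apply]
  have hB : hs Gi = x1⁻¹ + x2⁻¹ + x3⁻¹ := by
    rw [hs_eq, conj1, hXi]; simp [trace, Fin.sum_univ_three, diagonal_apply]
  have hA0 : 0 < hs G := by rw [hA]; positivity
  have hB0 : 0 < hs Gi := by rw [hB]; positivity
  have hbb : hs Bm = ∑ j, (b 0 j ^ 2 + b 1 j ^ 2 + b 2 j ^ 2) := by
    have : hs b = hs Bm := hs_orth_mul Bm (U := Uᵀ) (by rw [transpose_transpose]; exact hU2)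
    rw [← this]
    simp [hs, Fin.sum_univ_three]; ring
  have hGb : hs (Gᵀ * Bm) = ∑ j, (x1 * b 0 j ^ 2 + x2 * b 1 j ^ 2 + x3 * b 2 j ^ 2) := by
    rw [hs_eq, show (Gᵀ * Bm)ᵀ * (Gᵀ * Bm) = Bmᵀ * (G * Gᵀ) * Bm by
      rw [transpose_mul, transpose_transpose]; simp only [Matrix.mul_assoc], conj, hX, tr_diag]
  have hGib : hs (Gi * Bm) = ∑ j, (x1⁻¹ * b 0 j ^ 2 + x2⁻¹ * b 1 j ^ 2 + x3⁻¹ * b 2 j ^ 2) := by
    rw [hs_eq, show (Gi * Bm)ᵀ * (Gi * Bm) = Bmᵀ * (Giᵀ * Gi) * Bm by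
      rw [transpose_mul]; simp only [Matrix.mul_assoc], conj, hXi, tr_diag]
  have hSb : hs (S * Bm) =
      ∑ j, SS (M 0 0) (M 1 1) (M 2 2) (M 0 1) (M 0 2) (M 1 2) (b 0 j) (b 1 j) (b 2 j) := by
    rw [hs_eq, show (S * Bm)ᵀ * (S * Bm) = Bmᵀ * (Sᵀ * S) * Bm by
      rw [transpose_mul]; simp only [Matrix.mul_assoc], conj, tr_gen _ _ hMt]
  have hZ : hs (Gᵀ * (Sᵀ * S) * Bm) =
      ∑ j, (x1 * (M 0 0 * b 0 j + M 0 1 * b 1 j + M 0 2 * b 2 j) ^ 2 +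
        x2 * (M 0 1 * b 0 j + M 1 1 * b 1 j + M 1 2 * b 2 j) ^ 2 +
        x3 * (M 0 2 * b 0 j + M 1 2 * b 1 j + M 2 2 * b 2 j) ^ 2) := by
    have h10 : M 1 0 = M 0 1 := congrFun (congrFun hMt 0) 1
    have h20 : M 2 0 = M 0 2 := congrFun (congrFun hMt 0) 2
    have h21 : M 2 1 = M 1 2 := congrFun (congrFun hMt 1) 2
    rw [hs_eq, show (Gᵀ * (Sᵀ * S) * Bm)ᵀ * (Gᵀ * (Sᵀ * S) * Bm) =
      ((Sᵀ * S) * Bm)ᵀ * (G * Gᵀ) * ((Sᵀ * S) * Bm) by
      rw [Matrix.mul_assoc Gᵀ, transpose_mul Gᵀ, transpose_transpose]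
      simp only [Matrix.mul_assoc], conj, hX,
      show Uᵀ * (Sᵀ * S * Bm) = M * b by
        rw [hM, hb, show Uᵀ * (Sᵀ * S) * U * (Uᵀ * Bm) = Uᵀ * (Sᵀ * S) * (U * Uᵀ) * Bm by
          simp only [Matrix.mul_assoc], hU2, Matrix.mul_one]; simp only [Matrix.mul_assoc], tr_diag]
    refine Finset.sum_congr rfl fun j _ => ?_
    simp only [Matrix.mul_apply, Fin.sum_univ_three, h10, h20, h21]
  have hSG : hs (S * G) = x1 * M 0 0 + x2 * M 1 1 + x3 * M 2 2 := by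
    rw [hs_eq', show S * G * (S * G)ᵀ = S * ((G * Gᵀ) * Sᵀ) by
      rw [transpose_mul]; simp only [Matrix.mul_assoc], trace_mul_comm,
      show G * Gᵀ * Sᵀ * S = (G * Gᵀ) * (Sᵀ * S) by simp only [Matrix.mul_assoc], conj1,
      show Uᵀ * (G * Gᵀ * (Sᵀ * S)) * U = (Uᵀ * (G * Gᵀ) * U) * M by
        rw [hM, show (Uᵀ * (G * Gᵀ) * U) * (Uᵀ * (Sᵀ * S) * U) =
          Uᵀ * (G * Gᵀ) * (U * Uᵀ) * (Sᵀ * S) * U by simp only [Matrix.mul_assoc], hU2,
          Matrix.mul_one]; simp only [Matrix.mul_assoc], hX]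
    simp [trace, Fin.sum_univ_three]
  have hGS : hs (Gi * Si) = x1⁻¹ * N 0 0 + x2⁻¹ * N 1 1 + x3⁻¹ * N 2 2 := by
    rw [hs_eq, show (Gi * Si)ᵀ * (Gi * Si) = Siᵀ * ((Giᵀ * Gi) * Si) by
      rw [transpose_mul]; simp only [Matrix.mul_assoc], trace_mul_comm,
      show Giᵀ * Gi * Si * Siᵀ = (Giᵀ * Gi) * (Si * Siᵀ) by simp only [Matrix.mul_assoc], conj1,
      show Uᵀ * (Giᵀ * Gi * (Si * Siᵀ)) * U = (Uᵀ * (Giᵀ * Gi) * U) * N by
        rw [hN, show (Uᵀ * (Giᵀ * Gi) * U) * (Uᵀ * (Si * Siᵀ) * U) =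
          Uᵀ * (Giᵀ * Gi) * (U * Uᵀ) * (Si * Siᵀ) * U by simp only [Matrix.mul_assoc], hU2,
          Matrix.mul_one]; simp only [Matrix.mul_assoc], hXi]
    simp [trace, Fin.sum_univ_three]
  -- determinants
  have hdU : U.det * U.det = 1 := by
    have := congrArg det hU1
    rwa [det_mul, det_transpose, det_one] at this
  have hx : x1 * x2 * x3 = 1 := by
    have := congrArg det hX
    rw [det_mul, det_mul, det_mul, det_transpose, det_transpose, hdG, det_diagonal,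
      Fin.prod_univ_three] at this
    simp at this
    rw [← this, hdU]
  have hdM : M.det = 1 := by
    rw [hM, det_mul, det_mul, det_mul, det_transpose, det_transpose, hdS]
    simp [hdU]
  have hMN : M * N = 1 := by
    rw [hM, hN, show Uᵀ * (Sᵀ * S) * U * (Uᵀ * (Si * Siᵀ) * U) =
      Uᵀ * (Sᵀ * (S * ((U * Uᵀ) * (Si * Siᵀ)))) * U by simp only [Matrix.mul_assoc], hU2,
      Matrix.one_mul, show Sᵀ * (S * (Si * Siᵀ)) = Sᵀ * ((S * Si) * Siᵀ) by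
        simp only [Matrix.mul_assoc], hS, Matrix.one_mul, ← transpose_mul, hS', transpose_one,
      Matrix.mul_one, hU1]
  have hNadj : N = M.adjugate := by
    calc N = (M.adjugate * M) * N := by rw [adjugate_mul, hdM, one_smul, Matrix.one_mul]
      _ = M.adjugate := by rw [Matrix.mul_assoc, hMN, Matrix.mul_one]
  have h10 : M 1 0 = M 0 1 := congrFun (congrFun hMt 0) 1
  have h20 : M 2 0 = M 0 2 := congrFun (congrFun hMt 0) 2
  have h21 : M 2 1 = M 1 2 := congrFun (congrFun hMt 1) 2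
  have c33 : N 2 2 = M 0 0 * M 1 1 - M 0 1 ^ 2 := by
    rw [hNadj, adjugate_fin_three]; simp [h10]; ring
  have c22 : N 1 1 = M 0 0 * M 2 2 - M 0 2 ^ 2 := by
    rw [hNadj, adjugate_fin_three]; simp [h20]; ring
  have c23 : N 1 2 = M 0 1 * M 0 2 - M 0 0 * M 1 2 := by
    rw [hNadj, adjugate_fin_three]; simp [h10]; ring
  have c11 : N 0 0 = M 1 1 * M 2 2 - M 1 2 ^ 2 := by
    rw [hNadj, adjugate_fin_three]; simp [h21]; ring
  have c12 : N 0 1 = M 0 2 * M 1 2 - M 0 1 * M 2 2 := by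
    rw [hNadj, adjugate_fin_three]; simp [h21]; ring
  have c13 : N 0 2 = M 0 1 * M 1 2 - M 0 2 * M 1 1 := by
    rw [hNadj, adjugate_fin_three]; simp
  -- entry bounds
  have hNW : N = (Siᵀ * U)ᵀ * (Siᵀ * U) := by
    rw [hN, transpose_mul, transpose_transpose]; simp only [Matrix.mul_assoc]
  have hNk : ∀ i j, |N i j| ≤ k := fun i j => by
    rw [hNW]; exact (gram_le _ i j).trans (by rw [hs_mul_orth _ hU2, hs_transpose]; exact hSik)
  -- p, q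
  have hp1 : 1 / k ≤ p := by
    have h1 : hs Gi ≤ hs (Gi * Si) * hs S := by
      have := hs_mul_le (Gi * Si) S
      rwa [Matrix.mul_assoc, hS', Matrix.mul_one] at this
    rw [hp, div_le_div_iff₀ hk0 hB0, one_mul]
    exact h1.trans (mul_le_mul_of_nonneg_left hSk (hs_nonneg _))
  have hp0 : 0 < p := lt_of_lt_of_le (by positivity) hp1
  -- weights
  set l1 := x1 / hs G with hl1
  set l2 := x2 / hs G with hl2
  set l3 := x3 / hs G with hl3
  set v1 := x1⁻¹ / hs Gi with hv1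
  set v2 := x2⁻¹ / hs Gi with hv2
  set v3 := x3⁻¹ / hs Gi with hv3
  have hl : l1 + l2 + l3 = 1 := by
    rw [hl1, hl2, hl3, ← add_div, ← add_div, ← hA, div_self hA0.ne']
  have hv : v1 + v2 + v3 = 1 := by
    rw [hv1, hv2, hv3, ← add_div, ← add_div, ← hB, div_self hB0.ne']
  have hl1p : 0 ≤ l1 := by positivity
  have hl2p : 0 ≤ l2 := by positivity
  have hl3p : 0 ≤ l3 := by positivity
  have hv1p : 0 ≤ v1 := by positivity
  have hv2p : 0 ≤ v2 := by positivity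
  have hv3p : 0 ≤ v3 := by positivity
  have hve : v1 + v2 ≤ e := by
    refine le_trans ?_ h23
    rw [hv1, hv2, ← add_div, div_le_div_iff₀ hB0 (by positivity)]
    have e1 : (x1⁻¹ + x2⁻¹) * hs Gi ≤ 6 * hs G := by
      have i21 : x1⁻¹ ≤ x2⁻¹ := inv_anti₀ hx2 hx21
      have i32 : x2⁻¹ ≤ x3⁻¹ := inv_anti₀ hx3 hx32
      have f1 : (x1⁻¹ + x2⁻¹) * hs Gi ≤ (2 * x2⁻¹) * (3 * x3⁻¹) := by
        rw [hB]
        apply mul_le_mul (by linarith only [i21]) (by linarith only [i21, i32]) (by positivity)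
          (by positivity)
      have f2 : (2 * x2⁻¹) * (3 * x3⁻¹) = 6 * x1 := by
        have : x2⁻¹ * x3⁻¹ = x1 := by
          rw [← mul_inv]
          exact inv_eq_of_mul_eq_one_left (by rw [← mul_assoc]; exact hx)
        linear_combination 6 * this
      have f3 : x1 ≤ hs G := by rw [hA]; linarith only [hx2, hx3]
      linarith only [f1, f2, f3]
    calc (x1⁻¹ + x2⁻¹) * hs Gi ^ 2 = ((x1⁻¹ + x2⁻¹) * hs Gi) * hs Gi := by ring
      _ ≤ 6 * hs G * hs Gi := by gcongr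
  have hpe : p = v1 * N 0 0 + v2 * N 1 1 + v3 * N 2 2 := by
    rw [hp, hGS, hv1, hv2, hv3]; ring
  have hqe : q = l1 * M 0 0 + l2 * M 1 1 + l3 * M 2 2 := by
    rw [hq, hSG, hl1, hl2, hl3]; ring
  -- per column
  set Sj : Fin 3 → ℝ := fun j =>
    SS (M 0 0) (M 1 1) (M 2 2) (M 0 1) (M 0 2) (M 1 2) (b 0 j) (b 1 j) (b 2 j) with hSj
  set Zj : Fin 3 → ℝ := fun j =>
    l1 * (M 0 0 * b 0 j + M 0 1 * b 1 j + M 0 2 * b 2 j) ^ 2 +
        l2 * (M 0 1 * b 0 j + M 1 1 * b 1 j + M 1 2 * b 2 j) ^ 2 +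
        l3 * (M 0 2 * b 0 j + M 1 2 * b 1 j + M 2 2 * b 2 j) ^ 2 with hZj
  set Lj : Fin 3 → ℝ := fun j =>
    (1 - l1) * b 0 j ^ 2 + (1 - l2) * b 1 j ^ 2 + (1 - l3) * b 2 j ^ 2 with hLj
  set Vj : Fin 3 → ℝ := fun j => v1 * b 0 j ^ 2 + v2 * b 1 j ^ 2 + v3 * b 2 j ^ 2 with hVj
  have hSsum : hs (S * Bm) = ∑ j, Sj j := hSb
  have hZsum : hs (Gᵀ * (Sᵀ * S) * Bm) / hs G = ∑ j, Zj j := by
    rw [hZ, Finset.sum_div]
    refine Finset.sum_congr rfl fun j _ => ?_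
    simp only [hZj, hl1, hl2, hl3]; ring
  have hLsum : hs Bm - hs (Gᵀ * Bm) / hs G = ∑ j, Lj j := by
    rw [hbb, hGb, Finset.sum_div, ← Finset.sum_sub_distrib]
    refine Finset.sum_congr rfl fun j _ => ?_
    simp only [hLj, hl1, hl2, hl3]; ring
  have hVsum : hs (Gi * Bm) / hs Gi = ∑ j, Vj j := by
    rw [hGib, Finset.sum_div]
    refine Finset.sum_congr rfl fun j _ => ?_
    simp only [hVj, hv1, hv2, hv3]; ring
  have hv3' : 1 / 2 ≤ v3 := by linarith only [hv, hve, he2]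
  have hlv1 : l3 * v3 = l1 * v1 := by
    rw [hl1, hl3, hv1, hv3]; field_simp
  have hlv2 : l3 * v3 = l2 * v2 := by
    rw [hl2, hl3, hv2, hv3]; field_simp
  have hl3h : l3 * (1 / 2) ≤ l3 * v3 := mul_le_mul_of_nonneg_left hv3' hl3p
  have hl32 : l3 ≤ 2 * e * l2 := by
    have : l2 * v2 ≤ l2 * e := mul_le_mul_of_nonneg_left (by linarith only [hve, hv1p]) hl2p
    linarith only [hl3h, hlv2, this]
  have hl31 : l3 ≤ 2 * e * l1 := by
    have : l1 * v1 ≤ l1 * e := mul_le_mul_of_nonneg_left (by linarith only [hve, hv2p]) hl1p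
    linarith only [hl3h, hlv1, this]
  have hcol : ∀ j, |a ^ 2 * ((q * Sj j - Zj j) / p - Lj j)| ≤
      (10 * k ^ 2 * θ + 8 * k ^ 2 * e) * (Vj j + a ^ 2 * Lj j) := by
    intro j
    have hid : q * Sj j - Zj j =
        l3 * (N 1 1 * b 0 j ^ 2 + N 0 0 * b 1 j ^ 2 - 2 * N 0 1 * b 0 j * b 1 j) +
        l2 * (N 2 2 * b 0 j ^ 2 + N 0 0 * b 2 j ^ 2 - 2 * N 0 2 * b 0 j * b 2 j) +
        l1 * (N 2 2 * b 1 j ^ 2 + N 1 1 * b 2 j ^ 2 - 2 * N 1 2 * b 1 j * b 2 j) := by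
      simp only [hSj, hZj, SS]
      rw [hqe, c11, c22, c33, c12, c13, c23]; ring
    rw [hid]
    exact n_core hk he2 (hNk 0 0) (hNk 1 1) (hNk 2 2) (hNk 0 1) (hNk 0 2) (hNk 1 2)
      hl1p hl2p hl3p hl hl32 hl31 hv1p hv2p hv hve hpe hp1 ha haθ hθ
  have hL : a ^ 2 * ((q * hs (S * Bm) - hs (Gᵀ * (Sᵀ * S) * Bm) / hs G) / p -
        (hs Bm - hs (Gᵀ * Bm) / hs G)) =
      ∑ j, (a ^ 2 * ((q * Sj j - Zj j) / p - Lj j)) := by
    rw [hSsum, hZsum, hLsum]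
    simp only [Fin.sum_univ_three, div_eq_mul_inv]; ring
  have hR : hs (Gi * Bm) / hs Gi + a ^ 2 * (hs Bm - hs (Gᵀ * Bm) / hs G) =
      ∑ j, (Vj j + a ^ 2 * Lj j) := by
    rw [hVsum, hLsum]
    simp only [Fin.sum_univ_three]; ring
  rw [hL, hR, Finset.mul_sum]
  exact (Finset.abs_sum_le_sum_abs _ _).trans (Finset.sum_le_sum fun j _ => hcol j)

lemma alg_finalN {X Z SB GB Bn A B p q E1 : ℝ} (hA : A ≠ 0) (hB : B ≠ 0) (hp : p ≠ 0)
    (hq : q ≠ 0) :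
    p * (X / (p * B) + E1 * (q / p ^ 2) * (SB - Z / (q * A))) -
      (X / B + E1 * (Bn - GB / A)) = E1 * ((q * SB - Z / A) / p - (Bn - GB / A)) := by
  field_simp
  ring

/-- **(N1)(i)** The asymptotic left equivariance. -/
theorem left_estN {κ θ e t : ℝ} {s g b : G3} (h1 : rA s ≤ κ) (h2 : rB s ≤ κ)
    (he : e ≤ 1 / 2) (h23 : 6 / G23 g ≤ e) (ht : Real.exp (-t / 2) ≤ θ) (hθ : θ ≤ 1) :
    |rB (s * g) / rB g *
        fN (t + Real.log ((rB (s * g) / rB g) ^ 2 / (rA (s * g) / rA g))) (s * g) (s * b) -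
      fN t g b| ≤ (10 * κ ^ 2 * θ + 8 * κ ^ 2 * e) * fN t g b := by
  have hA := rA_pos g
  have hB := rB_pos g
  have hA' := rA_pos (s * g)
  have hB' := rB_pos (s * g)
  have hAs := rA_pos s
  have hk : 1 ≤ κ := by
    have h1' : hs (1 : M3) ≤ rA s * rB s := by
      rw [← rm_mul_inv s]; exact hs_mul_le _ _
    have h3 : hs (1 : M3) = 3 := by simp [hs, Matrix.one_apply]
    rw [h3] at h1'
    by_contra hlt
    push Not at hlt
    have h4 : rA s * rB s ≤ κ * κ := mul_le_mul h1 h2 (rB_pos s).le (by linarith only [h1, hAs])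
    nlinarith only [h1', h4, hlt, h1, hAs]
  set p := rB (s * g) / rB g with hp
  set q := rA (s * g) / rA g with hq
  have hp0 : 0 < p := by positivity
  have hq0 : 0 < q := by positivity
  have main := left_matN (G := rm g) (Gi := rm g⁻¹) (S := rm s) (Si := rm s⁻¹) (Bm := rm b)
    (rm_mul_inv g) (rm_det g) (rm_mul_inv s) (rm_det s) (k := κ) (θ := θ) (e := e)
    (a := Real.exp (-t / 2)) hk h1 h2 he
    (by
      have : 6 * hs (rm g) / hs (rm g⁻¹) ^ 2 = 6 / G23 g := by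
        unfold G23 rA rB
        have h1 : hs (rm g) ≠ 0 := hA.ne'
        have h2 : hs (rm g⁻¹) ≠ 0 := hB.ne'
        field_simp
      rw [this]; exact h23)
    (Real.exp_pos _) ht hθ (p := p) (q := q)
    (by rw [hp]; unfold rB; rw [_root_.mul_inv_rev, rm_mul]) (by rw [hq]; unfold rA; rw [rm_mul])
  have ea : Real.exp (-t / 2) ^ 2 = Real.exp (-t) := by
    rw [← Real.exp_nat_mul]; congr 1; push_cast; ring
  rw [ea] at main
  have hff : hs (rm g⁻¹ * rm b) / hs (rm g⁻¹) +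
      Real.exp (-t) * (hs (rm b) - hs ((rm g)ᵀ * rm b) / hs (rm g)) = fN t g b := by
    unfold fN rA rB; rw [rm_mul]
  rw [hff] at main
  refine le_trans (le_of_eq ?_) main
  congr 1
  have x1 : Real.exp (-(t + Real.log (p ^ 2 / q))) = Real.exp (-t) * (q / p ^ 2) :=
    exp_x1 hp0 hq0
  have x3 : (s * g)⁻¹ * (s * b) = g⁻¹ * b := by group
  have x4 : hs ((rm (s * g))ᵀ * rm (s * b)) = hs ((rm g)ᵀ * ((rm s)ᵀ * rm s) * rm b) := by
    rw [rm_mul, rm_mul, transpose_mul]; simp only [Matrix.mul_assoc]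
  rw [← hff]
  unfold fN
  rw [x1, x3, x4]
  have y1 : rA (g⁻¹ * b) = hs (rm g⁻¹ * rm b) := by unfold rA; rw [rm_mul]
  have y2 : rA (s * b) = hs (rm s * rm b) := by unfold rA; rw [rm_mul]
  rw [y1, y2]
  have z1 : rB (s * g) = p * hs (rm g⁻¹) := (div_mul_cancel₀ _ hB.ne').symm
  have z2 : rA (s * g) = q * hs (rm g) := (div_mul_cancel₀ _ hA.ne').symm
  rw [z1, z2]
  have w1 : hs (rm g) ≠ 0 := hA.ne'
  have w2 : hs (rm g⁻¹) ≠ 0 := hB.ne'
  exact alg_finalN w1 w2 hp0.ne' hq0.ne'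

end Vale.Agent.P092.H175
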