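import Vale.Agent.P092.H175.Commut

/-!
P092 (helper175), team A: [NOINV].  An equivariant `L²` field over a non compact group which
intertwines `V(Λ)` vanishes.
-/

set_option linter.all false

open scoped InnerProductSpace Topology ENNReal Pointwise
open Filter ContinuousLinearMap MeasureTheory
open Vale.Agent.P092.H160 Vale.Agent.P092.H156.Sm

namespace Vale.Agent.P092.H175

section disj

variable {Γ G : Type} [Group Γ] [Group G] [TopologicalSpace G] [IsTopologicalGroup G] [T2Space G]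
  [NoncompactSpace G]

theorem exists_disjoint {ι : Γ →* G} (hd : DenseRange ι) {C : Set G} (hC : IsCompact C)
    (hne : C.Nonempty) (n : ℕ) :
    ∃ s : Finset Γ, s.card = n ∧ (s : Set Γ).PairwiseDisjoint fun γ => ι γ • C := by
  classical
  induction n with
  | zero => exact ⟨∅, rfl, by simp⟩
  | succ n ih =>
    obtain ⟨s, hs, hdis⟩ := ih
    have hK : IsCompact (⋃ γ ∈ s, ι γ • (C * C⁻¹)) :=
      s.isCompact_biUnion fun γ _ => (hC.mul hC.inv).smul _
    have hne' : (⋃ γ ∈ s, ι γ • (C * C⁻¹))ᶜ.Nonempty := by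
      rw [Set.nonempty_compl]
      intro h
      rw [h] at hK
      exact noncompact_univ G hK
    obtain ⟨γ', hγ'⟩ := hd.exists_mem_open hK.isClosed.isOpen_compl hne'
    have hns : γ' ∉ s := by
      intro h
      refine hγ' ?_
      refine Set.mem_biUnion h ?_
      obtain ⟨c, hc⟩ := hne
      refine ⟨1, ⟨c, hc, c⁻¹, Set.inv_mem_inv.2 hc, mul_inv_cancel c⟩, ?_⟩
      simp
    refine ⟨insert γ' s, by rw [Finset.card_insert_of_notMem hns, hs], ?_⟩
    rw [Finset.coe_insert]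
    refine (Set.pairwiseDisjoint_insert_of_notMem (by exact_mod_cast hns)).2 ⟨hdis, ?_⟩
    intro γ hγ
    rw [Set.disjoint_left]
    rintro x ⟨c, hc, rfl⟩ ⟨c', hc', h⟩
    refine hγ' ?_
    refine Set.mem_biUnion hγ ?_
    refine ⟨c' * c⁻¹, ⟨c', hc', c⁻¹, Set.inv_mem_inv.2 hc, rfl⟩, ?_⟩
    change ι γ * (c' * c⁻¹) = ι γ'
    have h' : ι γ * c' = ι γ' * c := h
    rw [← mul_assoc, h', mul_assoc, mul_inv_cancel, mul_one]

variable [SigmaCompactSpace G] [MeasurableSpace G] [BorelSpace G] {μ : Measure G}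
  [μ.IsMulLeftInvariant]

/-- A finite function invariant under a dense set of translations of a non compact group
vanishes. -/
theorem ae_zero_of_invariant {ι : Γ →* G} (hd : DenseRange ι) {F : G → ℝ≥0∞}
    (hF : ∫⁻ x, F x ∂μ ≠ ⊤) (hinv : ∀ γ, ∀ᵐ x ∂μ, F (ι γ * x) = F x) (hm : AEMeasurable F μ) :
    ∀ᵐ x ∂μ, F x = 0 := by
  have h1 : ∀ C : Set G, IsCompact C → ∫⁻ x in C, F x ∂μ = 0 := by
    intro C hC
    rcases C.eq_empty_or_nonempty with rfl | hne
    · simp
    have h2 : ∀ γ, ∫⁻ x in ι γ • C, F x ∂μ = ∫⁻ x in C, F x ∂μ := by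
      intro γ
      have hmp : MeasurePreserving (fun x => ι γ * x) μ μ := measurePreserving_mul_left μ _
      have h3 : (fun x => ι γ * x) ⁻¹' (ι γ • C) = C := by
        ext x
        constructor
        · rintro ⟨c, hc, h⟩
          have h' : ι γ * c = ι γ * x := h
          rw [← mul_left_cancel h']
          exact hc
        · intro hx
          exact ⟨x, hx, rfl⟩
      have h4 := hmp.setLIntegral_comp_preimage_emb (MeasurableEquiv.mulLeft (ι γ)).measurableEmbedding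
        F (ι γ • C)
      rw [h3] at h4
      rw [← h4]
      refine setLIntegral_congr_fun_ae hC.measurableSet ?_
      filter_upwards [hinv γ] with x hx _
      exact hx
    by_contra hne0
    have h5 : ∀ n : ℕ, (n : ℝ≥0∞) * ∫⁻ x in C, F x ∂μ ≤ ∫⁻ x, F x ∂μ := by
      intro n
      obtain ⟨s, hs, hdis⟩ := exists_disjoint hd hC hne n
      calc (n : ℝ≥0∞) * ∫⁻ x in C, F x ∂μ = ∑ γ ∈ s, ∫⁻ x in ι γ • C, F x ∂μ := by
            rw [Finset.sum_congr rfl fun γ _ => h2 γ, Finset.sum_const, hs, nsmul_eq_mul]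
        _ = ∫⁻ x in ⋃ γ ∈ s, ι γ • C, F x ∂μ := by
            rw [lintegral_biUnion_finset hdis]
            exact fun γ _ => (hC.smul _).measurableSet
        _ ≤ _ := setLIntegral_le_lintegral _ _
    have h6 : ∫⁻ x, F x ∂μ = ⊤ := by
      refine ENNReal.eq_top_of_forall_nnreal_le fun r => ?_
      obtain ⟨n, hn⟩ := ENNReal.exists_nat_mul_gt hne0 (b := (r : ℝ≥0∞)) ENNReal.coe_ne_top
      exact hn.le.trans (h5 n)
    exact hF h6
  have h2 : ∀ n, ∀ᵐ x ∂μ, x ∈ compactCovering G n → F x = 0 := by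
    intro n
    have hC := isCompact_compactCovering G n
    have h3 := h1 _ hC
    rw [lintegral_eq_zero_iff' hm.restrict] at h3
    rw [← ae_restrict_iff' hC.measurableSet]
    exact h3
  filter_upwards [ae_all_iff.2 h2] with x hx
  have : x ∈ ⋃ n, compactCovering G n := by rw [iUnion_compactCovering]; trivial
  obtain ⟨n, hn⟩ := Set.mem_iUnion.1 this
  exact hx n hn

end disj

section main

variable {Γ Λ G K : Type} [Group Γ] [Group Λ]
  [NormedAddCommGroup K] [InnerProductSpace ℂ K] [CompleteSpace K]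
  {ρ : Γ →* (K →L[ℂ] K)} {V : Λ →* (K →L[ℂ] K)} {ω : K}
  [MeasurableSpace G] {μ : Measure G}

theorem norm_setIntegral_le {B : Set G} (hB : MeasurableSet B) (hμ : μ B ≠ ⊤) (f : Lp K 2 μ) :
    ‖∫ x in B, f x ∂μ‖ ≤ μ.real B ^ (1 / (2 : ℝ≥0∞).toReal) * ‖f‖ := by
  set I := ∫ x in B, f x ∂μ with hI
  have h1 := L2.inner_indicatorConstLp_eq_inner_setIntegral ℂ hB hμ I f
  have h2 : ‖I‖ ^ 2 ≤ ‖I‖ * (μ.real B ^ (1 / (2 : ℝ≥0∞).toReal) * ‖f‖) := by
    have h3 : ‖I‖ ^ 2 = ‖(⟪I, I⟫_ℂ : ℂ)‖ := by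
      rw [inner_self_eq_norm_sq_to_K]
      simp
    rw [h3, ← h1]
    refine (norm_inner_le_norm _ _).trans ?_
    rw [← mul_assoc]
    exact mul_le_mul_of_nonneg_right norm_indicatorConstLp_le (norm_nonneg _)
  rcases eq_or_lt_of_le (norm_nonneg I) with h3 | h3
  · rw [← h3]; positivity
  · rw [sq] at h2
    exact le_of_mul_le_mul_left h2 h3

theorem integrableOn_of (f : Lp K 2 μ) {B : Set G} (hμ : μ B ≠ ⊤) : IntegrableOn (⇑f) B μ :=
  integrableOn_Lp_of_measure_ne_top f fact_one_le_two_ennreal.elim hμ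

/-- integration over a set of finite measure -/
noncomputable def tb (W : K →L[ℂ] Lp K 2 μ) {B : Set G} (hB : MeasurableSet B) (hμ : μ B ≠ ⊤) :
    K →L[ℂ] K :=
  LinearMap.mkContinuous
    { toFun := fun ζ => ∫ x in B, W ζ x ∂μ
      map_add' := fun ζ ζ' => by
        rw [map_add, ← integral_add (integrableOn_of _ hμ) (integrableOn_of _ hμ)]
        exact integral_congr_ae (ae_restrict_of_ae (Lp.coeFn_add _ _))
      map_smul' := fun c ζ => by
        rw [map_smul, RingHom.id_apply, ← integral_smul]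
        exact integral_congr_ae (ae_restrict_of_ae (Lp.coeFn_smul _ _)) }
    (μ.real B ^ (1 / (2 : ℝ≥0∞).toReal) * ‖W‖) (fun ζ => by
      refine (norm_setIntegral_le hB hμ _).trans ?_
      rw [mul_assoc]
      exact mul_le_mul_of_nonneg_left (W.le_opNorm ζ) (by positivity))

theorem tb_apply (W : K →L[ℂ] Lp K 2 μ) {B : Set G} (hB : MeasurableSet B) (hμ : μ B ≠ ⊤) (ζ : K) :
    tb W hB hμ ζ = ∫ x in B, W ζ x ∂μ := rfl

/-- A map `K → L²(G; K)` which intertwines `V` intertwines the commutant of `ρ`. -/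
theorem intertwine (h : TFrm ρ V ω) (W : K →L[ℂ] Lp K 2 μ)
    (h1 : ∀ v ζ, W (V v ζ) =ᵐ[μ] fun x => V v (W ζ x)) {m : K →L[ℂ] K} (hm : Cmm ρ m) (ζ : K) :
    W (m ζ) =ᵐ[μ] fun x => m (W ζ x) := by
  have h2 : ⇑(W (m ζ) - m.compLp (W ζ)) =ᵐ[μ] 0 := by
    refine Lp.ae_eq_zero_of_forall_setIntegral_eq_zero _ two_ne_zero ENNReal.ofNat_ne_top
      (fun s hs hμs => integrableOn_of _ hμs.ne) fun B hB hμB => ?_
    have h3 : Cmm V (tb W hB hμB.ne) := by
      intro v
      refine ContinuousLinearMap.ext fun ξ => ?_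
      rw [mul_ap, mul_ap, tb_apply, tb_apply]
      rw [integral_congr_ae (ae_restrict_of_ae (h1 v ξ))]
      exact (V v).integral_comp_comm (integrableOn_of _ hμB.ne)
    have h4 := congrArg (fun T : K →L[ℂ] K => T ζ) (cmm_commute h h3 hm)
    simp only [mul_ap, tb_apply] at h4
    rw [integral_congr_ae (ae_restrict_of_ae (Lp.coeFn_sub _ _))]
    simp only [Pi.sub_apply]
    rw [integral_sub (integrableOn_of _ hμB.ne) (integrableOn_of _ hμB.ne), h4,
      integral_congr_ae (ae_restrict_of_ae (m.coeFn_compLp (W ζ))),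
      m.integral_comp_comm (integrableOn_of _ hμB.ne), sub_self]
  filter_upwards [h2, m.coeFn_compLp (W ζ), Lp.coeFn_sub (W (m ζ)) (m.compLp (W ζ))] with x hx h3 h4
  rw [h4] at hx
  rw [← h3]
  exact sub_eq_zero.1 hx

variable [Group G] [TopologicalSpace G] [IsTopologicalGroup G] [T2Space G]
  [NoncompactSpace G] [SigmaCompactSpace G] [BorelSpace G] [μ.IsMulLeftInvariant]

/-- [NOINV] -/
theorem noinv (h : TFrm ρ V ω) {ι : Γ →* G} (hd : DenseRange ι) (W : K →L[ℂ] Lp K 2 μ)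
    (h1 : ∀ v ζ, W (V v ζ) =ᵐ[μ] fun x => V v (W ζ x))
    (h2 : ∀ g, W (ρ g⁻¹ ω) =ᵐ[μ] fun x => ρ g⁻¹ (W ω (ι g * x))) : W = 0 := by
  have h3 : ∀ g, ∀ᵐ x ∂μ, ‖W ω (ι g * x)‖ₑ ^ 2 = ‖W ω x‖ₑ ^ 2 := by
    intro g
    obtain ⟨u, hu, huω, hun⟩ := exists_left h.reg g
    have h4 := intertwine h W h1 hu ω
    rw [huω] at h4
    filter_upwards [h4, h2 g] with x hx hx'
    rw [hx'] at hx
    have h5 : ‖W ω (ι g * x)‖ = ‖W ω x‖ := by
      rw [← h.reg.norm_map g⁻¹, hx, hun]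
    rw [← ofReal_norm, h5, ofReal_norm]
  have h4 : ∫⁻ x, ‖W ω x‖ₑ ^ 2 ∂μ ≠ ⊤ := by
    have h5 := (Lp.memLp (W ω)).eLpNorm_lt_top
    rw [eLpNorm_lt_top_iff_lintegral_rpow_enorm_lt_top two_ne_zero ENNReal.ofNat_ne_top] at h5
    refine ne_of_lt ?_
    simpa using h5
  have h5 := ae_zero_of_invariant hd h4 h3 ((Lp.aestronglyMeasurable (W ω)).enorm.pow_const 2)
  have h6 : W ω = 0 := by
    refine Lp.ext ?_
    filter_upwards [h5, Lp.coeFn_zero K 2 μ] with x hx hx'
    rw [hx']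
    simpa using hx
  have hV := regV h
  refine ContinuousLinearMap.ext fun ζ => ?_
  have h7 : ∀ v, W (V v ω) = 0 := by
    intro v
    refine Lp.ext ?_
    filter_upwards [h1 v ω, Lp.coeFn_zero K 2 μ] with x hx hx'
    rw [hx, h6, hx']
    exact map_zero _
  have h8 : HasSum (fun v => ⟪V v ω, ζ⟫_ℂ • V v ω) ζ := by
    have h9 := hV.basis.hasSum_repr ζ
    simpa only [hV.basis_apply, HilbertBasis.repr_apply_apply] using h9
  have h9 := W.hasSum h8
  have h10 : (fun v => W (⟪V v ω, ζ⟫_ℂ • V v ω)) = fun _ => 0 := by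
    funext v
    rw [map_smul, h7, smul_zero]
  rw [h10] at h9
  exact h9.unique hasSum_zero

end main

end Vale.Agent.P092.H175
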