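import Vale.Agent.P092.H820.Cpv

/-!
P092 (helper175): opposite pairs commute and all points commute, ultrametric case (steps (5), (6) of
the proof of helper179, with the simplification of helper613), as finite sums.  Input: the vanishing
`β_c(U) β_b(X) λ_m(A) = 0` for disjoint `U`, `X` and non incident `U`, `A`.
-/

set_option linter.all false

namespace Vale.Agent.P092.H175.Opp

open TopologicalSpace Vale.Agent.P092.H820

variable {X : Type*} [TopologicalSpace X] [CompactSpace X] [T2Space X]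
  [TotallyDisconnectedSpace X] {Y : Type*} [TopologicalSpace Y] [CompactSpace Y] [T2Space Y]
  [TotallyDisconnectedSpace Y] {𝔸 : Type*} [Ring 𝔸] [StarRing 𝔸]

/-- Induction on clopen sets by compactness. -/
theorem clopen_ind {A : Clopens Y} (p : Clopens Y → Prop) (h0 : p ⊥)
    (hmono : ∀ U V, U ≤ V → p V → p U) (hsup : ∀ U V, p U → p V → p (U ⊔ V))
    (hloc : ∀ y ∈ A, ∃ U : Clopens Y, y ∈ U ∧ p U) : p A := by
  have hAc : IsCompact (A : Set Y) := A.isClopen.isClosed.isCompact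
  have key : ∃ V : Clopens Y, (A : Set Y) ⊆ V ∧ p V := by
    refine hAc.induction_on (p := fun S => ∃ V : Clopens Y, S ⊆ V ∧ p V) ?_ ?_ ?_ ?_
    · exact ⟨⊥, Set.empty_subset _, h0⟩
    · rintro S T hST ⟨V, h2, h3⟩
      exact ⟨V, hST.trans h2, h3⟩
    · rintro S T ⟨V, h2, h3⟩ ⟨Z, g2, g3⟩
      exact ⟨V ⊔ Z, Set.union_subset_union h2 g2, hsup V Z h3 g3⟩
    · intro a ha
      obtain ⟨U, hU, h⟩ := hloc a ha
      exact ⟨U, mem_nhdsWithin_of_mem_nhds (U.isClopen.isOpen.mem_nhds hU), U, subset_rfl, h⟩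
  obtain ⟨V, h1, h2⟩ := key
  exact hmono A V h1 h2

/-- no point of `U` is incident with a line of `A` -/
def NonInc (I : Set (X × Y)) (U : Clopens X) (A : Clopens Y) : Prop :=
  ∀ a ∈ U, ∀ b ∈ A, (a, b) ∉ I

theorem NonInc.mono {I : Set (X × Y)} {U U' : Clopens X} {A A' : Clopens Y} (h : NonInc I U A)
    (hU : U' ≤ U) (hA : A' ≤ A) : NonInc I U' A' := fun a ha b hb => h a (hU ha) b (hA hb)

theorem exists_nonInc {I : Set (X × Y)} (hI : IsClosed I) {x : X} {y : Y} (h : (x, y) ∉ I) :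
    ∃ (U : Clopens X) (N : Clopens Y), x ∈ U ∧ y ∈ N ∧ NonInc I U N := by
  have hn : Iᶜ ∈ nhds (x, y) := hI.isOpen_compl.mem_nhds h
  rw [nhds_prod_eq, Filter.mem_prod_iff] at hn
  obtain ⟨S, hS, T, hT, hST⟩ := hn
  obtain ⟨U, hU, hUS⟩ := exists_clopen hS
  obtain ⟨V, hV, hVT⟩ := exists_clopen hT
  exact ⟨U, V, hU, hV, fun a ha b hb hab => hST ⟨hUS ha, hVT hb⟩ hab⟩

/-- If no point of `W` lies on both lines `y₁`, `y₂` then `W` splits. -/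
theorem split {I : Set (X × Y)} (hI : IsClosed I) {y₁ y₂ : Y} {W : Clopens X}
    (hW : ∀ x ∈ W, (x, y₁) ∈ I → (x, y₂) ∈ I → False) :
    ∃ N₁ N₂ : Clopens Y, y₁ ∈ N₁ ∧ y₂ ∈ N₂ ∧ ∃ U₁ U₂ : Clopens X, W ≤ U₁ ⊔ U₂ ∧
      NonInc I U₁ N₁ ∧ NonInc I U₂ N₂ := by
  refine clopen_ind (A := W) (fun V => ∃ N₁ N₂ : Clopens Y, y₁ ∈ N₁ ∧ y₂ ∈ N₂ ∧
    ∃ U₁ U₂ : Clopens X, V ≤ U₁ ⊔ U₂ ∧ NonInc I U₁ N₁ ∧ NonInc I U₂ N₂) ?_ ?_ ?_ ?_
  · exact ⟨⊤, ⊤, trivial, trivial, ⊥, ⊥, bot_le, fun a ha => absurd ha id, fun a ha => absurd ha id⟩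
  · rintro U V hUV ⟨N₁, N₂, h1, h2, U₁, U₂, h3, h4, h5⟩
    exact ⟨N₁, N₂, h1, h2, U₁, U₂, hUV.trans h3, h4, h5⟩
  · rintro U V ⟨N₁, N₂, h1, h2, U₁, U₂, h3, h4, h5⟩ ⟨M₁, M₂, g1, g2, V₁, V₂, g3, g4, g5⟩
    refine ⟨N₁ ⊓ M₁, N₂ ⊓ M₂, ⟨h1, g1⟩, ⟨h2, g2⟩, U₁ ⊔ V₁, U₂ ⊔ V₂, ?_, ?_, ?_⟩
    · refine sup_le (h3.trans ?_) (g3.trans ?_)
      · exact sup_le_sup le_sup_left le_sup_left
      · exact sup_le_sup le_sup_right le_sup_right
    · rintro a (ha | ha) b hb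
      · exact h4 a ha b hb.1
      · exact g4 a ha b hb.2
    · rintro a (ha | ha) b hb
      · exact h5 a ha b hb.1
      · exact g5 a ha b hb.2
  · intro x hx
    by_cases h1 : (x, y₁) ∈ I
    · obtain ⟨U, N, hU, hN, h2⟩ := exists_nonInc hI fun h => hW x hx h1 h
      exact ⟨U, hU, ⊤, N, trivial, hN, ⊥, U, le_sup_right, fun a ha => absurd ha id, h2⟩
    · obtain ⟨U, N, hU, hN, h2⟩ := exists_nonInc hI h1
      exact ⟨U, hU, N, ⊤, hN, trivial, U, ⊥, le_sup_left, h2, fun a ha => absurd ha id⟩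

/-- `β (U ⊔ V) D = 0` if both vanish. -/
theorem sup_mul_zero {β : Clopens X → 𝔸} (h : Cpv β) {U V W : Clopens X} {D : 𝔸}
    (hW : W ≤ U ⊔ V) (hU : β U * D = 0) (hV : β V * D = 0) : β W * D = 0 := by
  have h1 : β (U ⊔ V) * D = 0 := by
    rw [h.sup, sub_mul, add_mul, hU, hV, mul_assoc, hV, mul_zero, add_zero, sub_zero]
  rw [← h.le_left hW, mul_assoc, h1, mul_zero]

/-- A two sided compactness argument. -/
theorem two_ind {lam₁ lam₂ : Clopens Y → 𝔸} (h₁ : Cpv lam₁) (h₂ : Cpv lam₂) {A₁ A₂ : Clopens Y}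
    (Φ : 𝔸 → 𝔸 → 𝔸) (T : 𝔸)
    (hΦ0 : ∀ x, Φ 0 x = 0) (hΦ0' : ∀ x, Φ x 0 = 0)
    (hadd : ∀ x y z, Φ (x + y) z = Φ x z + Φ y z) (hadd' : ∀ x y z, Φ x (y + z) = Φ x y + Φ x z)
    (hsub : ∀ x y z, Φ (x - y) z = Φ x z - Φ y z) (hsub' : ∀ x y z, Φ x (y - z) = Φ x y - Φ x z)
    (hmono : ∀ U V U' V', U ≤ V → U' ≤ V' → Φ (lam₁ V) (lam₂ V') = 0 → Φ (lam₁ U) (lam₂ U') = 0)
    (hloc : ∀ y₁ ∈ A₁, ∀ y₂ ∈ A₂, ∃ N₁ N₂ : Clopens Y, y₁ ∈ N₁ ∧ y₂ ∈ N₂ ∧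
      Φ (lam₁ N₁) (lam₂ N₂) = 0) : Φ (lam₁ A₁) (lam₂ A₂) = 0 := by
  -- fix `y₁`
  have step : ∀ y₁ ∈ A₁, ∃ N₁ : Clopens Y, y₁ ∈ N₁ ∧ Φ (lam₁ N₁) (lam₂ A₂) = 0 := by
    intro y₁ hy₁
    refine clopen_ind (A := A₂) (fun V => ∃ N₁ : Clopens Y, y₁ ∈ N₁ ∧ Φ (lam₁ N₁) (lam₂ V) = 0)
      ?_ ?_ ?_ ?_
    · exact ⟨⊤, trivial, by rw [h₂.bot, hΦ0']⟩
    · rintro U V hUV ⟨N, hN, h⟩
      exact ⟨N, hN, hmono _ _ _ _ le_rfl hUV h⟩
    · rintro U V ⟨N, hN, h⟩ ⟨M, hM, g⟩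
      refine ⟨N ⊓ M, ⟨hN, hM⟩, ?_⟩
      rw [h₂.sup, hsub', hadd', hmono _ _ _ _ inf_le_left le_rfl h,
        hmono _ _ _ _ inf_le_right le_rfl g, ← h₂.inf,
        hmono _ _ _ _ inf_le_left inf_le_left h, add_zero, sub_zero]
    · intro y₂ hy₂
      obtain ⟨N₁, N₂, h1, h2, h3⟩ := hloc y₁ hy₁ y₂ hy₂
      exact ⟨N₂, h2, N₁, h1, h3⟩
  refine clopen_ind (A := A₁) (fun V => Φ (lam₁ V) (lam₂ A₂) = 0) ?_ ?_ ?_ ?_
  · rw [h₁.bot, hΦ0]
  · intro U V hUV h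
    exact hmono _ _ _ _ hUV le_rfl h
  · intro U V h g
    rw [h₁.sup, hsub, hadd, h, g, ← h₁.inf, hmono _ _ _ _ inf_le_left le_rfl h, add_zero, sub_zero]
  · intro y hy
    obtain ⟨N, hN, h⟩ := step y hy
    exact ⟨N, hN, h⟩

section Five

variable {I : Set (X × Y)} (hI : IsClosed I)
  (huniq : ∀ c c' a a', c ≠ c' → (a, c) ∈ I → (a, c') ∈ I → (a', c) ∈ I → (a', c') ∈ I → a = a')
include hI huniq

/-- `β(F) T = β'(F) T` on the off-diagonal blocks. -/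
theorem agree {β β' : Clopens X → 𝔸} (hβ : Cpv β) (hβ' : Cpv β') {lam : Clopens Y → 𝔸}
    (hlam : Cpv lam) (hc : ∀ U A, β U * lam A = lam A * β U)
    (hc' : ∀ U A, β' U * lam A = lam A * β' U)
    (hi : ∀ U A, NonInc I U A → β U * lam A = 0) (hi' : ∀ U A, NonInc I U A → β' U * lam A = 0)
    {T : 𝔸} (hT : ∀ U A, NonInc I U A → β U * T * lam A = 0)
    (hT' : ∀ U A, NonInc I U A → β' U * T * lam A = 0) {A' A'' : Clopens Y} (hd : Disjoint A' A'')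
    (F : Clopens X) : β F * (lam A' * T * lam A'') = β' F * (lam A' * T * lam A'') := by
  rw [← sub_eq_zero, ← sub_mul]
  -- local vanishing
  have hvan : ∀ (γ : Clopens X → 𝔸), Cpv γ → (∀ U A, γ U * lam A = lam A * γ U) →
      (∀ U A, NonInc I U A → γ U * lam A = 0) → (∀ U A, NonInc I U A → γ U * T * lam A = 0) →
      ∀ N₁ N₂ : Clopens Y, ∀ U₁ U₂ W : Clopens X, W ≤ U₁ ⊔ U₂ → NonInc I U₁ N₁ → NonInc I U₂ N₂ →
      γ W * (lam N₁ * T * lam N₂) = 0 := by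
    intro γ hγ hγc hγi hγT N₁ N₂ U₁ U₂ W hW h1 h2
    refine sup_mul_zero hγ hW ?_ ?_
    · rw [← mul_assoc, ← mul_assoc, hγi _ _ h1, zero_mul, zero_mul]
    · rw [← mul_assoc, ← mul_assoc, hγc, mul_assoc, mul_assoc, ← mul_assoc (γ U₂), hγT _ _ h2,
        mul_zero]
  refine two_ind hlam hlam (A₁ := A') (A₂ := A'') (fun x z => (β F - β' F) * (x * T * z)) T
    ?_ ?_ ?_ ?_ ?_ ?_ ?_ ?_
  · intro x; simp
  · intro x; simp
  · intro x y z; noncomm_ring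
  · intro x y z; noncomm_ring
  · intro x y z; noncomm_ring
  · intro x y z; noncomm_ring
  · intro U V U' V' hUV hUV' h
    have h1 : lam U * T * lam U' = lam U * (lam V * T * lam V') * lam U' := by
      calc lam U * T * lam U' = (lam U * lam V) * T * (lam V' * lam U') := by
            rw [hlam.le_left hUV, hlam.le_right hUV']
        _ = _ := by noncomm_ring
    have h2 : (β F - β' F) * lam U = lam U * (β F - β' F) := by
      rw [sub_mul, mul_sub, hc, hc']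
    show (β F - β' F) * (lam U * T * lam U') = 0
    rw [h1, ← mul_assoc, ← mul_assoc, h2, mul_assoc (lam U), h, mul_zero, zero_mul]
  · intro y₁ hy₁ y₂ hy₂
    have hne : y₁ ≠ y₂ := by
      rintro rfl
      exact (hd.le_bot (show y₁ ∈ A' ⊓ A'' from ⟨hy₁, hy₂⟩) : y₁ ∈ (⊥ : Clopens Y))
    by_cases ho : ∃ x ∈ F, (x, y₁) ∈ I ∧ (x, y₂) ∈ I
    · -- the common point is in `F`
      obtain ⟨x, hxF, hx1, hx2⟩ := ho
      have hW : ∀ x' ∈ Fᶜ, (x', y₁) ∈ I → (x', y₂) ∈ I → False := by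
        intro x' hx' g1 g2
        exact hx' (huniq y₁ y₂ x x' hne hx1 hx2 g1 g2 ▸ hxF)
      obtain ⟨N₁, N₂, h1, h2, U₁, U₂, h3, h4, h5⟩ := split hI hW
      refine ⟨N₁, N₂, h1, h2, ?_⟩
      have e1 := hvan β hβ hc hi hT N₁ N₂ U₁ U₂ Fᶜ h3 h4 h5
      have e2 := hvan β' hβ' hc' hi' hT' N₁ N₂ U₁ U₂ Fᶜ h3 h4 h5
      rw [hβ.compl, sub_mul, one_mul, sub_eq_zero] at e1
      rw [hβ'.compl, sub_mul, one_mul, sub_eq_zero] at e2
      show (β F - β' F) * (lam N₁ * T * lam N₂) = 0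
      rw [sub_mul, ← e1, ← e2, sub_self]
    · have hW : ∀ x' ∈ F, (x', y₁) ∈ I → (x', y₂) ∈ I → False :=
        fun x' hx' g1 g2 => ho ⟨x', hx', g1, g2⟩
      obtain ⟨N₁, N₂, h1, h2, U₁, U₂, h3, h4, h5⟩ := split hI hW
      refine ⟨N₁, N₂, h1, h2, ?_⟩
      have e1 := hvan β hβ hc hi hT N₁ N₂ U₁ U₂ F h3 h4 h5
      have e2 := hvan β' hβ' hc' hi' hT' N₁ N₂ U₁ U₂ F h3 h4 h5
      show (β F - β' F) * (lam N₁ * T * lam N₂) = 0
      rw [sub_mul, e1, e2, sub_self]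

omit hI huniq in
/-- KEY*: the middle set is arbitrary. -/
theorem key_star {β γ : Clopens X → 𝔸} (hβ : Cpv β) (hγ : Cpv γ) {lam : Clopens Y → 𝔸}
    (hi : ∀ U A, NonInc I U A → β U * lam A = 0)
    (h4 : ∀ U V A, Disjoint U V → NonInc I U A → β U * γ V * lam A = 0) (U V : Clopens X)
    (A : Clopens Y) (hUA : NonInc I U A) : β U * γ V * lam A = 0 := by
  have e1 : β (U ⊓ V) * γ V * lam A = 0 := by
    have h1 : NonInc I (U ⊓ V) A := hUA.mono inf_le_left le_rfl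
    have h2 := h4 (U ⊓ V) Vᶜ A (disjoint_compl_right.mono_left inf_le_right) h1
    rw [hγ.compl, mul_sub, mul_one, sub_mul, hi _ _ h1, zero_sub, neg_eq_zero] at h2
    exact h2
  have e2 : β (U ⊓ Vᶜ) * γ V * lam A = 0 :=
    h4 (U ⊓ Vᶜ) V A (disjoint_compl_left.mono_left inf_le_right) (hUA.mono inf_le_left le_rfl)
  have hU : U ≤ (U ⊓ V) ⊔ (U ⊓ Vᶜ) := by
    rw [← inf_sup_left, sup_compl_eq_top, inf_top_eq]
  rw [mul_assoc] at e1 e2 ⊢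
  exact sup_mul_zero hβ hU e1 e2

/-- **Opposite pairs commute** (ultrametric).  `β₁`, `β₂` are the calculi of two points of the line
`m`, `lam` the one of `m`, `γ` the one of a point `b` off `m`. -/
theorem opp_comm {β₁ β₂ γ : Clopens X → 𝔸} (h1 : Cpv β₁) (h2 : Cpv β₂) (hγ : Cpv γ)
    {lam : Clopens Y → 𝔸} (hlam : Cpv lam) (hc1 : ∀ U A, β₁ U * lam A = lam A * β₁ U)
    (hc2 : ∀ U A, β₂ U * lam A = lam A * β₂ U)
    (hi1 : ∀ U A, NonInc I U A → β₁ U * lam A = 0) (hi2 : ∀ U A, NonInc I U A → β₂ U * lam A = 0)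
    (h41 : ∀ U V A, Disjoint U V → NonInc I U A → β₁ U * γ V * lam A = 0)
    (h42 : ∀ U V A, Disjoint U V → NonInc I U A → β₂ U * γ V * lam A = 0)
    (hna : ∀ D : 𝔸, (∀ F, β₁ F * D = β₂ F * D) → D = 0) (V : Clopens X) (A : Clopens Y) :
    γ V * lam A = lam A * γ V := by
  have key : ∀ A' A'' : Clopens Y, Disjoint A' A'' → lam A' * γ V * lam A'' = 0 := by
    intro A' A'' hd
    refine hna _ fun F => ?_
    exact agree hI huniq h1 h2 hlam hc1 hc2 hi1 hi2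
      (fun U A hUA => key_star h1 hγ hi1 h41 U V A hUA)
      (fun U A hUA => key_star h2 hγ hi2 h42 U V A hUA) hd F
  have e1 := key A Aᶜ disjoint_compl_right
  have e2 := key Aᶜ A disjoint_compl_left
  rw [hlam.compl, mul_sub, mul_one, sub_eq_zero] at e1
  rw [hlam.compl, sub_mul, sub_mul, one_mul, sub_eq_zero] at e2
  rw [e1, e2]

/-- **All points commute** (ultrametric).  `β` is the calculus of the point `a`, `lam₁`, `lam₂` those
of two lines through `a`, `P` commutes with both. -/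
theorem all_comm {β : Clopens X → 𝔸} (hβ : Cpv β) {lam₁ lam₂ : Clopens Y → 𝔸}
    (h1 : Cpv lam₁) (h2 : Cpv lam₂) (hc1 : ∀ U A, β U * lam₁ A = lam₁ A * β U)
    (hi1 : ∀ U A, NonInc I U A → β U * lam₁ A = 0)
    (hi2 : ∀ U A, NonInc I U A → β U * lam₂ A = 0)
    (hna : ∀ D : 𝔸, (∀ A, lam₁ A * D = lam₂ A * D) → D = 0) {P : 𝔸}
    (hP1 : ∀ A, P * lam₁ A = lam₁ A * P) (hP2 : ∀ A, P * lam₂ A = lam₂ A * P) (F : Clopens X) :
    β F * P = P * β F := by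
  set D := β F * P - P * β F with hD
  have key : ∀ A₁ A₂ : Clopens Y, Disjoint A₁ A₂ → D * (lam₁ A₁ * lam₂ A₂) = 0 := by
    intro A₁ A₂ hd
    -- local vanishing
    have hvan : ∀ N₁ N₂ : Clopens Y, ∀ U₁ U₂ W : Clopens X, W ≤ U₁ ⊔ U₂ → NonInc I U₁ N₁ →
        NonInc I U₂ N₂ → β W * (lam₁ N₁ * lam₂ N₂) = 0 := by
      intro N₁ N₂ U₁ U₂ W hW g1 g2
      refine sup_mul_zero hβ hW ?_ ?_
      · rw [← mul_assoc, hi1 _ _ g1, zero_mul]
      · rw [← mul_assoc, hc1, mul_assoc, hi2 _ _ g2, mul_zero]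
    have hPN : ∀ N₁ N₂ : Clopens Y, P * (lam₁ N₁ * lam₂ N₂) = (lam₁ N₁ * lam₂ N₂) * P := by
      intro N₁ N₂
      rw [← mul_assoc, hP1, mul_assoc, hP2, mul_assoc]
    refine two_ind h1 h2 (A₁ := A₁) (A₂ := A₂) (fun x z => D * (x * z)) 0 ?_ ?_ ?_ ?_ ?_ ?_ ?_ ?_
    · intro x; simp
    · intro x; simp
    · intro x y z; noncomm_ring
    · intro x y z; noncomm_ring
    · intro x y z; noncomm_ring
    · intro x y z; noncomm_ring
    · intro U V U' V' hUV hUV' h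
      show D * (lam₁ U * lam₂ U') = 0
      have e1 : lam₁ U * lam₂ U' = lam₁ U * (lam₁ V * lam₂ V') * lam₂ U' := by
        calc lam₁ U * lam₂ U' = (lam₁ U * lam₁ V) * (lam₂ V' * lam₂ U') := by
              rw [h1.le_left hUV, h2.le_right hUV']
          _ = _ := by noncomm_ring
      have e2 : D * lam₁ U = lam₁ U * D := by
        rw [hD, sub_mul, mul_sub, mul_assoc, hP1, ← mul_assoc, hc1, mul_assoc, mul_assoc P, hc1,
          ← mul_assoc P, hP1, mul_assoc]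
      rw [e1, ← mul_assoc, ← mul_assoc, e2, mul_assoc (lam₁ U), h, mul_zero, zero_mul]
    · intro y₁ hy₁ y₂ hy₂
      have hne : y₁ ≠ y₂ := by
        rintro rfl
        exact (hd.le_bot (show y₁ ∈ A₁ ⊓ A₂ from ⟨hy₁, hy₂⟩) : y₁ ∈ (⊥ : Clopens Y))
      by_cases ho : ∃ x ∈ F, (x, y₁) ∈ I ∧ (x, y₂) ∈ I
      · obtain ⟨x, hxF, hx1, hx2⟩ := ho
        have hW : ∀ x' ∈ Fᶜ, (x', y₁) ∈ I → (x', y₂) ∈ I → False := by
          intro x' hx' g1 g2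
          exact hx' (huniq y₁ y₂ x x' hne hx1 hx2 g1 g2 ▸ hxF)
        obtain ⟨N₁, N₂, g1, g2, U₁, U₂, g3, g4, g5⟩ := split hI hW
        refine ⟨N₁, N₂, g1, g2, ?_⟩
        have e1 := hvan N₁ N₂ U₁ U₂ Fᶜ g3 g4 g5
        rw [hβ.compl, sub_mul, one_mul, sub_eq_zero] at e1
        show D * (lam₁ N₁ * lam₂ N₂) = 0
        rw [hD, sub_mul, mul_assoc, hPN, ← mul_assoc, ← e1, mul_assoc P, ← e1, hPN, sub_self]
      · have hW : ∀ x' ∈ F, (x', y₁) ∈ I → (x', y₂) ∈ I → False :=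
          fun x' hx' g1 g2 => ho ⟨x', hx', g1, g2⟩
        obtain ⟨N₁, N₂, g1, g2, U₁, U₂, g3, g4, g5⟩ := split hI hW
        refine ⟨N₁, N₂, g1, g2, ?_⟩
        have e1 := hvan N₁ N₂ U₁ U₂ F g3 g4 g5
        show D * (lam₁ N₁ * lam₂ N₂) = 0
        rw [hD, sub_mul, mul_assoc, hPN, ← mul_assoc, e1, zero_mul, mul_assoc P, e1, mul_zero,
          sub_self]
  have hDs : D = 0 := by
    rw [← star_eq_zero]
    refine hna _ fun A => ?_
    have e1 := key A Aᶜ disjoint_compl_right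
    have e2 := key Aᶜ A disjoint_compl_left
    rw [h2.compl, mul_sub, mul_one, mul_sub, sub_eq_zero] at e1
    rw [h1.compl, sub_mul (1 : 𝔸), one_mul, mul_sub, sub_eq_zero] at e2
    have e3 : D * lam₁ A = D * lam₂ A := by rw [e1, e2]
    have e4 := congrArg star e3
    rwa [star_mul, star_mul, h1.sa, h2.sa] at e4
  exact sub_eq_zero.1 hDs

end Five

end Vale.Agent.P092.H175.Opp
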