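import Vale.Agent.P092.H124.RDefs
import Vale.Agent.P092.H175.Gap

/-!
P092 (helper175): block [R1a] in the notation of `H124.RDefs`.
-/

namespace Vale.Agent.P092.H175

open Matrix

variable {n : ℕ}

lemma exists_sorted (M : Matrix (Fin n) (Fin n) ℝ) (hM : M.det ≠ 0) :
    ∃ x, H124.Sorted (M * Mᵀ) x := by
  obtain ⟨U, hU1, hU2, hU⟩ := frameX M
  refine ⟨fun j => xv M (min j (n - 1)), ?_, fun j => xv_pos hM _, U, hU1, hU2, ?_⟩
  · intro i j hij
    simp only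
    rcases Nat.eq_zero_or_pos n with h0 | hn
    · subst h0; simp
    · exact xv_anti M (min_le_min_right _ hij) (by omega)
  · rw [hU]; congr 1; funext i
    have hi : min (i : ℕ) (n - 1) = i := min_eq_left (by have := i.2; omega)
    simp only [hi]

lemma ev_sorted {A : Matrix (Fin n) (Fin n) ℝ} (h : ∃ x, H124.Sorted A x) :
    H124.Sorted A (H124.ev A) := by
  unfold H124.ev
  rw [dif_pos h]
  exact h.choose_spec

/-- Min-max comparison of sorted eigenvalues. -/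
theorem sorted_le {A B T : Matrix (Fin n) (Fin n) ℝ} {x y : ℕ → ℝ} (hA : H124.Sorted A x)
    (hB : H124.Sorted B y)
    {a c : ℝ} (ha : 0 ≤ a) (hT : ∀ v, (T *ᵥ v) ⬝ᵥ (T *ᵥ v) ≤ c * (v ⬝ᵥ v))
    (h : ∀ v, v ⬝ᵥ (A *ᵥ v) ≤ a * ((T *ᵥ v) ⬝ᵥ (B *ᵥ (T *ᵥ v)))) {j : ℕ} (hj : j < n) :
    x j ≤ a * c * y j := by
  obtain ⟨hxa, hx0, U, hU1, hU2, hU⟩ := hA
  obtain ⟨hya, hy0, W, hW1, hW2, hW⟩ := hB
  set jj : Fin n := ⟨j, hj⟩ with hjj
  set Q := Wᵀ * T * U with hQ
  let L : (Fin n → ℝ) →ₗ[ℝ] ({i : Fin n // i ≠ jj} → ℝ) :=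
    LinearMap.pi (fun i : {i : Fin n // i ≠ jj} =>
      if jj < i.1 then LinearMap.proj i.1 else (LinearMap.proj i.1) ∘ₗ (Matrix.mulVecLin Q))
  have hker : LinearMap.ker L ≠ ⊥ := by
    apply LinearMap.ker_ne_bot_of_finrank_lt
    rw [Module.finrank_fintype_fun_eq_card, Module.finrank_fintype_fun_eq_card,
      Fintype.card_fin, Fintype.card_subtype_compl, Fintype.card_fin, Fintype.card_subtype_eq]
    omega
  obtain ⟨z, hz, hz0⟩ := (Submodule.ne_bot_iff _).mp hker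
  have hLx : ∀ i : {i : Fin n // i ≠ jj}, L z i = 0 := fun i => by
    have := LinearMap.mem_ker.mp hz
    rw [this]; rfl
  have h1 : ∀ i : Fin n, jj < i → z i = 0 := by
    intro i hi
    have := hLx ⟨i, hi.ne'⟩
    simpa [L, hi] using this
  have h2 : ∀ i : Fin n, i < jj → (Q *ᵥ z) i = 0 := by
    intro i hi
    have := hLx ⟨i, hi.ne⟩
    simpa [L, not_lt.mpr hi.le] using this
  have hxx : 0 < z ⬝ᵥ z := by
    rw [dot_self]
    obtain ⟨i, hi⟩ := Function.ne_iff.mp hz0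
    refine Finset.sum_pos' (fun i _ => sq_nonneg _) ⟨i, Finset.mem_univ _, ?_⟩
    have : z i ≠ 0 := hi
    positivity
  set v := U *ᵥ z with hv
  set w := Q *ᵥ z with hw
  have hTv : T *ᵥ v = W *ᵥ w := by
    rw [hv, hw, hQ, mulVec_mulVec, mulVec_mulVec, ← Matrix.mul_assoc, ← Matrix.mul_assoc, hW2,
      Matrix.one_mul]
  have e1 : x j * (z ⬝ᵥ z) ≤ v ⬝ᵥ (A *ᵥ v) := by
    rw [hv, dot_conj, hU, dot_diag, dot_self, Finset.mul_sum]
    refine Finset.sum_le_sum fun i _ => ?_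
    rcases lt_or_ge jj i with hi | hi
    · rw [h1 i hi]; simp
    · exact mul_le_mul_of_nonneg_right (hxa (show (i : ℕ) ≤ j from hi)) (sq_nonneg _)
  have e2 : (T *ᵥ v) ⬝ᵥ (B *ᵥ (T *ᵥ v)) ≤ y j * ((T *ᵥ v) ⬝ᵥ (T *ᵥ v)) := by
    rw [hTv, dot_conj, hW, dot_diag, dot_orth hW1, dot_self, Finset.mul_sum]
    refine Finset.sum_le_sum fun i _ => ?_
    rcases lt_or_ge i jj with hi | hi
    · rw [h2 i hi]; simp
    · exact mul_le_mul_of_nonneg_right (hya (show j ≤ (i : ℕ) from hi)) (sq_nonneg _)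
  have e3 := h v
  have e4 := hT v
  have e5 : v ⬝ᵥ v = z ⬝ᵥ z := by rw [hv, dot_orth hU1]
  rw [e5] at e4
  have e6 : x j * (z ⬝ᵥ z) ≤ a * c * y j * (z ⬝ᵥ z) := by
    calc x j * (z ⬝ᵥ z) ≤ a * ((T *ᵥ v) ⬝ᵥ (B *ᵥ (T *ᵥ v))) := e1.trans e3
      _ ≤ a * (y j * (c * (z ⬝ᵥ z))) :=
        mul_le_mul_of_nonneg_left (e2.trans (mul_le_mul_of_nonneg_left e4 (hy0 j).le)) ha
      _ = _ := by ring
  exact le_of_mul_le_mul_right e6 hxx

lemma hsn_eq (M : Matrix (Fin n) (Fin n) ℝ) : H124.hsn M = hsn M := rfl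

theorem sorted_mul_le {S M T : Matrix (Fin n) (Fin n) ℝ} {x y : ℕ → ℝ}
    (hx : H124.Sorted (S * M * T * (S * M * T)ᵀ) x) (hy : H124.Sorted (M * Mᵀ) y) {j : ℕ}
    (hj : j < n) : x j ≤ hsn S * hsn T * y j := by
  rw [mul_comm (hsn S)]
  refine sorted_le (T := Sᵀ) hx hy (hsn_nonneg T) (fun v => ?_) (fun v => ?_) hj
  · have := mulVec_nsq_le Sᵀ v
    rwa [hsn_transpose] at this
  · rw [quad_bb, quad_bb]
    have := mulVec_nsq_le Tᵀ (Mᵀ *ᵥ (Sᵀ *ᵥ v))
    rw [hsn_transpose] at this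
    have e : (S * M * T)ᵀ *ᵥ v = Tᵀ *ᵥ (Mᵀ *ᵥ (Sᵀ *ᵥ v)) := by
      rw [transpose_mul, transpose_mul, mulVec_mulVec, mulVec_mulVec, Matrix.mul_assoc]
    rw [e]; exact this

lemma sorted_sum {M : Matrix (Fin n) (Fin n) ℝ} {x : ℕ → ℝ} (hx : H124.Sorted (M * Mᵀ) x) :
    ∑ i : Fin n, x i = hsn M := by
  obtain ⟨-, -, U, hU1, hU2, hU⟩ := hx
  have h1 : trace (Uᵀ * (M * Mᵀ) * U) = ∑ i : Fin n, x i := by rw [hU, trace_diagonal]
  rw [← h1, trace_mul_comm, ← Matrix.mul_assoc, hU2, Matrix.one_mul]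
  simp only [trace, diag_apply, Matrix.mul_apply, transpose_apply, hsn]
  exact Finset.sum_congr rfl fun i _ => Finset.sum_congr rfl fun j _ => by ring

lemma sorted_prod {M : Matrix (Fin n) (Fin n) ℝ} {x : ℕ → ℝ} (hx : H124.Sorted (M * Mᵀ) x) :
    ∏ i : Fin n, x i = M.det ^ 2 := by
  obtain ⟨-, -, U, hU1, hU2, hU⟩ := hx
  have h1 : det (Uᵀ * (M * Mᵀ) * U) = ∏ i : Fin n, x i := by rw [hU, det_diagonal]
  have h2 := congrArg det hU1
  rw [det_mul, det_one] at h2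
  rw [← h1, det_mul, det_mul, det_mul, det_transpose M, mul_right_comm, h2]
  ring

section
variable {Γ : Type*} [Group Γ] (φ : Γ →* SpecialLinearGroup (Fin n) ℝ)

lemma MM_mul (g h : Γ) : H124.MM φ (g * h) = H124.MM φ g * H124.MM φ h := by
  simp [H124.MM]

lemma MM_det (g : Γ) : (H124.MM φ g).det = 1 := (φ g).2

lemma xx_sorted (g : Γ) : H124.Sorted (H124.BB φ g) (H124.xx φ g) :=
  ev_sorted (exists_sorted _ (by rw [MM_det]; exact one_ne_zero))

lemma xx_pos (g : Γ) (j : ℕ) : 0 < H124.xx φ g j := (xx_sorted φ g).2.1 j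

lemma xx_anti (g : Γ) : Antitone (H124.xx φ g) := (xx_sorted φ g).1

lemma xx_mul_le (s g t : Γ) {j : ℕ} (hj : j < n) :
    H124.xx φ (s * g * t) j ≤
      H124.hsn (H124.MM φ s) * H124.hsn (H124.MM φ t) * H124.xx φ g j := by
  have h := xx_sorted φ (s * g * t)
  have e : H124.BB φ (s * g * t) = H124.MM φ s * H124.MM φ g * H124.MM φ t *
      (H124.MM φ s * H124.MM φ g * H124.MM φ t)ᵀ := by
    rw [H124.BB, MM_mul, MM_mul]
  rw [e] at h
  exact sorted_mul_le h (xx_sorted φ g) hj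

lemma xx_prod (g : Γ) : ∏ i : Fin n, H124.xx φ g i = 1 := by
  rw [sorted_prod (xx_sorted φ g), MM_det]; norm_num

lemma xx_sum (g : Γ) : H124.hsn (H124.MM φ g) = ∑ i : Fin n, H124.xx φ g i :=
  (sorted_sum (xx_sorted φ g)).symm

lemma gap_nonneg' (g : Γ) (j : ℕ) : 0 ≤ H124.gap φ j g := by
  apply Real.log_nonneg
  rw [one_le_div (xx_pos φ g _)]
  exact xx_anti φ g (Nat.le_succ j)

lemma xx_exp_gap (g : Γ) (j : ℕ) :
    H124.xx φ g j = Real.exp (H124.gap φ j g) * H124.xx φ g (j + 1) := by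
  have h1 := xx_pos φ g j
  have h2 := xx_pos φ g (j + 1)
  rw [H124.gap, Real.exp_log (by positivity)]
  field_simp

/-- The constant of quasi-invariance. -/
noncomputable def qC (s t : Γ) : ℝ :=
  Real.log (H124.hsn (H124.MM φ s) * H124.hsn (H124.MM φ t) *
    (H124.hsn (H124.MM φ s⁻¹) * H124.hsn (H124.MM φ t⁻¹)))

/-- `log x_j` and the gaps are quasi-invariant. -/
theorem gap_mul_mul (s g t : Γ) {j : ℕ} (hj : j + 1 < n) :
    |H124.gap φ j (s * g * t) - H124.gap φ j g| ≤ qC φ s t := by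
  have up : ∀ i, i < n → H124.xx φ (s * g * t) i ≤
      H124.hsn (H124.MM φ s) * H124.hsn (H124.MM φ t) * H124.xx φ g i := fun i hi =>
    xx_mul_le φ s g t hi
  have dn : ∀ i, i < n → H124.xx φ g i ≤
      H124.hsn (H124.MM φ s⁻¹) * H124.hsn (H124.MM φ t⁻¹) * H124.xx φ (s * g * t) i :=
    fun i hi => by
      have := xx_mul_le φ s⁻¹ (s * g * t) t⁻¹ hi
      rwa [show s⁻¹ * (s * g * t) * t⁻¹ = g by group] at this
  have a0 := xx_pos φ g j
  have a1 := xx_pos φ g (j + 1)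
  have b0 := xx_pos φ (s * g * t) j
  have b1 := xx_pos φ (s * g * t) (j + 1)
  have hj' : j < n := Nat.lt_of_succ_lt hj
  have hn0 : ∀ M : Matrix (Fin n) (Fin n) ℝ, 0 ≤ H124.hsn M := hsn_nonneg
  rw [qC]
  set u := H124.hsn (H124.MM φ s) * H124.hsn (H124.MM φ t) with hu
  set w := H124.hsn (H124.MM φ s⁻¹) * H124.hsn (H124.MM φ t⁻¹) with hw
  have c0 : 0 < u := by
    have h0 : 0 ≤ u := mul_nonneg (hn0 _) (hn0 _)
    rcases h0.lt_or_eq with h | h
    · exact h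
    · have := up j hj'
      rw [← h, zero_mul] at this
      linarith
  have c1 : 0 < w := by
    have h0 : 0 ≤ w := mul_nonneg (hn0 _) (hn0 _)
    rcases h0.lt_or_eq with h | h
    · exact h
    · have := dn j hj'
      rw [← h, zero_mul] at this
      linarith
  have u0 : Real.log (H124.xx φ (s * g * t) j) ≤ Real.log u + Real.log (H124.xx φ g j) := by
    rw [← Real.log_mul c0.ne' a0.ne']
    exact Real.log_le_log b0 (up j hj')
  have u1 : Real.log (H124.xx φ (s * g * t) (j + 1)) ≤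
      Real.log u + Real.log (H124.xx φ g (j + 1)) := by
    rw [← Real.log_mul c0.ne' a1.ne']
    exact Real.log_le_log b1 (up (j + 1) hj)
  have d0 : Real.log (H124.xx φ g j) ≤ Real.log w + Real.log (H124.xx φ (s * g * t) j) := by
    rw [← Real.log_mul c1.ne' b0.ne']
    exact Real.log_le_log a0 (dn j hj')
  have d1 : Real.log (H124.xx φ g (j + 1)) ≤
      Real.log w + Real.log (H124.xx φ (s * g * t) (j + 1)) := by
    rw [← Real.log_mul c1.ne' b1.ne']
    exact Real.log_le_log a1 (dn (j + 1) hj)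
  rw [H124.gap, H124.gap, Real.log_div b0.ne' b1.ne', Real.log_div a0.ne' a1.ne',
    Real.log_mul c0.ne' c1.ne', abs_le]
  constructor
  · linarith only [u1, d0]
  · linarith only [u0, d1]

lemma xx_zero_le (g : Γ) {R : ℝ} (hR : ∀ j, j + 1 < n → H124.gap φ j g ≤ R) (i : ℕ)
    (hi : i < n) : H124.xx φ g 0 ≤ Real.exp (i * R) * H124.xx φ g i := by
  induction i with
  | zero => simp
  | succ i ih =>
    have h1 := ih (Nat.lt_of_succ_lt hi)
    have h2 := xx_exp_gap φ g i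
    have h3 : Real.exp (H124.gap φ i g) ≤ Real.exp R := Real.exp_le_exp.mpr (hR i hi)
    have h4 := xx_pos φ g (i + 1)
    calc H124.xx φ g 0 ≤ Real.exp (i * R) * H124.xx φ g i := h1
      _ = Real.exp (i * R) * (Real.exp (H124.gap φ i g) * H124.xx φ g (i + 1)) := by rw [h2]
      _ ≤ Real.exp (i * R) * (Real.exp R * H124.xx φ g (i + 1)) := by gcongr
      _ = Real.exp ((i + 1 : ℕ) * R) * H124.xx φ g (i + 1) := by
        rw [← mul_assoc, ← Real.exp_add]; push_cast; ring_nf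

theorem hsn_le_of_gap' (g : Γ) {R : ℝ} (hR0 : 0 ≤ R)
    (hR : ∀ j, j + 1 < n → H124.gap φ j g ≤ R) :
    H124.hsn (H124.MM φ g) ≤ n * Real.exp (n * R) := by
  rcases Nat.eq_zero_or_pos n with h0 | hn
  · subst h0; simp [H124.hsn]
  have h1 : H124.xx φ g (n - 1) ≤ 1 := by
    by_contra hlt
    push Not at hlt
    have hall : ∀ i : Fin n, 1 < H124.xx φ g i := fun i =>
      lt_of_lt_of_le hlt (xx_anti φ g (by have := i.2; omega))
    have : 1 < ∏ i : Fin n, H124.xx φ g i := by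
      have hne : (Finset.univ : Finset (Fin n)).Nonempty := ⟨⟨0, hn⟩, Finset.mem_univ _⟩
      have := Finset.prod_lt_prod_of_nonempty (s := (Finset.univ : Finset (Fin n)))
        (f := fun _ : Fin n => (1 : ℝ)) (g := fun i : Fin n => H124.xx φ g i)
        (fun _ _ => one_pos) (fun i _ => hall i) hne
      simpa using this
    rw [xx_prod] at this
    norm_num at this
  have h2 : H124.xx φ g 0 ≤ Real.exp (n * R) := by
    have e1 := xx_zero_le φ g hR (n - 1) (by omega)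
    have e2 : Real.exp ((n - 1 : ℕ) * R) ≤ Real.exp (n * R) := by
      apply Real.exp_le_exp.mpr
      gcongr
      omega
    calc H124.xx φ g 0 ≤ Real.exp ((n - 1 : ℕ) * R) * H124.xx φ g (n - 1) := e1
      _ ≤ Real.exp (n * R) * 1 := by gcongr; exact (xx_pos φ g _).le
      _ = _ := mul_one _
  rw [xx_sum]
  calc ∑ i : Fin n, H124.xx φ g i ≤ ∑ i : Fin n, Real.exp (n * R) :=
        Finset.sum_le_sum fun i _ => (xx_anti φ g (Nat.zero_le _)).trans h2
    _ = _ := by simp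

end

/-- **[R1a]** -/
theorem r1a.{u} : H124.R1a.{u} := by
  intro n Γ _ φ
  refine ⟨xx_sorted φ, fun s g t j hj => xx_mul_le φ s g t hj, xx_prod φ, xx_sum φ, ?_⟩
  intro hfin R
  refine (hfin (n * Real.exp (n * max R 0))).subset fun g hg => ?_
  exact hsn_le_of_gap' φ g (le_max_right _ _) fun j hj => (hg j hj).trans (le_max_left _ _)

end Vale.Agent.P092.H175
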