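import Vale.Agent.P092.H761.RankDefs
import Vale.Agent.P092.H967.S3

/-!
P092 (helper175): block [R5] of the rank theorem: the row model satisfies `MassData` (the pairing
lemma is a hypothesis).
-/

set_option linter.all false

open scoped InnerProductSpace
open Filter Topology ContinuousLinearMap

namespace Vale.Agent.P092.H175

open Vale.Agent.P092.H160 Vale.Agent.P092.H553 Vale.Agent.P092.H200 Vale.Agent.P092.H432
open Vale.Agent.P092.H538 Vale.Agent.P092.H761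

section

variable {Γ Λ ι : Type} [Group Γ] [Group Λ] [Fintype ι] {t : ℝ}
  {R : Λ → (Ell2 (Γ × ι) →L[ℂ] Ell2 (Γ × ι))}

theorem massR_one (hR : ARep t R) (w : Λ) : massR R w (fun _ => 1) = t := by
  have h1 := H967.ar_orth_self hR w
  have h2 := congrArg Complex.re h1
  rw [Complex.re_sum, Complex.ofReal_re] at h2
  rw [← h2, massR]
  refine Finset.sum_congr rfl fun i _ => ?_
  rw [mp, mo_one]

theorem massR_mono (w : Λ) (F F' : Γ → ℝ) (C : ℝ) (hF : ∀ g, |F g| ≤ C) (hF' : ∀ g, |F' g| ≤ C)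
    (h : ∀ g, F g ≤ F' g) : massR R w F ≤ massR R w F' :=
  Finset.sum_le_sum fun i _ => inner_mo_re_mono (H432.mp_bdd hF) (H432.mp_bdd hF') (fun x => h x.1) _

theorem massR_add (w : Λ) (F F' : Γ → ℝ) (C : ℝ) (hF : ∀ g, |F g| ≤ C) (hF' : ∀ g, |F' g| ≤ C) :
    massR R w (fun g => F g + F' g) = massR R w F + massR R w F' := by
  rw [massR, massR, massR, ← Finset.sum_add_distrib]
  refine Finset.sum_congr rfl fun i _ => ?_
  rw [mp, mp, mp, mo_add (H432.mp_bdd hF) (H432.mp_bdd hF'), inner_add_right, Complex.add_re]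

theorem massR_smul (w : Λ) (F : Γ → ℝ) (C c : ℝ) (hF : ∀ g, |F g| ≤ C) :
    massR R w (fun g => c * F g) = c * massR R w F := by
  rw [massR, massR, Finset.mul_sum]
  refine Finset.sum_congr rfl fun i _ => ?_
  rw [mp, mp, mo_smul c (H432.mp_bdd hF), inner_smul_right]
  simp

theorem massR_eq (w : Λ) (F : Γ → ℝ) (C : ℝ) (hF : ∀ g, |F g| ≤ C) :
    massR R w F = ∑ i, ∑' x : Γ × ι, F x.1 * ‖(R w (ep i) : Ell2 (Γ × ι)) x‖ ^ 2 := by
  rw [massR]
  refine Finset.sum_congr rfl fun i _ => ?_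
  rw [inner_mp hF, Complex.ofReal_re]

/-- Convergence of masses to the quadratic form of `PiA`. -/
theorem massR_tendsto (hR : ARep t R) (U : Ultrafilter ℕ) (z : ℕ → Λ) (v : Λ) {χ : ℕ → Γ → ℝ}
    {C : ℝ} (hχ : ∀ k g, |χ k g| ≤ C) :
    Tendsto (fun k => massR R (z k * v) (χ k)) U
      (𝓝 (∑ i, (⟪R v (ep i), PiA U R z χ (R v (ep i))⟫_ℂ).re)) := by
  refine tendsto_finsetSum _ fun i _ => ?_
  refine ((Complex.continuous_re.tendsto _).comp (pa_spec hR hχ (R v (ep i)) (R v (ep i)))).congr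
    fun k => ?_
  rw [Function.comp_apply, hR.app]

theorem massR_inv [DecidableEq ι] (hR : ARep t R) (U : Ultrafilter ℕ) (z : ℕ → Λ) (v : Λ)
    (hz : ∀ k, z k * v = v * z k) (χ : ℕ → Γ → ℝ) (hχ : ∀ k g, 0 ≤ χ k g ∧ χ k g ≤ 1)
    (hu : ∀ u : Γ, Usm U (fun k g => χ k (g * u) - χ k g)) :
    Tendsto (fun k => massR R (z k * v) (χ k) - massR R (z k) (χ k)) U (𝓝 0) := by
  have hb : ∀ k g, |χ k g| ≤ 1 := fun k g => by
    rw [abs_of_nonneg (hχ k g).1]; exact (hχ k g).2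
  have h1 := massR_tendsto hR U z v hb
  have h2 := massR_tendsto hR U z 1 hb
  have hc := pa_comm (U := U) hR hb v hz (fun u => small_of_usmA hR (hu u))
  have he : ∀ i, (⟪R v (ep i), PiA U R z χ (R v (ep i))⟫_ℂ).re =
      (⟪R 1 (ep i), PiA U R z χ (R 1 (ep i))⟫_ℂ).re := by
    intro i
    have e1 : PiA U R z χ (R v (ep i)) = R v (PiA U R z χ (ep i)) := by
      rw [← mul_ap, hc, mul_ap]
    have e2 : PiA U R z χ (R 1 (ep i)) = PiA U R z χ (ep i) := by
      rw [← mul_ap, pa_mul_one hR hb]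
    have e3 : R 1 (PiA U R z χ (ep i)) = PiA U R z χ (ep i) := by
      rw [← mul_ap, pa_one_mul hR hb]
    rw [e1, e2, hR.inner_map, e3]
  simp only [he] at h1
  have h3 := h1.sub h2
  rw [sub_self] at h3
  refine h3.congr fun k => ?_
  rw [mul_one]

theorem massR_esc (hR : ARep t R) (g : Γ) [DecidableEq Γ] :
    Tendsto (fun w => massR R w (fun h => if h = g then 1 else 0)) cofinite (𝓝 0) := by
  classical
  have hF : ∀ h : Γ, |(if h = g then (1 : ℝ) else 0)| ≤ 1 := by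
    intro h; split_ifs <;> simp
  have h1 : ∀ w, massR R w (fun h => if h = g then 1 else 0) =
      ∑ i, ∑ j, ‖⟪R w (ep i : Ell2 (Γ × ι)), dl (g, j)⟫_ℂ‖ ^ 2 := by
    intro w
    rw [massR_eq w _ 1 hF]
    refine Finset.sum_congr rfl fun i _ => ?_
    rw [tsum_eq_sum (s := Finset.univ.image fun j : ι => (g, j))]
    · rw [Finset.sum_image (fun a _ b _ h => (Prod.mk.inj h).2)]
      refine Finset.sum_congr rfl fun j _ => ?_
      rw [if_pos rfl, one_mul, inner_dl_right, RCLike.norm_conj]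
    · rintro ⟨h, j⟩ hx
      have : h ≠ g := fun e => hx (by rw [e]; exact Finset.mem_image_of_mem _ (Finset.mem_univ _))
      rw [if_neg this, zero_mul]
  simp only [h1]
  have h2 : Tendsto (fun w : Λ => ∑ i, ∑ j, ‖⟪R w (ep i : Ell2 (Γ × ι)), dl (g, j)⟫_ℂ‖ ^ 2)
      cofinite (𝓝 (∑ _i : ι, ∑ _j : ι, (0 : ℝ) ^ 2)) := by
    refine tendsto_finsetSum _ fun i _ => tendsto_finsetSum _ fun j _ => ?_
    have h3 := (H967.ar_coeff_tendsto hR (dl (g, j)) (ep i)).norm
    rw [norm_zero] at h3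
    exact h3.pow 2
  simpa using h2

end

/-- The conclusion of the pairing lemma. -/
def PairStmt {Γ Λ ι : Type} [Group Γ] [DecidableEq Γ] [Group Λ] [Fintype ι]
    (R : Λ → (Ell2 (Γ × ι) →L[ℂ] Ell2 (Γ × ι))) : Prop :=
  ∀ K : Subgroup Λ, NoMean K → ∀ (U : Ultrafilter ℕ) (z : ℕ → Λ),
    (∀ k, ∀ v ∈ K, z k * v = v * z k) → ∀ c : ℝ, 0 < c →
    (∀ (S : Finset Γ) (ε : ℝ), 0 < ε → ∃ (B : Finset Γ) (F H : ℕ → Γ → Γ → ℝ),
      PairFam U S ε B F H ∧
      ∀ v ∈ K, ∀ᶠ k in U, c ≤ massR R (z k * v) (fun g => ∑ b ∈ B, F k b g * H k b g)) → False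

/-- **[R5]** from the pairing lemma. -/
theorem rowMass_of_pair {Γ Λ ι : Type} [Group Γ] [DecidableEq Γ] [Group Λ] [Fintype ι]
    [DecidableEq ι] {t : ℝ} {R : Λ → (Ell2 (Γ × ι) →L[ℂ] Ell2 (Γ × ι))} (hR : ARep t R)
    (hp : PairStmt R) : MassData t (massR R) where
  pos := hR.pos
  one := massR_one hR
  mono := massR_mono
  add := massR_add
  smul := massR_smul
  inv := massR_inv hR
  esc := fun g => massR_esc hR g
  pair := hp

end Vale.Agent.P092.H175
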