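import Mathlib

/-!
P092 (helper175), team C: simultaneous diagonalisation of finitely many commuting operators of
finite order.
-/

set_option linter.all false

namespace Vale.Agent.P092.H175.T1

variable {V : Type*} [AddCommGroup V] [Module ℂ V]

theorem sum_root {d : ℕ} (hd : 0 < d) {ζ : ℂ} (hζ : IsPrimitiveRoot ζ d) {l : ℕ} (hl : l < d) :
    ∑ k ∈ Finset.range d, (ζ⁻¹ ^ l) ^ k = if l = 0 then (d : ℂ) else 0 := by
  split_ifs with h
  · subst h
    simp
  · have h1 : ζ⁻¹ ^ l ≠ 1 := by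
      intro h2
      rw [inv_pow, inv_eq_one] at h2
      exact h (Nat.eq_zero_of_dvd_of_lt ((hζ.pow_eq_one_iff_dvd l).1 h2) hl)
    have h2 := mul_geom_sum (ζ⁻¹ ^ l) d
    have h3 : (ζ⁻¹ ^ l) ^ d = 1 := by
      rw [← pow_mul, mul_comm, pow_mul, inv_pow, hζ.pow_eq_one, inv_one, one_pow]
    rw [h3, sub_self] at h2
    exact (mul_eq_zero.1 h2).resolve_left (sub_ne_zero.2 h1)

/-- One operator of finite order. -/
theorem dec_one (T : V →ₗ[ℂ] V) {d : ℕ} (hd : 0 < d) (y : V) (hy : (T ^ d) y = y) :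
    ∃ z : ℕ → V, (∀ k, ∃ c : ℂ, T (z k) = c • z k) ∧
      (∀ k, z k ∈ Submodule.span ℂ (Set.range fun l : ℕ => (T ^ l) y)) ∧
      y = ∑ k ∈ Finset.range d, z k := by
  have hd0 : d ≠ 0 := hd.ne'
  have hdc : (d : ℂ) ≠ 0 := by exact_mod_cast hd0
  set ζ : ℂ := Complex.exp (2 * Real.pi * Complex.I / d) with hζd
  have hζ : IsPrimitiveRoot ζ d := Complex.isPrimitiveRoot_exp d hd0
  have hζ0 : ζ ≠ 0 := Complex.exp_ne_zero _
  refine ⟨fun k => (d : ℂ)⁻¹ • ∑ l ∈ Finset.range d, (ζ⁻¹ ^ l) ^ k • (T ^ l) y,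
    fun k => ⟨ζ ^ k, ?_⟩, fun k => ?_, ?_⟩
  · -- eigenvector
    rw [map_smul, smul_comm, map_sum]
    congr 1
    have h1 : ∀ l, T ((ζ⁻¹ ^ l) ^ k • (T ^ l) y) =
        ζ ^ k • ((ζ⁻¹ ^ (l + 1)) ^ k • (T ^ (l + 1)) y) := by
      intro l
      rw [map_smul, pow_succ' T, smul_smul]
      congr 1
      rw [pow_succ ζ⁻¹ l, mul_pow, mul_comm ((ζ⁻¹ ^ l) ^ k), ← mul_assoc, ← mul_pow,
        mul_inv_cancel₀ hζ0, one_pow, one_mul]
    rw [Finset.sum_congr rfl fun l _ => h1 l, ← Finset.smul_sum]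
    congr 1
    have h2 := Finset.sum_range_succ (fun l => (ζ⁻¹ ^ l) ^ k • (T ^ l) y) d
    have h3 := Finset.sum_range_succ' (fun l => (ζ⁻¹ ^ l) ^ k • (T ^ l) y) d
    rw [h2] at h3
    have h4 : (ζ⁻¹ ^ d) ^ k • (T ^ d) y = (ζ⁻¹ ^ 0) ^ k • (T ^ 0) y := by
      rw [hy, inv_pow, hζ.pow_eq_one]
      simp
    rw [h4] at h3
    exact (add_right_cancel h3).symm
  · refine Submodule.smul_mem _ _ (Submodule.sum_mem _ fun l _ => Submodule.smul_mem _ _ ?_)
    exact Submodule.subset_span ⟨l, rfl⟩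
  · rw [← Finset.smul_sum, Finset.sum_comm]
    have h1 : ∀ l ∈ Finset.range d, ∑ k ∈ Finset.range d, (ζ⁻¹ ^ l) ^ k • (T ^ l) y =
        (if l = 0 then (d : ℂ) else 0) • (T ^ l) y := by
      intro l hl
      rw [← Finset.sum_smul, sum_root hd hζ (Finset.mem_range.1 hl)]
    rw [Finset.sum_congr rfl h1]
    simp only [ite_smul, zero_smul]
    rw [Finset.sum_ite_eq' (Finset.range d) 0 (fun l => (d : ℂ) • (T ^ l) y),
      if_pos (Finset.mem_range.2 hd), smul_smul, inv_mul_cancel₀ hdc, one_smul, pow_zero]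
    rfl

/-- Finitely many commuting operators of finite order on an invariant subspace. -/
theorem dec_many {ι : Type*} (s : Finset ι) (t : ι → V →ₗ[ℂ] V) (Y : Submodule ℂ V)
    (hY : ∀ i ∈ s, ∀ y ∈ Y, t i y ∈ Y)
    (hc : ∀ i ∈ s, ∀ j ∈ s, ∀ y ∈ Y, t i (t j y) = t j (t i y)) {d : ℕ} (hd : 0 < d)
    (ho : ∀ i ∈ s, ∀ y ∈ Y, ((t i) ^ d) y = y) :
    ∀ y ∈ Y, y ∈ Submodule.span ℂ {z | z ∈ Y ∧ ∀ i ∈ s, ∃ c : ℂ, t i z = c • z} := by
  classical
  induction s using Finset.induction_on with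
  | empty =>
    intro y hy
    exact Submodule.subset_span ⟨hy, fun i hi => absurd hi (Finset.notMem_empty i)⟩
  | insert i s his ih =>
    intro y hy
    have h1 := ih (fun j hj => hY j (Finset.mem_insert_of_mem hj))
      (fun j hj k hk => hc j (Finset.mem_insert_of_mem hj) k (Finset.mem_insert_of_mem hk))
      (fun j hj => ho j (Finset.mem_insert_of_mem hj)) y hy
    refine (Submodule.span_le.2 ?_ : _ ≤ _) h1
    rintro w ⟨hw, hws⟩
    have hi : i ∈ insert i s := Finset.mem_insert_self i s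
    obtain ⟨z, hz1, hz2, hz3⟩ := dec_one (t i) hd w (ho i hi w hw)
    have h2 : ∀ l : ℕ, ((t i) ^ l) w ∈ Y := by
      intro l
      induction l with
      | zero => simpa using hw
      | succ l ihl =>
        rw [pow_succ']
        exact hY i hi _ ihl
    have h3 : ∀ k, z k ∈ Y := fun k =>
      (Submodule.span_le.2 (by rintro _ ⟨l, rfl⟩; exact h2 l) : _ ≤ Y) (hz2 k)
    have h4 : ∀ j ∈ s, ∀ c : ℂ, t j w = c • w → ∀ k, t j (z k) = c • z k := by
      intro j hj c hcw k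
      have h5 : ∀ l : ℕ, t j (((t i) ^ l) w) = c • ((t i) ^ l) w := by
        intro l
        induction l with
        | zero => simpa using hcw
        | succ l ihl =>
          rw [pow_succ']
          change t j (t i (((t i) ^ l) w)) = c • t i (((t i) ^ l) w)
          rw [hc j (Finset.mem_insert_of_mem hj) i hi _ (h2 l), ihl, map_smul]
      have h6 := hz2 k
      refine Submodule.span_induction (p := fun x _ => t j x = c • x) ?_ ?_ ?_ ?_ h6
      · rintro _ ⟨l, rfl⟩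
        exact h5 l
      · rw [map_zero, smul_zero]
      · intro a b _ _ ha hb
        rw [map_add, ha, hb, smul_add]
      · intro a b _ hb
        rw [map_smul, hb, smul_comm]
    change w ∈ _
    rw [hz3]
    refine Submodule.sum_mem _ fun k _ => Submodule.subset_span ⟨h3 k, fun j hj => ?_⟩
    rcases Finset.mem_insert.1 hj with rfl | hj
    · exact hz1 k
    · obtain ⟨c, hc'⟩ := hws j hj
      exact ⟨c, h4 j hj c hc' k⟩

end Vale.Agent.P092.H175.T1
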