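import Vale.Agent.P092.H175.TOneA

/-!
P092 (helper175), team C: ergodic actions of uniform groups, basic facts on corners and weights.
-/

set_option linter.all false

namespace Vale.Agent.P092.H175.T1

open scoped ComplexConjugate

variable {𝔸 K : Type} [Ring 𝔸] [StarRing 𝔸] [Algebra ℂ 𝔸] [StarModule ℂ 𝔸] [Group K]

/-- A chain of subgroups with the properties of the lower `p`-series of a uniform group. -/
structure Chain (p : ℕ) (Kn : ℕ → Subgroup K) : Prop where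
  pos : 0 < p
  le : ∀ n, Kn (n + 1) ≤ Kn n
  comm : ∀ m, ∀ k ∈ Kn 0, ∀ l ∈ Kn m, l⁻¹ * (k⁻¹ * l * k) ∈ Kn (m + 2)
  pow : ∀ m, ∀ k ∈ Kn m, k ^ p ∈ Kn (m + 1)
  root : ∀ m, ∀ l ∈ Kn (m + 1), ∃ k ∈ Kn m, ∃ r ∈ Kn (m + 2), l = k ^ p * r
  fin : ∀ m, (Kn (m + 1)).relIndex (Kn m) ≠ 0

theorem Chain.mono {p : ℕ} {Kn : ℕ → Subgroup K} (h : Chain p Kn) {n m : ℕ} (hnm : n ≤ m) :
    Kn m ≤ Kn n := antitone_nat_of_succ_le h.le hnm

theorem Chain.relIndex_ne {p : ℕ} {Kn : ℕ → Subgroup K} (h : Chain p Kn) {n m : ℕ} (hnm : n ≤ m) :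
    (Kn m).relIndex (Kn n) ≠ 0 := by
  induction m, hnm using Nat.le_induction with
  | base => rw [Subgroup.relIndex_self]; exact one_ne_zero
  | succ m _ ih => exact Subgroup.relIndex_ne_zero_trans (h.fin m) ih

theorem Chain.conj_mem {p : ℕ} {Kn : ℕ → Subgroup K} (h : Chain p Kn) {m : ℕ} {k l : K}
    (hk : k ∈ Kn 0) (hl : l ∈ Kn m) : k⁻¹ * l * k ∈ Kn m := by
  have h1 := h.comm m k hk l hl
  have h2 : k⁻¹ * l * k = l * (l⁻¹ * (k⁻¹ * l * k)) := by group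
  rw [h2]
  exact (Kn m).mul_mem hl (h.mono (by omega) h1)

variable (α : K →* (𝔸 →⋆ₐ[ℂ] 𝔸)) (P : NonUnitalStarSubalgebra ℂ 𝔸) (Kn : ℕ → Subgroup K)

/-- the elements of `P` fixed by `K_n` -/
def Qn (n : ℕ) : Submodule ℂ 𝔸 where
  carrier := {a | a ∈ P ∧ ∀ k ∈ Kn n, α k a = a}
  add_mem' := fun {a b} ha hb => ⟨add_mem ha.1 hb.1, fun k hk => by
    rw [map_add, ha.2 k hk, hb.2 k hk]⟩
  zero_mem' := ⟨zero_mem _, fun k _ => map_zero _⟩
  smul_mem' := fun c a ha => ⟨SMulMemClass.smul_mem c ha.1, fun k hk => by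
    rw [map_smul, ha.2 k hk]⟩

/-- the corner `e A_n e` -/
def Cor (n : ℕ) (e : 𝔸) : Submodule ℂ 𝔸 where
  carrier := {a | a ∈ Qn α P Kn n ∧ e * a = a ∧ a * e = a}
  add_mem' := fun {a b} ha hb => ⟨add_mem ha.1 hb.1, by rw [mul_add, ha.2.1, hb.2.1], by
    rw [add_mul, ha.2.2, hb.2.2]⟩
  zero_mem' := ⟨zero_mem _, mul_zero _, zero_mul _⟩
  smul_mem' := fun c a ha => ⟨Submodule.smul_mem _ c ha.1, by
    rw [mul_smul_comm, ha.2.1], by rw [smul_mul_assoc, ha.2.2]⟩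

/-- `e` is a minimal projection of `A_n`. -/
structure MinP (n : ℕ) (e : 𝔸) : Prop where
  mem : e ∈ Qn α P Kn n
  sa : star e = e
  idem : e * e = e
  ne : e ≠ 0
  scal : ∀ a ∈ Cor α P Kn n e, ∃ c : ℂ, a = c • e

/-- The system: a chain acting on `P`, positivity.  (The existence of minimal projections below a
given one is proved in `TOneE`.) -/
structure Sys (p : ℕ) : Prop where
  chain : Chain p Kn
  act : ∀ k ∈ Kn 0, ∀ a ∈ P, α k a ∈ P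
  pos : ∀ {ι : Type} (s : Finset ι) (a : ι → 𝔸), ∑ i ∈ s, star (a i) * a i = 0 →
    ∀ i ∈ s, a i = 0

variable {α P Kn} {p : ℕ} {n m : ℕ} {e f x y z w : 𝔸}

theorem alpha_mul (k l : K) (a : 𝔸) : α (k * l) a = α k (α l a) := by
  rw [map_mul]; rfl

theorem mem_Qn {a : 𝔸} : a ∈ Qn α P Kn n ↔ a ∈ P ∧ ∀ k ∈ Kn n, α k a = a := Iff.rfl

theorem mem_Cor {a : 𝔸} : a ∈ Cor α P Kn n e ↔ a ∈ Qn α P Kn n ∧ e * a = a ∧ a * e = a := Iff.rfl

theorem Qn_mul {a b : 𝔸} (ha : a ∈ Qn α P Kn n) (hb : b ∈ Qn α P Kn n) : a * b ∈ Qn α P Kn n :=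
  ⟨mul_mem ha.1 hb.1, fun k hk => by rw [map_mul, ha.2 k hk, hb.2 k hk]⟩

theorem Qn_star {a : 𝔸} (ha : a ∈ Qn α P Kn n) : star a ∈ Qn α P Kn n :=
  ⟨star_mem ha.1, fun k hk => by rw [map_star, ha.2 k hk]⟩

theorem Qn_mono (h : Chain p Kn) (hnm : n ≤ m) : Qn α P Kn n ≤ Qn α P Kn m :=
  fun a ha => ⟨ha.1, fun k hk => ha.2 k (h.mono hnm hk)⟩

theorem Cor_mono (h : Chain p Kn) (hnm : n ≤ m) : Cor α P Kn n e ≤ Cor α P Kn m e :=
  fun a ha => ⟨Qn_mono h hnm ha.1, ha.2⟩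

theorem Cor_mul {a b : 𝔸} (ha : a ∈ Cor α P Kn n e) (hb : b ∈ Cor α P Kn n e) :
    a * b ∈ Cor α P Kn n e :=
  ⟨Qn_mul ha.1 hb.1, by rw [← mul_assoc, ha.2.1], by rw [mul_assoc, hb.2.2]⟩

theorem Cor_star (he : star e = e) {a : 𝔸} (ha : a ∈ Cor α P Kn n e) :
    star a ∈ Cor α P Kn n e := by
  refine ⟨Qn_star ha.1, ?_, ?_⟩
  · have h1 := congrArg star ha.2.2
    rwa [star_mul, he] at h1
  · have h1 := congrArg star ha.2.1
    rwa [star_mul, he] at h1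

theorem Cor_le (he : star e = e) (hf : star f = f) (hef : e * f = f) :
    Cor α P Kn n f ≤ Cor α P Kn n e := by
  have hfe : f * e = f := by
    have h1 := congrArg star hef
    rwa [star_mul, he, hf] at h1
  intro a ha
  refine ⟨ha.1, ?_, ?_⟩
  · rw [← ha.2.1, ← mul_assoc, hef]
  · rw [← ha.2.2, mul_assoc, hfe]

theorem MinP.self_mem (he : MinP α P Kn n e) : e ∈ Cor α P Kn n e := ⟨he.mem, he.idem, he.idem⟩

theorem act_Qn (h : Sys α P Kn p) {g : K} (hg : g ∈ Kn 0) {a : 𝔸} (ha : a ∈ Qn α P Kn m) :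
    α g a ∈ Qn α P Kn m := by
  refine ⟨h.act g hg a ha.1, fun k hk => ?_⟩
  have h1 : k * g = g * (g⁻¹ * k * g) := by group
  rw [← alpha_mul, h1, alpha_mul, ha.2 _ (h.chain.conj_mem hg hk)]

theorem act_Cor (h : Sys α P Kn p) (he : e ∈ Qn α P Kn n) {g : K} (hg : g ∈ Kn n) {a : 𝔸}
    (ha : a ∈ Cor α P Kn m e) : α g a ∈ Cor α P Kn m e := by
  refine ⟨act_Qn h (h.chain.mono (Nat.zero_le n) hg) ha.1, ?_, ?_⟩
  · have h1 := congrArg (α g) ha.2.1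
    rwa [map_mul, he.2 g hg] at h1
  · have h1 := congrArg (α g) ha.2.2
    rwa [map_mul, he.2 g hg] at h1

theorem alpha_inv (g : K) (a : 𝔸) : α g⁻¹ (α g a) = a := by
  rw [← alpha_mul, inv_mul_cancel, map_one]; rfl

theorem alpha_inj {g : K} {a : 𝔸} (h : α g a = 0) : a = 0 := by
  rw [← alpha_inv (α := α) g a, h, map_zero]

theorem star_mul_self_ne (h : Sys α P Kn p) {a : 𝔸} (ha : a ≠ 0) : star a * a ≠ 0 := by
  intro h0
  refine ha (h.pos ({()} : Finset Unit) (fun _ => a) ?_ () (Finset.mem_singleton_self _))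
  rw [Finset.sum_singleton]
  exact h0

/-- Averages of positive elements. -/
theorem avg (h : Sys α P Kn p) (he : MinP α P Kn n e) (hnm : n ≤ m) (hx : x ∈ Cor α P Kn m e)
    (hx0 : x ≠ 0) : ∃ T : Finset K, (∀ g ∈ T, g ∈ Kn n) ∧ ∃ c : ℂ, c ≠ 0 ∧
      ∑ g ∈ T, star (α g x) * α g x = c • e := by
  classical
  set N : Subgroup (Kn n) := (Kn m).subgroupOf (Kn n) with hN
  haveI : N.FiniteIndex := ⟨h.chain.relIndex_ne hnm⟩
  haveI : Fintype ((Kn n) ⧸ N) := Fintype.ofFinite _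
  set w := star x * x with hw
  have hwC : w ∈ Cor α P Kn m e := Cor_mul (Cor_star he.sa hx) hx
  set s := ∑ q : (Kn n) ⧸ N, α ((q.out : Kn n) : K) w with hs
  have hfix : ∀ g ∈ Kn n, α g s = s := by
    intro g hg
    rw [hs, map_sum]
    have h1 : ∀ q : (Kn n) ⧸ N, α g (α ((q.out : Kn n) : K) w) =
        α (((((⟨g, hg⟩ : Kn n) • q).out : Kn n)) : K) w := by
      intro q
      obtain ⟨l, hl⟩ := QuotientGroup.mk_out_eq_mul N ((⟨g, hg⟩ : Kn n) * q.out)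
      have h2 : ((⟨g, hg⟩ : Kn n) • q) = (((⟨g, hg⟩ : Kn n) * q.out : Kn n) : (Kn n) ⧸ N) := by
        conv_lhs => rw [← QuotientGroup.out_eq' q]
        rfl
      rw [h2, hl]
      have h3 : α (((l : Kn n)) : K) w = w := hwC.1.2 _ (Subgroup.mem_subgroupOf.1 l.2)
      rw [Subgroup.coe_mul, alpha_mul, h3, Subgroup.coe_mul, alpha_mul]
    rw [Finset.sum_congr rfl fun q _ => h1 q]
    exact Equiv.sum_comp (MulAction.toPerm (⟨g, hg⟩ : Kn n))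
      (fun q : (Kn n) ⧸ N => α ((q.out : Kn n) : K) w)
  have hsC : s ∈ Cor α P Kn n e := by
    have h1 : s ∈ Cor α P Kn m e := Submodule.sum_mem _ fun q _ => act_Cor h he.mem q.out.2 hwC
    exact ⟨⟨h1.1.1, hfix⟩, h1.2⟩
  obtain ⟨c, hc⟩ := he.scal s hsC
  have h1 : s = ∑ q : (Kn n) ⧸ N, star (α ((q.out : Kn n) : K) x) * α ((q.out : Kn n) : K) x := by
    rw [hs]
    refine Finset.sum_congr rfl fun q _ => ?_
    rw [hw, map_mul, map_star]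
  have hs0 : s ≠ 0 := by
    intro h0
    rw [h1] at h0
    have h2 := h.pos Finset.univ _ h0 ((1 : Kn n) : (Kn n) ⧸ N) (Finset.mem_univ _)
    exact hx0 (alpha_inj h2)
  have hc0 : c ≠ 0 := by
    rintro rfl
    rw [zero_smul] at hc
    exact hs0 hc
  have hinj : Function.Injective fun q : (Kn n) ⧸ N => ((q.out : Kn n) : K) :=
    Subtype.val_injective.comp Quotient.out_injective
  refine ⟨Finset.univ.map ⟨_, hinj⟩, ?_, c, hc0, ?_⟩
  · intro g hg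
    obtain ⟨q, _, rfl⟩ := Finset.mem_map.1 hg
    exact q.out.2
  · rw [Finset.sum_map, ← hc, h1]
    rfl

/-- Ergodicity: some translate of `x` does not annihilate `y`. -/
theorem sup (h : Sys α P Kn p) (he : MinP α P Kn n e) (hnm : n ≤ m) (hx : x ∈ Cor α P Kn m e)
    (hy : y ∈ Cor α P Kn m e) (hx0 : x ≠ 0) (hy0 : y ≠ 0) : ∃ g ∈ Kn n, α g x * y ≠ 0 := by
  obtain ⟨T, hT, c, hc0, hc⟩ := avg h he hnm hx hx0
  by_contra hcon
  push Not at hcon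
  have h2 : (∑ g ∈ T, star (α g x) * α g x) * y = 0 := by
    rw [Finset.sum_mul]
    refine Finset.sum_eq_zero fun g hg => ?_
    rw [mul_assoc, hcon g (hT g hg), mul_zero]
  rw [hc, smul_mul_assoc, hy.2.1] at h2
  exact hy0 ((smul_eq_zero.1 h2).resolve_left hc0)

/-! ### weights -/

variable (α Kn) in
/-- `z` has weight `χ` for `K_m`. -/
def Wt (m : ℕ) (χ : K → ℂ) (z : 𝔸) : Prop := ∀ k ∈ Kn m, α k z = χ k • z

theorem Wt.pow_apply {χ : K → ℂ} (hz : Wt α Kn m χ z) {k : K} (hk : k ∈ Kn m) (j : ℕ) :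
    α (k ^ j) z = χ k ^ j • z := by
  induction j with
  | zero => rw [pow_zero, pow_zero, map_one, one_smul]; rfl
  | succ j ih => rw [pow_succ', alpha_mul, ih, map_smul, hz k hk, smul_smul, pow_succ]

theorem Wt.pow_eq {χ : K → ℂ} (hz : Wt α Kn m χ z) (h0 : z ≠ 0) {k : K} (hk : k ∈ Kn m) (j : ℕ) :
    χ (k ^ j) = χ k ^ j := by
  have h1 := hz.pow_apply hk j
  rw [hz _ ((Kn m).pow_mem hk j)] at h1
  exact smul_left_injective ℂ h0 h1

theorem Wt.eq_one {χ : K → ℂ} (hz : Wt α Kn m χ z) (h0 : z ≠ 0) {M : ℕ} (hM : z ∈ Qn α P Kn M)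
    {k : K} (hk : k ∈ Kn m) (hkM : k ∈ Kn M) : χ k = 1 := by
  have h1 := hz k hk
  rw [hM.2 k hkM] at h1
  have h2 : (1 : ℂ) • z = χ k • z := by rw [one_smul]; exact h1
  exact (smul_left_injective ℂ h0 h2).symm

theorem Wt.mul_eq {χ : K → ℂ} (hz : Wt α Kn m χ z) (h0 : z ≠ 0) {k l : K} (hk : k ∈ Kn m)
    (hl : l ∈ Kn m) : χ (k * l) = χ k * χ l := by
  have h1 := hz _ ((Kn m).mul_mem hk hl)
  rw [alpha_mul, hz l hl, map_smul, hz k hk, smul_smul] at h1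
  rw [mul_comm (χ k)]
  exact (smul_left_injective ℂ h0 h1).symm

/-- the values of a weight of an element of `A_{m+2}` are roots of unity -/
theorem Wt.root (hs : Sys α P Kn p) {χ : K → ℂ} (hz : Wt α Kn m χ z) (h0 : z ≠ 0)
    (hM : z ∈ Qn α P Kn (m + 2)) {k : K} (hk : k ∈ Kn m) : χ k ^ (p * p) = 1 := by
  rw [← hz.pow_eq h0 hk, pow_mul]
  have h1 : (k ^ p) ^ p ∈ Kn (m + 2) := hs.chain.pow _ _ (hs.chain.pow _ _ hk)
  exact hz.eq_one h0 hM (hs.chain.mono (by omega) h1) h1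

theorem Wt.conj_mul (hs : Sys α P Kn p) {χ : K → ℂ} (hz : Wt α Kn m χ z) (h0 : z ≠ 0)
    (hM : z ∈ Qn α P Kn (m + 2)) {k : K} (hk : k ∈ Kn m) : conj (χ k) * χ k = 1 := by
  have h1 : ‖χ k‖ = 1 :=
    Complex.norm_eq_one_of_pow_eq_one (hz.root hs h0 hM hk) (Nat.mul_pos hs.chain.pos hs.chain.pos).ne'
  rw [← Complex.normSq_eq_conj_mul_self, Complex.normSq_eq_norm_sq, h1]
  simp

theorem Wt.mul {χ ψ : K → ℂ} (hz : Wt α Kn m χ z) (hw : Wt α Kn m ψ w) :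
    Wt α Kn m (fun k => χ k * ψ k) (z * w) := fun k hk => by
  rw [map_mul, hz k hk, hw k hk, smul_mul_smul_comm]

theorem Wt.star {χ : K → ℂ} (hz : Wt α Kn m χ z) :
    Wt α Kn m (fun k => conj (χ k)) (star z) := fun k hk => by
  rw [map_star, hz k hk, star_smul]
  rfl

theorem Wt.congr {χ ψ : K → ℂ} (hz : Wt α Kn m χ z) (h : ∀ k ∈ Kn m, χ k = ψ k) :
    Wt α Kn m ψ z := fun k hk => by rw [hz k hk, h k hk]

theorem mem_Cor_of_wt {χ : K → ℂ} (hz : Wt α Kn m χ z) {M : ℕ} (hzM : z ∈ Cor α P Kn M e)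
    (h1 : ∀ k ∈ Kn m, χ k = 1) : z ∈ Cor α P Kn m e :=
  ⟨⟨hzM.1.1, fun k hk => by rw [hz k hk, h1 k hk, one_smul]⟩, hzM.2⟩

end Vale.Agent.P092.H175.T1
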