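import Vale.Agent.P092.H175.TOneB

/-!
P092 (helper175), team C: weights of ergodic actions of uniform groups and their monotonicity.
-/

set_option linter.all false

namespace Vale.Agent.P092.H175.T1

open scoped ComplexConjugate

variable {𝔸 K : Type} [Ring 𝔸] [StarRing 𝔸] [Algebra ℂ 𝔸] [StarModule ℂ 𝔸] [Group K]
variable {α : K →* (𝔸 →⋆ₐ[ℂ] 𝔸)} {P : NonUnitalStarSubalgebra ℂ 𝔸} {Kn : ℕ → Subgroup K}
variable {p : ℕ} {n m : ℕ} {e f x y z w : 𝔸}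

/-- `α k` as a linear map -/
noncomputable def lin (α : K →* (𝔸 →⋆ₐ[ℂ] 𝔸)) (k : K) : 𝔸 →ₗ[ℂ] 𝔸 := (α k).toAlgHom.toLinearMap

theorem lin_apply (k : K) (a : 𝔸) : lin α k a = α k a := rfl

theorem lin_pow (k : K) (j : ℕ) (a : 𝔸) : ((lin α k) ^ j) a = α (k ^ j) a := by
  induction j with
  | zero => rw [pow_zero, pow_zero, map_one]; rfl
  | succ j ih =>
    rw [pow_succ', pow_succ', alpha_mul, ← ih]
    rfl

/-- `K_m` acts on `A_{m+2}` through an abelian quotient. -/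
theorem comm_of (hs : Sys α P Kn p) {M : ℕ} (hM : M ≤ m + 2) {k l : K} (hk : k ∈ Kn m)
    (hl : l ∈ Kn m) {a : 𝔸} (ha : a ∈ Qn α P Kn M) : α k (α l a) = α l (α k a) := by
  have h1 := hs.chain.comm m l (hs.chain.mono (Nat.zero_le m) hl) k hk
  have h2 : k * l = l * k * (k⁻¹ * (l⁻¹ * k * l)) := by group
  rw [← alpha_mul, h2, alpha_mul, alpha_mul, ha.2 _ (hs.chain.mono hM h1)]

/-- Decomposition into weight vectors. -/
theorem wt_span (hs : Sys α P Kn p) {M : ℕ} (hmM : m ≤ M) (hM : M ≤ m + 2) (Y : Submodule ℂ 𝔸)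
    (hY1 : ∀ y ∈ Y, y ∈ Qn α P Kn M) (hY2 : ∀ k ∈ Kn m, ∀ y ∈ Y, α k y ∈ Y) :
    ∀ y ∈ Y, y ∈ Submodule.span ℂ {z | z ∈ Y ∧ ∃ χ : K → ℂ, Wt α Kn m χ z} := by
  classical
  intro y hy
  set N : Subgroup (Kn m) := (Kn M).subgroupOf (Kn m) with hN
  haveI : N.FiniteIndex := ⟨hs.chain.relIndex_ne hmM⟩
  haveI : Fintype ((Kn m) ⧸ N) := Fintype.ofFinite _
  have hord : ∀ k ∈ Kn m, k ^ (p * p) ∈ Kn M := by
    intro k hk
    rw [pow_mul]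
    exact hs.chain.mono hM (hs.chain.pow _ _ (hs.chain.pow _ _ hk))
  have h1 := dec_many (Finset.univ : Finset ((Kn m) ⧸ N)) (fun q => lin α ((q.out : Kn m) : K)) Y
    (fun q _ y hy => hY2 _ q.out.2 y hy)
    (fun q _ r _ y hy => comm_of hs hM q.out.2 r.out.2 (hY1 y hy))
    (Nat.mul_pos hs.chain.pos hs.chain.pos)
    (fun q _ y hy => by
      rw [lin_pow]
      exact (hY1 y hy).2 _ (hord _ q.out.2)) y hy
  refine (Submodule.span_mono ?_) h1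
  rintro z ⟨hz, hzc⟩
  choose c hc using fun q : (Kn m) ⧸ N => hzc q (Finset.mem_univ q)
  refine ⟨hz, fun k => if hk : k ∈ Kn m then c ((⟨k, hk⟩ : Kn m) : (Kn m) ⧸ N) else 0,
    fun k hk => ?_⟩
  simp only [dif_pos hk]
  set q : (Kn m) ⧸ N := ((⟨k, hk⟩ : Kn m) : (Kn m) ⧸ N) with hq
  obtain ⟨l, hl⟩ := QuotientGroup.mk_out_eq_mul N (⟨k, hk⟩ : Kn m)
  have h2 : ((q.out : Kn m) : K) = k * ((l : Kn m) : K) := by
    rw [hq, hl]; rfl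
  have h3 : α ((l : Kn m) : K) z = z := (hY1 z hz).2 _ (Subgroup.mem_subgroupOf.1 l.2)
  have h4 : α k z = α ((q.out : Kn m) : K) z := by rw [h2, alpha_mul, h3]
  rw [h4]
  exact hc q

theorem exists_wt (hs : Sys α P Kn p) {M : ℕ} (hmM : m ≤ M) (hM : M ≤ m + 2) (Y : Submodule ℂ 𝔸)
    (hY1 : ∀ y ∈ Y, y ∈ Qn α P Kn M) (hY2 : ∀ k ∈ Kn m, ∀ y ∈ Y, α k y ∈ Y) {y : 𝔸} (hy : y ∈ Y)
    (hy0 : y ≠ 0) : ∃ z ∈ Y, z ≠ 0 ∧ ∃ χ : K → ℂ, Wt α Kn m χ z := by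
  by_contra hcon
  push Not at hcon
  have h1 := wt_span hs hmM hM Y hY1 hY2 y hy
  have h2 : {z | z ∈ Y ∧ ∃ χ : K → ℂ, Wt α Kn m χ z} ⊆ ({0} : Set 𝔸) := by
    rintro z ⟨hz, χ, hχ⟩
    by_contra h0
    exact hcon z hz h0 χ hχ
  have h3 := Submodule.span_mono h2 h1
  rw [Submodule.span_zero_singleton] at h3
  exact hy0 ((Submodule.mem_bot ℂ).1 h3)

/-- translates of weight vectors -/
theorem wt_act (hs : Sys α P Kn p) {M : ℕ} (hM : M ≤ m + 2) {χ : K → ℂ} (hz : Wt α Kn m χ z)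
    (hzM : z ∈ Qn α P Kn M) {g : K} (hg : g ∈ Kn 0) : Wt α Kn m χ (α g z) := by
  intro k hk
  have h1 := hs.chain.comm m g hg k hk
  have h2 : k * g = g * (k * (k⁻¹ * (g⁻¹ * k * g))) := by group
  rw [← alpha_mul, h2, alpha_mul, alpha_mul, hzM.2 _ (hs.chain.mono hM h1), hz k hk, map_smul]

/-- nonzero elements with the weight `χ^j` -/
theorem exists_pow (hs : Sys α P Kn p) (he : MinP α P Kn n e) (hnm : n ≤ m) {χ : K → ℂ}
    (hw : Wt α Kn m χ w) (hwC : w ∈ Cor α P Kn (m + 2) e) (hw0 : w ≠ 0) (j : ℕ) :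
    ∃ v ∈ Cor α P Kn (m + 2) e, v ≠ 0 ∧ Wt α Kn m (fun k => χ k ^ j) v := by
  induction j with
  | zero =>
    refine ⟨e, Cor_mono hs.chain (by omega) he.self_mem, he.ne, fun k hk => ?_⟩
    simp only [pow_zero, one_smul]
    exact he.mem.2 k (hs.chain.mono hnm hk)
  | succ j ih =>
    obtain ⟨v, hv, hv0, hvw⟩ := ih
    obtain ⟨g, hg, h1⟩ := sup hs he (by omega) hwC hv hw0 hv0
    refine ⟨α g w * v, Cor_mul (act_Cor hs he.mem hg hwC) hv, h1, ?_⟩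
    have h2 := (wt_act hs le_rfl hw hwC.1 (hs.chain.mono (Nat.zero_le n) hg)).mul hvw
    exact h2.congr fun k _ => by rw [pow_succ']

variable (α P Kn) in
/-- The set of weights of `K_m` on `e A_{m+1} e`, as functions on `K` supported on `K_m`. -/
def Sg (e : 𝔸) (m : ℕ) : Set (K → ℂ) :=
  {χ | (∀ k, k ∉ Kn m → χ k = 0) ∧ ∃ z ∈ Cor α P Kn (m + 1) e, z ≠ 0 ∧ Wt α Kn m χ z}

variable (Kn) in
/-- the restriction to `K_m` -/
noncomputable def rs (m : ℕ) (χ : K → ℂ) : K → ℂ := (Kn m : Set K).indicator χ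

theorem rs_of_mem {χ : K → ℂ} {k : K} (hk : k ∈ Kn m) : rs Kn m χ k = χ k :=
  Set.indicator_of_mem (show k ∈ (Kn m : Set K) from hk) χ

theorem rs_of_notMem {χ : K → ℂ} {k : K} (hk : k ∉ Kn m) : rs Kn m χ k = 0 :=
  Set.indicator_of_notMem (show k ∉ (Kn m : Set K) from hk) χ

theorem rs_mem_Sg {χ : K → ℂ} (hz : z ∈ Cor α P Kn (m + 1) e) (h0 : z ≠ 0)
    (hχ : Wt α Kn m χ z) : rs Kn m χ ∈ Sg α P Kn e m :=
  ⟨fun k hk => rs_of_notMem hk, z, hz, h0, hχ.congr fun k hk => (rs_of_mem hk).symm⟩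

theorem Sg_finite (hs : Sys α P Kn p) (e : 𝔸) (m : ℕ) : (Sg α P Kn e m).Finite := by
  classical
  set N : Subgroup (Kn m) := (Kn (m + 1)).subgroupOf (Kn m) with hN
  haveI : N.FiniteIndex := ⟨hs.chain.relIndex_ne (Nat.le_succ m)⟩
  haveI : Finite ((Kn m) ⧸ N) := inferInstance
  have hpp : 0 < p * p := Nat.mul_pos hs.chain.pos hs.chain.pos
  have hR : {c : ℂ | c ^ (p * p) = 1}.Finite := by
    refine ((Polynomial.nthRoots (p * p) (1 : ℂ)).toFinset.finite_toSet).subset ?_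
    intro c hc
    rw [Finset.mem_coe, Multiset.mem_toFinset, Polynomial.mem_nthRoots hpp]
    exact hc
  have hT : {F : (Kn m) ⧸ N → ℂ | ∀ q, F q ∈ {c : ℂ | c ^ (p * p) = 1}}.Finite :=
    Set.Finite.pi' fun _ => hR
  refine Set.Finite.of_injOn (f := fun (χ : K → ℂ) (q : (Kn m) ⧸ N) => χ ((q.out : Kn m) : K))
    ?_ ?_ hT
  · rintro χ ⟨_, z, hz, h0, hw⟩ q
    exact hw.root hs h0 (Qn_mono hs.chain (by omega) hz.1) q.out.2
  · rintro χ ⟨hχ0, z, hz, h0, hw⟩ ψ ⟨hψ0, z', hz', h0', hw'⟩ heq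
    funext k
    by_cases hk : k ∈ Kn m
    · set q : (Kn m) ⧸ N := ((⟨k, hk⟩ : Kn m) : (Kn m) ⧸ N) with hq
      obtain ⟨l, hl⟩ := QuotientGroup.mk_out_eq_mul N (⟨k, hk⟩ : Kn m)
      have h2 : ((q.out : Kn m) : K) = k * ((l : Kn m) : K) := by
        rw [hq, hl]; rfl
      have hl1 : ((l : Kn m) : K) ∈ Kn (m + 1) := Subgroup.mem_subgroupOf.1 l.2
      have h3 := congrFun heq q
      simp only at h3
      rw [h2, hw.mul_eq h0 hk (l : Kn m).2, hw'.mul_eq h0' hk (l : Kn m).2,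
        hw.eq_one h0 hz.1 (l : Kn m).2 hl1, hw'.eq_one h0' hz'.1 (l : Kn m).2 hl1, mul_one,
        mul_one] at h3
      exact h3
    · rw [hχ0 k hk, hψ0 k hk]

/-- The lift of a weight of `K_{m+1}` to `K_m`. -/
theorem exists_lift (hs : Sys α P Kn p) (he : MinP α P Kn n e) (hnm : n ≤ m) {χ : K → ℂ}
    (hχ : χ ∈ Sg α P Kn e (m + 1)) : ∃ w ∈ Cor α P Kn (m + 2) e, w ≠ 0 ∧ ∃ ψ : K → ℂ,
      Wt α Kn m ψ w ∧ ∀ k ∈ Kn (m + 1), ψ k = χ k := by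
  obtain ⟨_, z, hz, h0, hw⟩ := hχ
  -- the weight space
  set Y : Submodule ℂ 𝔸 :=
    { carrier := {a | a ∈ Cor α P Kn (m + 2) e ∧ Wt α Kn (m + 1) χ a}
      add_mem' := fun {a b} ha hb => ⟨add_mem ha.1 hb.1, fun k hk => by
        rw [map_add, ha.2 k hk, hb.2 k hk, smul_add]⟩
      zero_mem' := ⟨zero_mem _, fun k _ => by rw [map_zero, smul_zero]⟩
      smul_mem' := fun c a ha => ⟨Submodule.smul_mem _ c ha.1, fun k hk => by
        rw [map_smul, ha.2 k hk, smul_comm]⟩ } with hY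
  have hY1 : ∀ y ∈ Y, y ∈ Qn α P Kn (m + 2) := fun y hy => hy.1.1
  have hY2 : ∀ k ∈ Kn m, ∀ y ∈ Y, α k y ∈ Y := by
    intro k hk y hy
    refine ⟨act_Cor hs (Qn_mono hs.chain hnm he.mem) hk hy.1, ?_⟩
    exact wt_act hs (by omega) hy.2 hy.1.1 (hs.chain.mono (Nat.zero_le m) hk)
  obtain ⟨w, hwY, hw0, ψ, hψ⟩ := exists_wt hs (by omega : m ≤ m + 2) le_rfl Y hY1 hY2
    (show z ∈ Y from ⟨hz, hw⟩) h0
  refine ⟨w, hwY.1, hw0, ψ, hψ, fun k hk => ?_⟩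
  have h1 := hψ k (hs.chain.le m hk)
  rw [hwY.2 k hk] at h1
  exact (smul_left_injective ℂ hw0 h1).symm

variable (Kn p) in
/-- the map `χ ↦ χ ∘ pow` -/
noncomputable def pw (m : ℕ) (χ : K → ℂ) : K → ℂ := rs Kn m (fun k => χ (k ^ p))

theorem pw_mem (hs : Sys α P Kn p) (he : MinP α P Kn n e) (hnm : n ≤ m) {χ : K → ℂ}
    (hχ : χ ∈ Sg α P Kn e (m + 1)) : pw Kn p m χ ∈ Sg α P Kn e m := by
  obtain ⟨w, hwC, hw0, ψ, hψ, hψχ⟩ := exists_lift hs he hnm hχ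
  obtain ⟨v, hv, hv0, hvw⟩ := exists_pow hs he hnm hψ hwC hw0 p
  have h1 : ∀ k ∈ Kn (m + 1), ψ k ^ p = 1 := by
    intro k hk
    have hk' := hs.chain.le m hk
    rw [← hψ.pow_eq hw0 hk']
    have h2 : k ^ p ∈ Kn (m + 2) := hs.chain.pow _ _ hk
    exact hψ.eq_one hw0 hwC.1 ((Kn m).pow_mem hk' p) h2
  have h2 : v ∈ Cor α P Kn (m + 1) e :=
    mem_Cor_of_wt (m := m + 1) (χ := fun k => ψ k ^ p)
      (fun k hk => hvw k (hs.chain.le m hk)) hv h1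
  refine rs_mem_Sg h2 hv0 (hvw.congr fun k hk => ?_)
  rw [← hψ.pow_eq hw0 hk]
  exact hψχ _ (hs.chain.pow _ _ hk)

theorem pw_inj (hs : Sys α P Kn p) : Set.InjOn (pw Kn p m) (Sg α P Kn e (m + 1)) := by
  rintro χ ⟨hχ0, z, hz, h0, hw⟩ ψ ⟨hψ0, z', hz', h0', hw'⟩ heq
  funext k
  by_cases hk : k ∈ Kn (m + 1)
  · obtain ⟨l, hl, r, hr, rfl⟩ := hs.chain.root m k hk
    have h1 := congrFun heq l
    simp only [pw] at h1
    rw [rs_of_mem hl, rs_of_mem hl] at h1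
    have hlp : l ^ p ∈ Kn (m + 1) := hs.chain.pow _ _ hl
    have hr1 : r ∈ Kn (m + 1) := hs.chain.le _ hr
    rw [hw.mul_eq h0 hlp hr1, hw'.mul_eq h0' hlp hr1, hw.eq_one h0 hz.1 hr1 hr,
      hw'.eq_one h0' hz'.1 hr1 hr, h1]
  · rw [hχ0 k hk, hψ0 k hk]

theorem Sg_succ_le (hs : Sys α P Kn p) (he : MinP α P Kn n e) (hnm : n ≤ m) :
    (Sg α P Kn e (m + 1)).ncard ≤ (Sg α P Kn e m).ncard :=
  Set.ncard_le_ncard_of_injOn (pw Kn p m) (fun χ hχ => pw_mem hs he hnm hχ) (pw_inj hs)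
    (Sg_finite hs e m)

theorem Sg_le (hs : Sys α P Kn p) (he : MinP α P Kn n e) (hnm : n ≤ m) :
    (Sg α P Kn e m).ncard ≤ (Sg α P Kn e n).ncard := by
  induction m, hnm using Nat.le_induction with
  | base => exact le_rfl
  | succ m hnm ih => exact (Sg_succ_le hs he hnm).trans ih

theorem Sg_sub (he : star e = e) (hf : star f = f) (hef : e * f = f) :
    Sg α P Kn f m ⊆ Sg α P Kn e m := by
  rintro χ ⟨h1, z, hz, h0, hw⟩
  exact ⟨h1, z, Cor_le he hf hef hz, h0, hw⟩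

end Vale.Agent.P092.H175.T1
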