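import Vale.Agent.P092.H175.TOneE

/-!
P092 (helper175), team C: lemma T1''.  A uniform group acts on a star algebra with minimal
projections; then some minimal projection `f` of some fixed algebra has commutative corners in all
the later fixed algebras.
-/

set_option linter.all false

namespace Vale.Agent.P092.H175.T1

open scoped ComplexConjugate

variable {𝔸 K : Type} [Ring 𝔸] [StarRing 𝔸] [Algebra ℂ 𝔸] [StarModule ℂ 𝔸] [Group K]
variable {α : K →* (𝔸 →⋆ₐ[ℂ] 𝔸)} {P : NonUnitalStarSubalgebra ℂ 𝔸} {Kn : ℕ → Subgroup K}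
variable {p : ℕ} {n m : ℕ} {e f x y z w : 𝔸}

/-- weight vectors are invertible in the corner of a minimal projection -/
theorem inv_of (hs : Sys α P Kn p) (he : MinP α P Kn n e) {M : ℕ} (hM : M ≤ n + 2)
    {χ : K → ℂ} (hz : Wt α Kn n χ z) (h0 : z ≠ 0) (hzP : z ∈ Qn α P Kn M) (hze : z * e = z) :
    ∃ c : ℂ, c ≠ 0 ∧ star z * z = c • e := by
  have hez : e * star z = star z := by
    have h1 := congrArg star hze
    rwa [star_mul, he.sa] at h1
  have h1 : star z * z ∈ Cor α P Kn M e :=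
    ⟨Qn_mul (Qn_star hzP) hzP, by rw [← mul_assoc, hez], by rw [mul_assoc, hze]⟩
  have h2 : star z * z ∈ Cor α P Kn n e := by
    refine mem_Cor_of_wt (hz.star.mul hz) h1 fun k hk => ?_
    exact hz.conj_mul hs h0 (Qn_mono hs.chain hM hzP) hk
  obtain ⟨c, hc⟩ := he.scal _ h2
  refine ⟨c, ?_, hc⟩
  rintro rfl
  rw [zero_smul] at hc
  exact star_mul_self_ne hs h0 hc

theorem inv_of' (hs : Sys α P Kn p) (he : MinP α P Kn n e) {M : ℕ} (hM : M ≤ n + 2)
    {χ : K → ℂ} (hz : Wt α Kn n χ z) (h0 : z ≠ 0) (hzP : z ∈ Qn α P Kn M) (hze : e * z = z) :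
    ∃ c : ℂ, c ≠ 0 ∧ z * star z = c • e := by
  have h1 := inv_of (z := star z) hs he hM hz.star (star_ne_zero.2 h0) (Qn_star hzP) (by
    have h2 := congrArg star hze
    rwa [star_mul, he.sa] at h2)
  rwa [star_star] at h1

/-- weight vectors of the same weight in the corner are proportional -/
theorem propor (hs : Sys α P Kn p) (he : MinP α P Kn n e) {M : ℕ} (hM : M ≤ n + 2)
    {χ ψ : K → ℂ} (hz : Wt α Kn n χ z) (hw : Wt α Kn n ψ w) (h0 : z ≠ 0)
    (hzC : z ∈ Cor α P Kn M e) (hwC : w ∈ Cor α P Kn M e) (h : ∀ k ∈ Kn n, ψ k = χ k) :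
    ∃ c : ℂ, w = c • z := by
  obtain ⟨c, hc0, hc⟩ := inv_of' hs he hM hz h0 hzC.1 hzC.2.1
  have h1 : star z * w ∈ Cor α P Kn n e := by
    refine mem_Cor_of_wt (hz.star.mul hw) (Cor_mul (Cor_star he.sa hzC) hwC) fun k hk => ?_
    simp only [h k hk]
    exact hz.conj_mul hs h0 (Qn_mono hs.chain hM hzC.1) hk
  obtain ⟨d, hd⟩ := he.scal _ h1
  refine ⟨c⁻¹ * d, ?_⟩
  have h2 : z * (star z * w) = c • w := by
    rw [← mul_assoc, hc, smul_mul_assoc, hwC.2.1]
  rw [hd, mul_smul_comm, hzC.2.2] at h2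
  rw [mul_smul, h2, smul_smul, inv_mul_cancel₀ hc0, one_smul]

theorem wt_pow {χ : K → ℂ} (hz : Wt α Kn m χ z) (j : ℕ) : Wt α Kn m (fun k => χ k ^ j) (z ^ j) := by
  intro k hk
  rw [map_pow, hz k hk, smul_pow]

theorem Cor_pow {M : ℕ} (he : e ∈ Cor α P Kn M e) (hz : z ∈ Cor α P Kn M e) {j : ℕ} (hj : 0 < j) :
    z ^ j ∈ Cor α P Kn M e := by
  induction j, hj using Nat.le_induction with
  | base => simpa using hz
  | succ j _ ih => rw [pow_succ]; exact Cor_mul ih hz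

theorem pow_ne_of_inv {c : ℂ} (hc : c ≠ 0) (he0 : e ≠ 0) (hec : e * e = e) (hze : e * z = z)
    (hz : star z * z = c • e) {j : ℕ} (hj : 0 < j) : star (z ^ j) * z ^ j = c ^ j • e := by
  induction j, hj using Nat.le_induction with
  | base => simpa using hz
  | succ j _ ih =>
    rw [pow_succ, star_mul, mul_assoc, ← mul_assoc (star (z ^ j)), ih, smul_mul_assoc, hze,
      mul_smul_comm, hz, smul_smul, pow_succ]

/-- `u w = κ w u` gives `u w^j = κ^j w^j u`. -/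
theorem swap_pow {u : 𝔸} {κ : ℂ} (h : u * w = κ • (w * u)) (j : ℕ) :
    u * w ^ j = κ ^ j • (w ^ j * u) := by
  induction j with
  | zero => simp
  | succ j ih =>
    rw [pow_succ, ← mul_assoc, ih, smul_mul_assoc, mul_assoc, h, mul_smul_comm, smul_smul,
      ← mul_assoc, pow_succ]

theorem swap_pow' {u : 𝔸} {κ : ℂ} (h : u * w = κ • (w * u)) (j : ℕ) :
    u ^ j * w = κ ^ j • (w * u ^ j) := by
  induction j with
  | zero => simp
  | succ j ih =>
    rw [pow_succ', mul_assoc, ih, mul_smul_comm, ← mul_assoc, h, smul_mul_assoc, smul_smul,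
      mul_assoc, pow_succ]

variable (α P Kn) in
/-- The optimal pairs. -/
def Opt (n : ℕ) (f : 𝔸) : Prop :=
  MinP α P Kn n f ∧ ∀ m h, MinP α P Kn m h → (Sg α P Kn f n).ncard ≤ (Sg α P Kn h m).ncard

theorem exists_opt (h : ∃ n e, MinP α P Kn n e) : ∃ n f, Opt α P Kn n f := by
  classical
  have h1 : ∃ c : ℕ, ∃ n e, MinP α P Kn n e ∧ (Sg α P Kn e n).ncard = c := by
    obtain ⟨n, e, he⟩ := h
    exact ⟨_, n, e, he, rfl⟩
  obtain ⟨n, e, he, hc⟩ := Nat.find_spec h1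
  refine ⟨n, e, he, fun m h hm => ?_⟩
  rw [hc]
  exact Nat.find_min' h1 ⟨m, h, hm, rfl⟩

theorem Opt.le {f h : 𝔸} (hs : Sys α P Kn p) (hf : Opt α P Kn n f) (hnm : n ≤ m)
    (hh : MinP α P Kn m h) (hfh : f * h = h) : Opt α P Kn m h := by
  refine ⟨hh, fun m' h' hm' => ?_⟩
  have h1 : (Sg α P Kn h m).ncard ≤ (Sg α P Kn f m).ncard :=
    Set.ncard_le_ncard (Sg_sub hf.1.sa hh.sa hfh) (Sg_finite hs f m)
  exact (h1.trans (Sg_le hs hf.1 hnm)).trans (hf.2 m' h' hm')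

theorem Opt.eq {f h : 𝔸} (hs : Sys α P Kn p) (hf : Opt α P Kn n f) (hnm : n ≤ m)
    (hh : MinP α P Kn m h) (hfh : f * h = h) : Sg α P Kn h m = Sg α P Kn f m := by
  refine Set.eq_of_subset_of_ncard_le (Sg_sub hf.1.sa hh.sa hfh) ?_ (Sg_finite hs f m)
  exact (Sg_le hs hf.1 hnm).trans (hf.2 m h hh)

/-- the power map on weights is onto -/
theorem Opt.onto (hs : Sys α P Kn p) (hf : Opt α P Kn n f) {χ : K → ℂ}
    (hχ : χ ∈ Sg α P Kn f n) : ∃ ψ ∈ Sg α P Kn f (n + 1), pw Kn p n ψ = χ := by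
  have h1 : pw Kn p n '' Sg α P Kn f (n + 1) = Sg α P Kn f n := by
    refine Set.eq_of_subset_of_ncard_le ?_ ?_ (Sg_finite hs f n)
    · rintro _ ⟨ψ, hψ, rfl⟩
      exact pw_mem hs hf.1 le_rfl hψ
    · rw [Set.ncard_image_of_injOn (pw_inj hs)]
      obtain ⟨h, hh, hfh⟩ := hs.minex n f hf.1 (n + 1) (Nat.le_succ n)
      have h2 : (Sg α P Kn h (n + 1)).ncard ≤ (Sg α P Kn f (n + 1)).ncard :=
        Set.ncard_le_ncard (Sg_sub hf.1.sa hh.sa hfh) (Sg_finite hs f (n + 1))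
      exact (hf.2 _ _ hh).trans h2
  rw [← h1] at hχ
  exact hχ

/-- Step (3), on weight vectors. -/
theorem comm_wt (hs : Sys α P Kn p) (hf : Opt α P Kn n f) {u v : 𝔸} {χ ψ : K → ℂ}
    (hu : u ∈ Cor α P Kn (n + 1) f) (hv : v ∈ Cor α P Kn (n + 1) f) (huw : Wt α Kn n ψ u)
    (hvw : Wt α Kn n χ v) : u * v = v * u := by
  by_cases hu0 : u = 0
  · rw [hu0, zero_mul, mul_zero]
  by_cases hv0 : v = 0
  · rw [hv0, zero_mul, mul_zero]
  have hp := hs.chain.pos
  obtain ⟨χ', hχ', hpw⟩ := hf.onto hs (rs_mem_Sg hv hv0 hvw)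
  obtain ⟨w, hwC, hw0, φ, hφ, hφχ⟩ := exists_lift hs hf.1 le_rfl hχ'
  -- `v` is a multiple of `w ^ p`
  have hwt : ∀ k ∈ Kn n, χ k = φ k ^ p := by
    intro k hk
    have h1 := congrFun hpw k
    simp only [pw] at h1
    rw [rs_of_mem hk, rs_of_mem hk] at h1
    rw [← h1, ← hφχ _ (hs.chain.pow _ _ hk), hφ.pow_eq hw0 hk]
  have hfC : f ∈ Cor α P Kn (n + 2) f := Cor_mono hs.chain (by omega) hf.1.self_mem
  obtain ⟨c, hc0, hc⟩ := inv_of hs hf.1 le_rfl hφ hw0 hwC.1 hwC.2.2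
  obtain ⟨c', hc0', hc'⟩ := inv_of' hs hf.1 le_rfl hφ hw0 hwC.1 hwC.2.1
  have hwp0 : w ^ p ≠ 0 := by
    intro h0
    have h1 := pow_ne_of_inv hc0 hf.1.ne hf.1.idem hwC.2.1 hc hp
    rw [h0, mul_zero] at h1
    exact (smul_ne_zero (pow_ne_zero p hc0) hf.1.ne) h1.symm
  have huC : u ∈ Cor α P Kn (n + 2) f := Cor_mono hs.chain (by omega) hu
  have hvC : v ∈ Cor α P Kn (n + 2) f := Cor_mono hs.chain (by omega) hv
  obtain ⟨μ, hμ⟩ := propor hs hf.1 le_rfl (wt_pow hφ p) hvw hwp0 (Cor_pow hfC hwC hp) hvC hwt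
  -- `u` and `w` commute up to a scalar
  have hκ : ∃ κ : ℂ, u * w = κ • (w * u) := by
    have h1 : Wt α Kn n (fun k => φ k * ψ k * conj (φ k)) (w * u * star w) :=
      (hφ.mul huw).mul hφ.star
    have h2 : w * u * star w ∈ Cor α P Kn (n + 2) f :=
      Cor_mul (Cor_mul hwC huC) (Cor_star hf.1.sa hwC)
    obtain ⟨d, hd⟩ := propor hs hf.1 le_rfl huw h1 hu0 huC h2 fun k hk => by
      have h3 := hφ.conj_mul hs hw0 hwC.1 hk
      calc φ k * ψ k * conj (φ k) = (conj (φ k) * φ k) * ψ k := by ring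
        _ = ψ k := by rw [h3, one_mul]
    have h3 : c • (w * u) = d • (u * w) := by
      have h4 : w * u * star w * w = c • (w * u) := by
        rw [mul_assoc, hc, mul_smul_comm, mul_assoc, huC.2.2]
      rw [← h4, hd, smul_mul_assoc]
    have hd0 : d ≠ 0 := by
      rintro rfl
      rw [zero_smul] at h3
      have h5 : w * u = 0 := (smul_eq_zero.1 h3).resolve_left hc0
      have h6 : star w * (w * u) = c • u := by rw [← mul_assoc, hc, smul_mul_assoc, huC.2.1]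
      rw [h5, mul_zero] at h6
      exact (smul_ne_zero hc0 hu0) h6.symm
    refine ⟨d⁻¹ * c, ?_⟩
    rw [mul_smul, h3, smul_smul, inv_mul_cancel₀ hd0, one_smul]
  obtain ⟨κ, hκ⟩ := hκ
  -- `u ^ p` is a scalar
  have hup : ∃ t : ℂ, u ^ p = t • f := by
    have h1 : u ^ p ∈ Cor α P Kn n f := by
      refine mem_Cor_of_wt (wt_pow huw p) (Cor_pow hfC huC hp) fun k hk => ?_
      rw [← huw.pow_eq hu0 hk]
      exact huw.eq_one hu0 hu.1 ((Kn n).pow_mem hk p) (hs.chain.pow _ _ hk)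
    exact hf.1.scal _ h1
  obtain ⟨t, ht⟩ := hup
  have hup0 : u ^ p ≠ 0 := by
    obtain ⟨b, hb0, hb⟩ := inv_of hs hf.1 le_rfl huw hu0 huC.1 huC.2.2
    intro h0
    have h1 := pow_ne_of_inv hb0 hf.1.ne hf.1.idem huC.2.1 hb hp
    rw [h0, mul_zero] at h1
    exact (smul_ne_zero (pow_ne_zero p hb0) hf.1.ne) h1.symm
  have ht0 : t ≠ 0 := by
    rintro rfl
    rw [zero_smul] at ht
    exact hup0 ht
  have hκp : κ ^ p = 1 := by
    have h1 := swap_pow' hκ p
    rw [ht, smul_mul_assoc, hwC.2.1, mul_smul_comm, hwC.2.2, smul_smul] at h1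
    have h2 : t = κ ^ p * t := smul_left_injective ℂ hw0 h1
    have h3 : (κ ^ p - 1) * t = 0 := by rw [sub_mul, one_mul, ← h2, sub_self]
    exact sub_eq_zero.1 ((mul_eq_zero.1 h3).resolve_right ht0)
  rw [hμ, mul_smul_comm, smul_mul_assoc, swap_pow hκ p, hκp, one_smul]

/-- Step (3). -/
theorem comm_one (hs : Sys α P Kn p) (hf : Opt α P Kn n f) :
    ∀ x ∈ Cor α P Kn (n + 1) f, ∀ y ∈ Cor α P Kn (n + 1) f, x * y = y * x := by
  intro x hx y hy
  have hsp := wt_span hs (Nat.le_succ n) (by omega : n + 1 ≤ n + 2) (Cor α P Kn (n + 1) f)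
    (fun y hy => hy.1) (fun k hk y hy => act_Cor hs hf.1.mem hk hy)
  have hx' := hsp x hx
  have hy' := hsp y hy
  induction hx' using Submodule.span_induction with
  | mem u hu =>
    obtain ⟨hu, ψ, hψ⟩ := hu
    clear hx
    induction hy' using Submodule.span_induction with
    | mem v hv =>
      obtain ⟨hv, χ, hχ⟩ := hv
      exact comm_wt hs hf hu hv hψ hχ
    | zero => rw [mul_zero, zero_mul]
    | add a b ha hb iha ihb =>
      have ha' := (Submodule.span_le (p := Cor α P Kn (n + 1) f)).2 (fun z hz => hz.1) ha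
      have hb' := (Submodule.span_le (p := Cor α P Kn (n + 1) f)).2 (fun z hz => hz.1) hb
      rw [mul_add, add_mul, iha ha', ihb hb']
    | smul c a ha iha =>
      have ha' := (Submodule.span_le (p := Cor α P Kn (n + 1) f)).2 (fun z hz => hz.1) ha
      rw [mul_smul_comm, smul_mul_assoc, iha ha']
  | zero => rw [mul_zero, zero_mul]
  | add a b ha hb iha ihb =>
    have ha' := (Submodule.span_le (p := Cor α P Kn (n + 1) f)).2 (fun z hz => hz.1) ha
    have hb' := (Submodule.span_le (p := Cor α P Kn (n + 1) f)).2 (fun z hz => hz.1) hb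
    rw [mul_add, add_mul, iha ha', ihb hb']
  | smul c a ha iha =>
    have ha' := (Submodule.span_le (p := Cor α P Kn (n + 1) f)).2 (fun z hz => hz.1) ha
    rw [mul_smul_comm, smul_mul_assoc, iha ha']

/-- Different minimal projections below `f` are disjoint in `A_{m+1}`. -/
theorem disj (hs : Sys α P Kn p) (hf : Opt α P Kn n f) (hnm : n ≤ m)
    (hc : ∀ x ∈ Cor α P Kn m f, ∀ y ∈ Cor α P Kn m f, x * y = y * x) {h h' : 𝔸}
    (hh : MinP α P Kn m h) (hh' : MinP α P Kn m h') (hfh : f * h = h) (hfh' : f * h' = h')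
    (hhh : h * h' = 0) (hx : x ∈ Cor α P Kn (m + 1) f) : h * x * h' = 0 := by
  by_contra hne
  set Y : Submodule ℂ 𝔸 :=
    { carrier := {a | a ∈ Qn α P Kn (m + 1) ∧ h * a = a ∧ a * h' = a}
      add_mem' := fun {a b} ha hb => ⟨add_mem ha.1 hb.1, by rw [mul_add, ha.2.1, hb.2.1], by
        rw [add_mul, ha.2.2, hb.2.2]⟩
      zero_mem' := ⟨zero_mem _, mul_zero _, zero_mul _⟩
      smul_mem' := fun c a ha => ⟨Submodule.smul_mem _ c ha.1, by
        rw [mul_smul_comm, ha.2.1], by rw [smul_mul_assoc, ha.2.2]⟩ } with hY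
  have hmem : ∀ a, a ∈ Y ↔ a ∈ Qn α P Kn (m + 1) ∧ h * a = a ∧ a * h' = a := fun a => Iff.rfl
  have hhm : h ∈ Qn α P Kn (m + 1) := Qn_mono hs.chain (Nat.le_succ m) hh.mem
  have hhm' : h' ∈ Qn α P Kn (m + 1) := Qn_mono hs.chain (Nat.le_succ m) hh'.mem
  have h1 : h * x * h' ∈ Y := by
    refine (hmem _).2 ⟨Qn_mul (Qn_mul hhm hx.1) hhm', ?_, ?_⟩
    · rw [← mul_assoc, ← mul_assoc, hh.idem]
    · rw [mul_assoc, hh'.idem]
  obtain ⟨z, hzY, hz0, χ, hχ⟩ := exists_wt hs (Nat.le_succ m) (by omega : m + 1 ≤ m + 2) Y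
    (fun y hy => ((hmem y).1 hy).1) (fun k hk y hy => by
      obtain ⟨h2, h3, h4⟩ := (hmem y).1 hy
      refine (hmem _).2 ⟨act_Qn hs (hs.chain.mono (Nat.zero_le m) hk) h2, ?_, ?_⟩
      · have h5 := congrArg (α k) h3
        rwa [map_mul, hh.mem.2 k hk] at h5
      · have h5 := congrArg (α k) h4
        rwa [map_mul, hh'.mem.2 k hk] at h5) h1 hne
  obtain ⟨hzQ, hhz, hzh⟩ := (hmem z).1 hzY
  have hfhs : h' * f = h' := by
    have h2 := congrArg star hfh'
    rwa [star_mul, hh'.sa, hf.1.sa] at h2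
  have hzf : z ∈ Cor α P Kn (m + 1) f := by
    refine ⟨hzQ, ?_, ?_⟩
    · rw [← hhz, ← mul_assoc, hfh]
    · rw [← hzh, mul_assoc, hfhs]
  have h2 : rs Kn m χ ∈ Sg α P Kn h m := by
    rw [hf.eq hs hnm hh hfh]
    exact rs_mem_Sg hzf hz0 hχ
  obtain ⟨_, u, hu, hu0, huw⟩ := h2
  have huw' : Wt α Kn m χ u := huw.congr fun k hk => rs_of_mem hk
  obtain ⟨c, hc0, hcu⟩ := inv_of' hs hh (by omega : m + 1 ≤ m + 2) huw' hu0 hu.1 hu.2.1
  -- `star u * z` lies in `A_m`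
  have h3 : star u * z ∈ Cor α P Kn m f := by
    have h4 : star u * z ∈ Cor α P Kn (m + 1) f :=
      Cor_mul (Cor_star hf.1.sa (Cor_le hf.1.sa hh.sa hfh hu)) hzf
    refine mem_Cor_of_wt (huw'.star.mul hχ) h4 fun k hk => ?_
    exact huw'.conj_mul hs hu0 (Qn_mono hs.chain (by omega) hu.1) hk
  have hh'C : h' ∈ Cor α P Kn m f := ⟨hh'.mem, hfh', hfhs⟩
  have h4 : star u * z = 0 := by
    have h5 : h * (star u * z) = star u * z := by
      have h6 : h * star u = star u := by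
        have h7 := congrArg star hu.2.2
        rwa [star_mul, hh.sa] at h7
      rw [← mul_assoc, h6]
    have h6 : star u * z * h' = star u * z := by rw [mul_assoc, hzh]
    rw [← h5, ← h6, hc _ h3 _ hh'C, ← mul_assoc, hhh, zero_mul]
  have h5 : u * (star u * z) = c • z := by rw [← mul_assoc, hcu, smul_mul_assoc, hhz]
  rw [h4, mul_zero] at h5
  exact (smul_ne_zero hc0 hz0) h5.symm

/-- Step (4). -/
theorem comm_succ (hs : Sys α P Kn p) (hf : Opt α P Kn n f) (hnm : n ≤ m)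
    (hc : ∀ x ∈ Cor α P Kn m f, ∀ y ∈ Cor α P Kn m f, x * y = y * x) :
    ∀ x ∈ Cor α P Kn (m + 1) f, ∀ y ∈ Cor α P Kn (m + 1) f, x * y = y * x := by
  classical
  obtain ⟨s, hs1, hs2, hs3⟩ := hs.dec n f m hf.1 hnm
  have hfh : ∀ h ∈ s, f * h = h := by
    intro h hh
    rw [← hs3, Finset.sum_mul, Finset.sum_eq_single_of_mem h hh fun b hb hbh => hs2 b hb h hh hbh]
    exact (hs1 h hh).idem
  have hhf : ∀ h ∈ s, h * f = h := by
    intro h hh
    have h2 := congrArg star (hfh h hh)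
    rwa [star_mul, (hs1 h hh).sa, hf.1.sa] at h2
  have h1 : ∀ h ∈ s, ∀ x ∈ Cor α P Kn (m + 1) f, h * x = h * x * h := by
    intro h hh x hx
    have h2 : h * x = h * x * ∑ h' ∈ s, h' := by rw [hs3, mul_assoc, hx.2.2]
    rw [h2, Finset.mul_sum, Finset.sum_eq_single_of_mem h hh fun b hb hbh =>
      disj hs hf hnm hc (hs1 h hh) (hs1 b hb) (hfh h hh) (hfh b hb) (hs2 h hh b hb hbh.symm) hx]
    rw [mul_assoc (h * x), (hs1 h hh).idem]
  have h1' : ∀ h ∈ s, ∀ x ∈ Cor α P Kn (m + 1) f, x * h = h * x * h := by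
    intro h hh x hx
    have h2 : x * h = (∑ h' ∈ s, h') * x * h := by rw [hs3, hx.2.1]
    rw [h2, Finset.sum_mul, Finset.sum_mul, Finset.sum_eq_single_of_mem h hh fun b hb hbh =>
      disj hs hf hnm hc (hs1 b hb) (hs1 h hh) (hfh b hb) (hfh h hh) (hs2 b hb h hh hbh) hx]
  have h3 : ∀ h ∈ s, ∀ x ∈ Cor α P Kn (m + 1) f, h * x * h ∈ Cor α P Kn (m + 1) h := by
    intro h hh x hx
    have hhm : h ∈ Qn α P Kn (m + 1) := Qn_mono hs.chain (Nat.le_succ m) (hs1 h hh).mem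
    refine ⟨Qn_mul (Qn_mul hhm hx.1) hhm, ?_, ?_⟩
    · rw [← mul_assoc, ← mul_assoc, (hs1 h hh).idem]
    · rw [mul_assoc, (hs1 h hh).idem]
  have h4 : ∀ x ∈ Cor α P Kn (m + 1) f, ∀ y ∈ Cor α P Kn (m + 1) f,
      x * y = ∑ h ∈ s, (h * x * h) * (h * y * h) := by
    intro x hx y hy
    have h5 : x * y = (∑ h' ∈ s, h') * (x * y) := by rw [hs3, ← mul_assoc, hx.2.1]
    rw [h5, Finset.sum_mul]
    refine Finset.sum_congr rfl fun h hh => ?_
    have h6 : h * x * h * (h * y * h) = h * x * (h * y * h) := by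
      rw [mul_assoc (h * x), ← mul_assoc h (h * y), ← mul_assoc h h, (hs1 h hh).idem]
    rw [h6, ← h1 h hh y hy, ← mul_assoc, ← mul_assoc (h * x), ← h1 h hh x hx]
  intro x hx y hy
  rw [h4 x hx y hy, h4 y hy x hx]
  refine Finset.sum_congr rfl fun h hh => ?_
  exact comm_one hs (hf.le hs hnm (hs1 h hh) (hfh h hh)) _ (h3 h hh x hx) _ (h3 h hh y hy)

/-- All the corners of an optimal projection are commutative. -/
theorem comm_all (hs : Sys α P Kn p) (hf : Opt α P Kn n f) :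
    ∀ m, ∀ x ∈ Cor α P Kn m f, ∀ y ∈ Cor α P Kn m f, x * y = y * x := by
  have h1 : ∀ m, n ≤ m → ∀ x ∈ Cor α P Kn m f, ∀ y ∈ Cor α P Kn m f, x * y = y * x := by
    intro m hm
    induction m, hm using Nat.le_induction with
    | base =>
      intro x hx y hy
      obtain ⟨c, rfl⟩ := hf.1.scal x hx
      obtain ⟨d, rfl⟩ := hf.1.scal y hy
      rw [smul_mul_smul_comm, smul_mul_smul_comm, mul_comm c d]
    | succ m hm ih => exact comm_succ hs hf hm ih
  intro m x hx y hy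
  rcases le_total n m with hm | hm
  · exact h1 m hm x hx y hy
  · exact h1 n le_rfl x (Cor_mono hs.chain hm hx) y (Cor_mono hs.chain hm hy)

/-- **Lemma T1''.**  `Sys` is: a chain of subgroups acting on `P`, and positivity.  If there is one
minimal projection of one fixed algebra, then there is an abelian one. -/
theorem main (hs : Sys α P Kn p) (hex : ∃ n e, MinP α P Kn n e) :
    ∃ n f, MinP α P Kn n f ∧ ∀ m, ∀ x ∈ Cor α P Kn m f, ∀ y ∈ Cor α P Kn m f,
      x * y = y * x := by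
  obtain ⟨n, f, hf⟩ := exists_opt hex
  exact ⟨n, f, hf.1, comm_all hs hf⟩

/-- The optimal form of T1''. -/
theorem main' (hs : Sys α P Kn p) (hex : ∃ n e, MinP α P Kn n e) :
    ∃ n f, Opt α P Kn n f ∧ ∀ m, ∀ x ∈ Cor α P Kn m f, ∀ y ∈ Cor α P Kn m f,
      x * y = y * x := by
  obtain ⟨n, f, hf⟩ := exists_opt hex
  exact ⟨n, f, hf, comm_all hs hf⟩

end Vale.Agent.P092.H175.T1
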