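import Vale.Agent.P092.H175.TOneC

/-!
P092 (helper175), team C: below a minimal projection all corners are finite dimensional, and their
projections are finite sums of minimal ones.
-/

set_option linter.all false

namespace Vale.Agent.P092.H175.T1

open scoped ComplexConjugate

variable {𝔸 K : Type} [Ring 𝔸] [StarRing 𝔸] [Algebra ℂ 𝔸] [StarModule ℂ 𝔸] [Group K]
variable {α : K →* (𝔸 →⋆ₐ[ℂ] 𝔸)} {P : NonUnitalStarSubalgebra ℂ 𝔸} {Kn : ℕ → Subgroup K}
variable {p : ℕ} {n m : ℕ} {e f x y z w h : 𝔸}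

/-- each weight space is finite dimensional -/
theorem fd_wt (hs : Sys α P Kn p) (he : MinP α P Kn n e) (hnm : n ≤ m)
    (hfd : FiniteDimensional ℂ (Cor α P Kn m e)) {χ : K → ℂ} (hχ : χ ∈ Sg α P Kn e m) :
    ∃ F : Submodule ℂ 𝔸, FiniteDimensional ℂ F ∧
      ∀ z ∈ Cor α P Kn (m + 1) e, Wt α Kn m χ z → z ∈ F := by
  classical
  obtain ⟨_, w, hw, hw0, hww⟩ := hχ
  obtain ⟨T, hT, c, hc0, hc⟩ := avg hs he (by omega : n ≤ m + 1) (Cor_star he.sa hw)
    (star_ne_zero.2 hw0)
  refine ⟨⨆ g : T, (Cor α P Kn m e).map (LinearMap.mulLeft ℂ (α (g : K) w)), inferInstance,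
    fun z hz hzw => ?_⟩
  have h1 : ∀ g ∈ T, α g w * (star (α g w) * z) ∈
      ⨆ g : T, (Cor α P Kn m e).map (LinearMap.mulLeft ℂ (α (g : K) w)) := by
    intro g hg
    refine Submodule.mem_iSup_of_mem (⟨g, hg⟩ : T) ?_
    refine Submodule.mem_map.2 ⟨star (α g w) * z, ?_, rfl⟩
    have hgn := hT g hg
    have hg0 : g ∈ Kn 0 := hs.chain.mono (Nat.zero_le n) hgn
    have h2 : α g w ∈ Cor α P Kn (m + 1) e := act_Cor hs he.mem hgn hw
    have h3 : Wt α Kn m χ (α g w) := wt_act hs (by omega) hww hw.1 hg0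
    refine mem_Cor_of_wt (h3.star.mul hzw) (Cor_mul (Cor_star he.sa h2) hz) fun k hk => ?_
    exact hww.conj_mul hs hw0 (Qn_mono hs.chain (by omega) hw.1) hk
  have h4 : c • z ∈ ⨆ g : T, (Cor α P Kn m e).map (LinearMap.mulLeft ℂ (α (g : K) w)) := by
    have h5 : c • z = ∑ g ∈ T, α g w * (star (α g w) * z) := by
      have h6 : ∑ g ∈ T, α g w * (star (α g w) * z) =
          (∑ g ∈ T, star (α g (star w)) * α g (star w)) * z := by
        rw [Finset.sum_mul]
        refine Finset.sum_congr rfl fun g _ => ?_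
        rw [map_star, star_star, mul_assoc]
      rw [h6, hc, smul_mul_assoc, hz.2.1]
    rw [h5]
    exact Submodule.sum_mem _ h1
  have h5 := Submodule.smul_mem _ c⁻¹ h4
  rwa [smul_smul, inv_mul_cancel₀ hc0, one_smul] at h5

/-- the corners of a minimal projection are finite dimensional -/
theorem fd (hs : Sys α P Kn p) (he : MinP α P Kn n e) (hnm : n ≤ m) :
    FiniteDimensional ℂ (Cor α P Kn m e) := by
  classical
  induction m, hnm using Nat.le_induction with
  | base =>
    have h1 : Cor α P Kn n e ≤ Submodule.span ℂ {e} := by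
      intro a ha
      obtain ⟨c, rfl⟩ := he.scal a ha
      exact Submodule.smul_mem _ c (Submodule.mem_span_singleton_self e)
    exact Submodule.finiteDimensional_of_le h1
  | succ m hnm ih =>
    haveI : Finite (Sg α P Kn e m) := (Sg_finite hs e m).to_subtype
    choose F hF hF' using fun χ : Sg α P Kn e m => fd_wt hs he hnm ih χ.2
    have h1 : Cor α P Kn (m + 1) e ≤ ⨆ χ : Sg α P Kn e m, F χ := by
      intro y hy
      have h2 := wt_span hs (Nat.le_succ m) (by omega : m + 1 ≤ m + 2) (Cor α P Kn (m + 1) e)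
        (fun y hy => hy.1)
        (fun k hk y hy => act_Cor hs (Qn_mono hs.chain hnm he.mem) hk hy) y hy
      refine (Submodule.span_le.2 ?_) h2
      rintro z ⟨hz, χ, hχ⟩
      by_cases hz0 : z = 0
      · rw [hz0]; exact zero_mem _
      have h3 : rs Kn m χ ∈ Sg α P Kn e m := rs_mem_Sg hz hz0 hχ
      exact Submodule.mem_iSup_of_mem (⟨_, h3⟩ : Sg α P Kn e m)
        (hF' ⟨_, h3⟩ z hz (hχ.congr fun k hk => (rs_of_mem hk).symm))
    haveI : ∀ χ, FiniteDimensional ℂ (F χ) := hF
    haveI : FiniteDimensional ℂ (⨆ χ : Sg α P Kn e m, F χ : Submodule ℂ 𝔸) :=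
      Submodule.finiteDimensional_iSup F
    exact Submodule.finiteDimensional_of_le h1

/-! ### spectral projections in finite dimensional corners -/

theorem eq_zero_of_star_mul (hs : Sys α P Kn p) {a : 𝔸} (h : star a * a = 0) : a = 0 := by
  by_contra h0
  exact star_mul_self_ne hs h0 h

/-- A normal element: `b b y = 0` implies `b y = 0`. -/
theorem normal_sq (hs : Sys α P Kn p) {b y : 𝔸} (hb : star b * b = b * star b)
    (h : b * (b * y) = 0) : b * y = 0 := by
  have h1 : star b * (b * y) = 0 := by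
    apply eq_zero_of_star_mul hs
    have h2 : star (star b * (b * y)) * (star b * (b * y)) =
        star y * (star b * ((b * star b) * (b * y))) := by
      simp only [star_mul, star_star, mul_assoc]
    rw [h2, ← hb]
    have h3 : star b * b * (b * y) = star b * (b * (b * y)) := by rw [mul_assoc]
    rw [h3, h]
    simp
  apply eq_zero_of_star_mul hs
  rw [star_mul, mul_assoc, h1, mul_zero]

/-- left multiplication by an element of the corner -/
noncomputable def lm (α : K →* (𝔸 →⋆ₐ[ℂ] 𝔸)) (P : NonUnitalStarSubalgebra ℂ 𝔸)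
    (Kn : ℕ → Subgroup K) (m : ℕ) (h a : 𝔸) (ha : a ∈ Cor α P Kn m h) :
    Module.End ℂ (Cor α P Kn m h) :=
  (LinearMap.mulLeft ℂ a).restrict (fun _ hx => Cor_mul ha hx)

theorem lm_apply (ha : w ∈ Cor α P Kn m h) (v : Cor α P Kn m h) :
    ((lm α P Kn m h w ha v : Cor α P Kn m h) : 𝔸) = w * (v : 𝔸) := rfl

/-- Spectral decomposition of a selfadjoint element of a finite dimensional corner. -/
theorem spec (hs : Sys α P Kn p) (hsa : star h = h) (hid : h * h = h) (hm : h ∈ Qn α P Kn m)
    (hfd : FiniteDimensional ℂ (Cor α P Kn m h)) (ha : w ∈ Cor α P Kn m h) (hw : star w = w) :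
    ∃ f : ℂ →₀ 𝔸, (∀ c, f c ∈ Cor α P Kn m h) ∧ (∀ c, star (f c) = f c) ∧
      (∀ c, f c * f c = f c) ∧ (∀ c, w * f c = c • f c) ∧ ∑ c ∈ f.support, f c = h := by
  classical
  set T := lm α P Kn m h w ha with hT
  have hhC : h ∈ Cor α P Kn m h := ⟨hm, hid, hid⟩
  -- generalised eigenvectors are eigenvectors
  have h1 : ∀ c : ℂ, ∀ y : Cor α P Kn m h, (((T - c • 1) y : Cor α P Kn m h) : 𝔸) =
      (w - c • h) * (y : 𝔸) := by
    intro c y
    have h2 : (((T - c • 1) y : Cor α P Kn m h) : 𝔸) = w * (y : 𝔸) - c • (y : 𝔸) := rfl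
    rw [h2, sub_mul, smul_mul_assoc, y.2.2.1]
  have hb : ∀ c : ℂ, star (w - c • h) * (w - c • h) = (w - c • h) * star (w - c • h) := by
    intro c
    rw [star_sub, star_smul, hw, hsa]
    simp only [sub_mul, mul_sub, smul_mul_assoc, mul_smul_comm, ha.2.1, ha.2.2, hid]
    rw [smul_sub, smul_sub, smul_comm (star c) c]
    abel
  have h2 : ∀ c : ℂ, ∀ y : Cor α P Kn m h, (T - c • 1) ((T - c • 1) y) = 0 →
      (T - c • 1) y = 0 := by
    intro c y hy
    apply Subtype.ext
    have h3 := congrArg Subtype.val hy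
    rw [h1, h1] at h3
    rw [h1]
    exact normal_sq hs (hb c) h3
  have h3 : ∀ c : ℂ, ∀ k : ℕ, ∀ y : Cor α P Kn m h, ((T - c • 1) ^ k) y = 0 →
      (T - c • 1) y = 0 := by
    intro c k
    induction k with
    | zero =>
      intro y hy
      rw [pow_zero] at hy
      have h4 : y = 0 := hy
      rw [h4, map_zero]
    | succ k ih =>
      intro y hy
      rw [pow_succ] at hy
      exact h2 c y (ih _ hy)
  have h4 : (⟨h, hhC⟩ : Cor α P Kn m h) ∈ ⨆ c : ℂ, T.maxGenEigenspace c := by
    rw [Module.End.iSup_maxGenEigenspace_eq_top]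
    exact Submodule.mem_top
  obtain ⟨g, hg, hgs⟩ := (Submodule.mem_iSup_iff_exists_finsupp _ _).1 h4
  have h5 : ∀ c, w * (g c : 𝔸) = c • (g c : 𝔸) := by
    intro c
    obtain ⟨k, hk⟩ := (Module.End.mem_maxGenEigenspace T c (g c)).1 (hg c)
    have h6 := congrArg Subtype.val (h3 c k (g c) hk)
    have h7 : (((T - c • 1) (g c) : Cor α P Kn m h) : 𝔸) = w * (g c : 𝔸) - c • (g c : 𝔸) := rfl
    rw [h7] at h6
    exact sub_eq_zero.1 h6
  set f : ℂ →₀ 𝔸 := g.mapRange (Subtype.val) rfl with hf
  have hfc : ∀ c, f c = (g c : 𝔸) := fun c => rfl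
  have hsupp : f.support = g.support := by
    ext c
    rw [Finsupp.mem_support_iff, Finsupp.mem_support_iff, hfc]
    exact not_congr (by
      constructor
      · intro h0; exact Subtype.ext h0
      · intro h0; rw [h0]; rfl)
  have hsum : ∑ c ∈ f.support, f c = h := by
    have h6 := congrArg Subtype.val hgs
    rw [hsupp]
    have h7 : ((∑ c ∈ g.support, g c : Cor α P Kn m h) : 𝔸) = ∑ c ∈ g.support, (g c : 𝔸) :=
      Submodule.coe_sum _ _ _
    exact h7.symm.trans h6
  have hC : ∀ c, f c ∈ Cor α P Kn m h := fun c => (g c).2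
  have hw' : ∀ c, w * f c = c • f c := h5
  have hreal : ∀ c, f c ≠ 0 → conj c = c := by
    intro c hc
    have h6 : star (f c) * (w * f c) = c • (star (f c) * f c) := by rw [hw', mul_smul_comm]
    have h7 : star (f c) * (w * f c) = conj c • (star (f c) * f c) := by
      have h8 : star (f c) * w = conj c • star (f c) := by
        have h9 := congrArg star (hw' c)
        rw [star_mul, hw, star_smul] at h9
        exact h9
      rw [← mul_assoc, h8, smul_mul_assoc]
    rw [h6] at h7
    exact (smul_left_injective ℂ (star_mul_self_ne hs hc) h7).symm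
  have horth : ∀ c d, c ≠ d → star (f c) * f d = 0 := by
    intro c d hcd
    by_cases hc0 : f c = 0
    · rw [hc0, star_zero, zero_mul]
    have h6 : star (f c) * (w * f d) = d • (star (f c) * f d) := by rw [hw', mul_smul_comm]
    have h7 : star (f c) * (w * f d) = c • (star (f c) * f d) := by
      have h8 : star (f c) * w = c • star (f c) := by
        have h9 := congrArg star (hw' c)
        rw [star_mul, hw, star_smul] at h9
        rw [h9]
        congr 1
        exact hreal c hc0
      rw [← mul_assoc, h8, smul_mul_assoc]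
    rw [h6] at h7
    by_contra h0
    exact hcd (smul_left_injective ℂ h0 h7).symm
  have hstar : ∀ c, star (f c) = star (f c) * f c := by
    intro c
    by_cases hc0 : f c = 0
    · rw [hc0, mul_zero, star_zero]
    have h6 : star (f c) = star (f c) * h := (Cor_star hsa (hC c)).2.2.symm
    have h7 : c ∈ f.support := Finsupp.mem_support_iff.2 hc0
    rw [← hsum, Finset.mul_sum, Finset.sum_eq_single_of_mem c h7
      fun d _ hdc => horth c d hdc.symm] at h6
    exact h6
  have hsaf : ∀ c, star (f c) = f c := by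
    intro c
    have h6 := congrArg star (hstar c)
    rw [star_mul, star_star] at h6
    rw [hstar c]
    exact h6.symm
  refine ⟨f, hC, hsaf, fun c => ?_, hw', hsum⟩
  have h6 := hstar c
  rw [hsaf c] at h6
  exact h6.symm

/-- A projection which is not minimal can be reduced. -/
theorem red (hs : Sys α P Kn p) (hsa : star h = h) (hid : h * h = h) (hm : h ∈ Qn α P Kn m)
    (h0 : h ≠ 0) (hfd : FiniteDimensional ℂ (Cor α P Kn m h)) (hno : ¬ MinP α P Kn m h) :
    ∃ h', star h' = h' ∧ h' * h' = h' ∧ h' ∈ Qn α P Kn m ∧ h' ≠ 0 ∧ h' ≠ h ∧ h * h' = h' := by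
  classical
  have h1 : ∃ a ∈ Cor α P Kn m h, ∀ c : ℂ, a ≠ c • h := by
    by_contra hcon
    push Not at hcon
    exact hno ⟨hm, hsa, hid, h0, hcon⟩
  -- a selfadjoint one
  have h2 : ∃ a ∈ Cor α P Kn m h, star a = a ∧ ∀ c : ℂ, a ≠ c • h := by
    obtain ⟨a, ha, hac⟩ := h1
    by_contra hcon
    push Not at hcon
    have haS := Cor_star hsa ha
    obtain ⟨c, hc⟩ := hcon (a + star a) (add_mem ha haS) (by rw [star_add, star_star, add_comm])
    obtain ⟨d, hd⟩ := hcon (Complex.I • (a - star a))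
      (Submodule.smul_mem _ _ (sub_mem ha haS)) (by
        rw [star_smul, star_sub, star_star, Complex.star_def, Complex.conj_I, neg_smul, ← smul_neg,
          neg_sub])
    refine hac ((1 / 2 : ℂ) * (c - Complex.I * d)) ?_
    have h3 : a - star a = (-Complex.I * d) • h := by
      rw [mul_smul, ← hd, smul_smul]
      simp
    have h4 : a = (1 / 2 : ℂ) • ((a + star a) + (a - star a)) := by
      rw [add_add_sub_cancel, ← two_smul ℂ a, smul_smul]
      norm_num
    rw [h4, hc, h3, ← add_smul, smul_smul]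
    congr 1
    ring
  obtain ⟨a, ha, hsaa, hac⟩ := h2
  obtain ⟨f, hf1, hf2, hf3, hf4, hf5⟩ := spec hs hsa hid hm hfd ha hsaa
  have h3 : ∃ c, f c ≠ 0 := by
    by_contra hcon
    push Not at hcon
    apply h0
    rw [← hf5]
    exact Finset.sum_eq_zero fun c _ => hcon c
  obtain ⟨c, hc⟩ := h3
  refine ⟨f c, hf2 c, hf3 c, (hf1 c).1, hc, ?_, (hf1 c).2.1⟩
  intro hch
  apply hac c
  have h4 := hf4 c
  rw [hch, ha.2.2] at h4
  exact h4

theorem Cor_lt (hsa : star h = h) (hid : h * h = h) (hm : h ∈ Qn α P Kn m) {h' : 𝔸}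
    (hsa' : star h' = h') (hne : h' ≠ h) (hhh : h * h' = h') :
    Cor α P Kn m h' < Cor α P Kn m h := by
  refine lt_of_le_of_ne (Cor_le hsa hsa' hhh) fun heq => hne ?_
  have h1 : h ∈ Cor α P Kn m h' := by
    rw [heq]; exact ⟨hm, hid, hid⟩
  have h2 : h' * h = h := h1.2.1
  have h3 : h' * h = h' := by
    have h4 := congrArg star hhh
    rwa [star_mul, hsa', hsa] at h4
  rw [← h3, h2]

theorem exists_min_aux (hs : Sys α P Kn p) : ∀ d : ℕ, ∀ h : 𝔸, star h = h → h * h = h →
    h ∈ Qn α P Kn m → h ≠ 0 → FiniteDimensional ℂ (Cor α P Kn m h) →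
    Module.finrank ℂ (Cor α P Kn m h) ≤ d → ∃ h', MinP α P Kn m h' ∧ h * h' = h' := by
  intro d
  induction d with
  | zero =>
    intro h hsa hid hm h0 hfd hd
    exfalso
    have h1 := Module.finrank_zero_iff.1 (Nat.le_zero.1 hd)
    have h2 : (⟨h, hm, hid, hid⟩ : Cor α P Kn m h) = 0 := Subsingleton.elim _ _
    exact h0 (congrArg Subtype.val h2)
  | succ d ih =>
    intro h hsa hid hm h0 hfd hd
    by_cases hmin : MinP α P Kn m h
    · exact ⟨h, hmin, hid⟩
    obtain ⟨h', hsa', hid', hm', h0', hne, hhh⟩ := red hs hsa hid hm h0 hfd hmin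
    have hlt := Cor_lt hsa hid hm hsa' hne hhh
    have hfd' : FiniteDimensional ℂ (Cor α P Kn m h') := Submodule.finiteDimensional_of_le hlt.le
    have h1 := Submodule.finrank_lt_finrank_of_lt hlt
    obtain ⟨h'', hmin'', h2⟩ := ih h' hsa' hid' hm' h0' hfd' (by omega)
    refine ⟨h'', hmin'', ?_⟩
    rw [← h2, ← mul_assoc, hhh]

/-- Below a minimal projection there are minimal projections of the later levels. -/
theorem Sys.minex (hs : Sys α P Kn p) (n : ℕ) (e : 𝔸) (he : MinP α P Kn n e) (m : ℕ)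
    (hnm : n ≤ m) : ∃ h, MinP α P Kn m h ∧ e * h = h :=
  exists_min_aux hs _ e he.sa he.idem (Qn_mono hs.chain hnm he.mem) he.ne (fd hs he hnm) le_rfl

theorem dec_aux (hs : Sys α P Kn p) : ∀ d : ℕ, ∀ h : 𝔸, star h = h → h * h = h →
    h ∈ Qn α P Kn m → FiniteDimensional ℂ (Cor α P Kn m h) →
    Module.finrank ℂ (Cor α P Kn m h) ≤ d → ∃ s : Finset 𝔸, (∀ g ∈ s, MinP α P Kn m g) ∧
      (∀ g ∈ s, ∀ g' ∈ s, g ≠ g' → g * g' = 0) ∧ ∑ g ∈ s, g = h := by
  classical
  intro d
  induction d with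
  | zero =>
    intro h hsa hid hm hfd hd
    have h1 := Module.finrank_zero_iff.1 (Nat.le_zero.1 hd)
    have h2 : (⟨h, hm, hid, hid⟩ : Cor α P Kn m h) = 0 := Subsingleton.elim _ _
    refine ⟨∅, by simp, by simp, ?_⟩
    rw [Finset.sum_empty]
    exact (congrArg Subtype.val h2).symm
  | succ d ih =>
    intro h hsa hid hm hfd hd
    by_cases h0 : h = 0
    · exact ⟨∅, by simp, by simp, by rw [Finset.sum_empty, h0]⟩
    obtain ⟨g, hg, hhg⟩ := exists_min_aux hs _ h hsa hid hm h0 hfd le_rfl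
    have hgh : g * h = g := by
      have h4 := congrArg star hhg
      rwa [star_mul, hg.sa, hsa] at h4
    set h' := h - g with hh'
    have hsa' : star h' = h' := by rw [hh', star_sub, hsa, hg.sa]
    have hid' : h' * h' = h' := by
      rw [hh', sub_mul, mul_sub, mul_sub, hid, hhg, hgh, hg.idem, sub_self, sub_zero]
    have hhh : h * h' = h' := by rw [hh', mul_sub, hid, hhg]
    have hne : h' ≠ h := by
      intro heq
      apply hg.ne
      have h5 : h - g = h := heq
      exact sub_eq_self.1 h5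
    have hm' : h' ∈ Qn α P Kn m := sub_mem hm hg.mem
    have hlt := Cor_lt hsa hid hm hsa' hne hhh
    have hfd' : FiniteDimensional ℂ (Cor α P Kn m h') := Submodule.finiteDimensional_of_le hlt.le
    have h1 := Submodule.finrank_lt_finrank_of_lt hlt
    obtain ⟨s, hs1, hs2, hs3⟩ := ih h' hsa' hid' hm' hfd' (by omega)
    have hgh' : g * h' = 0 := by rw [hh', mul_sub, hgh, hg.idem, sub_self]
    have hs4 : ∀ t ∈ s, h' * t = t := by
      intro t ht
      rw [← hs3, Finset.sum_mul, Finset.sum_eq_single_of_mem t ht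
        fun b hb hbt => hs2 b hb t ht hbt]
      exact (hs1 t ht).idem
    have hs5 : ∀ t ∈ s, g * t = 0 := by
      intro t ht
      rw [← hs4 t ht, ← mul_assoc, hgh', zero_mul]
    have hs6 : ∀ t ∈ s, t * g = 0 := by
      intro t ht
      have h6 := congrArg star (hs5 t ht)
      rwa [star_mul, star_zero, hg.sa, (hs1 t ht).sa] at h6
    have hgs : g ∉ s := by
      intro hgs
      have h6 := hs5 g hgs
      rw [hg.idem] at h6
      exact hg.ne h6
    refine ⟨insert g s, ?_, ?_, ?_⟩
    · intro t ht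
      rcases Finset.mem_insert.1 ht with rfl | ht
      · exact hg
      · exact hs1 t ht
    · intro t ht t' ht' htt
      rcases Finset.mem_insert.1 ht with h6 | h6
      · rcases Finset.mem_insert.1 ht' with h7 | h7
        · exact absurd (h6.trans h7.symm) htt
        · rw [h6]
          exact hs5 t' h7
      · rcases Finset.mem_insert.1 ht' with h7 | h7
        · rw [h7]
          exact hs6 t h6
        · exact hs2 t h6 t' h7 htt
    · rw [Finset.sum_insert hgs, hs3, hh', add_sub_cancel]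

/-- Projections below a minimal projection are finite sums of minimal projections. -/
theorem Sys.dec (hs : Sys α P Kn p) (n : ℕ) (e : 𝔸) (m : ℕ) (he : MinP α P Kn n e) (hnm : n ≤ m) :
    ∃ s : Finset 𝔸, (∀ h ∈ s, MinP α P Kn m h) ∧ (∀ h ∈ s, ∀ h' ∈ s, h ≠ h' → h * h' = 0) ∧
      ∑ h ∈ s, h = e :=
  dec_aux hs _ e he.sa he.idem (Qn_mono hs.chain hnm he.mem) (fd hs he hnm) le_rfl

end Vale.Agent.P092.H175.T1
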