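import Vale.Agent.P092.H175.TOneD

/-!
P092 (helper175), team C: the structure of the abelian corner given by T1'': atoms, transitivity,
cardinalities, weight vectors.
-/

set_option linter.all false

namespace Vale.Agent.P092.H175.T1

open scoped ComplexConjugate

variable {𝔸 K : Type} [Ring 𝔸] [StarRing 𝔸] [Algebra ℂ 𝔸] [StarModule ℂ 𝔸] [Group K]
variable {α : K →* (𝔸 →⋆ₐ[ℂ] 𝔸)} {P : NonUnitalStarSubalgebra ℂ 𝔸} {Kn : ℕ → Subgroup K}
variable {p : ℕ} {n m : ℕ} {e f x y z w h : 𝔸}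

/-- the power map on weights is onto, at all levels -/
theorem Opt.onto' (hs : Sys α P Kn p) (hf : Opt α P Kn n f) (hnm : n ≤ m) {χ : K → ℂ}
    (hχ : χ ∈ Sg α P Kn f m) : ∃ ψ ∈ Sg α P Kn f (m + 1), pw Kn p m ψ = χ := by
  obtain ⟨h, hh, hfh⟩ := hs.minex n f hf.1 m hnm
  have h1 := hf.le hs hnm hh hfh
  rw [← hf.eq hs hnm hh hfh] at hχ
  obtain ⟨ψ, hψ, h2⟩ := h1.onto hs hχ
  exact ⟨ψ, Sg_sub hf.1.sa hh.sa hfh hψ, h2⟩

/-- the number of weights does not depend on the level -/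
theorem Opt.ncard (hs : Sys α P Kn p) (hf : Opt α P Kn n f) (hnm : n ≤ m) :
    (Sg α P Kn f m).ncard = (Sg α P Kn f n).ncard := by
  obtain ⟨h, hh, hfh⟩ := hs.minex n f hf.1 m hnm
  refine le_antisymm (Sg_le hs hf.1 hnm) ?_
  rw [← hf.eq hs hnm hh hfh]
  exact hf.2 m h hh

/-- translates of minimal projections -/
theorem MinP.act (hs : Sys α P Kn p) (hh : MinP α P Kn m h) {g : K} (hg : g ∈ Kn 0) :
    MinP α P Kn m (α g h) := by
  refine ⟨act_Qn hs hg hh.mem, by rw [← map_star, hh.sa], by rw [← map_mul, hh.idem],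
    fun h0 => hh.ne (alpha_inj h0), fun a ha => ?_⟩
  have hg' : g⁻¹ ∈ Kn 0 := (Kn 0).inv_mem hg
  have h1 : α g (α g⁻¹ a) = a := by
    rw [← alpha_mul, mul_inv_cancel, map_one]; rfl
  have h2 : α g⁻¹ a ∈ Cor α P Kn m h := by
    refine ⟨act_Qn hs hg' ha.1, ?_, ?_⟩
    · have h3 := congrArg (α g⁻¹) ha.2.1
      rwa [map_mul, alpha_inv] at h3
    · have h3 := congrArg (α g⁻¹) ha.2.2
      rwa [map_mul, alpha_inv] at h3
  obtain ⟨c, hc⟩ := hh.scal _ h2
  refine ⟨c, ?_⟩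
  rw [← h1, hc, map_smul]

/-! ### atoms -/

variable (α P Kn) in
/-- the minimal projections of `A_m` below `f` -/
def atoms (f : 𝔸) (m : ℕ) : Set 𝔸 := {h | MinP α P Kn m h ∧ f * h = h}

theorem atoms_cor (hsa : star f = f) (hh : h ∈ atoms α P Kn f m) : h ∈ Cor α P Kn m f := by
  refine ⟨hh.1.mem, hh.2, ?_⟩
  have h1 := congrArg star hh.2
  rwa [star_mul, hsa, hh.1.sa] at h1

/-- two commuting minimal projections are equal or orthogonal -/
theorem MinP.eq_of_comm {g : 𝔸} (hh : MinP α P Kn m h) (hg : MinP α P Kn m g)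
    (hc : h * g = g * h) (h0 : h * g ≠ 0) : h = g := by
  have h1 : h * g ∈ Cor α P Kn m h := by
    refine ⟨Qn_mul hh.mem hg.mem, by rw [← mul_assoc, hh.idem], ?_⟩
    rw [mul_assoc, ← hc, ← mul_assoc, hh.idem]
  have h2 : h * g ∈ Cor α P Kn m g := by
    refine ⟨Qn_mul hh.mem hg.mem, ?_, by rw [mul_assoc, hg.idem]⟩
    rw [hc, ← mul_assoc, hg.idem]
  obtain ⟨c, hc1⟩ := hh.scal _ h1
  obtain ⟨d, hd1⟩ := hg.scal _ h2
  have hidem : (h * g) * (h * g) = h * g := by
    rw [mul_assoc, ← mul_assoc g h g, ← hc, mul_assoc h g g, hg.idem, ← mul_assoc, hh.idem]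
  have aux : ∀ (c : ℂ) (k : 𝔸), k * k = k → k ≠ 0 → h * g = c • k → h * g = k := by
    intro c k hk hk0 hck
    have hc0 : c ≠ 0 := by
      rintro rfl
      rw [zero_smul] at hck
      exact h0 hck
    have h3 : (c * c) • k = c • k := by
      rw [← hck, ← hidem, hck, smul_mul_smul_comm, hk]
    have h4 : c * c = c := smul_left_injective ℂ hk0 h3
    have h5 : c = 1 := mul_left_cancel₀ hc0 (by rw [h4, mul_one])
    rw [hck, h5, one_smul]
  rw [← aux c h hh.idem hh.ne hc1]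
  exact aux d g hg.idem hg.ne hd1

theorem exists_atoms (hs : Sys α P Kn p) (he : MinP α P Kn n e) (hnm : n ≤ m)
    (hcm : ∀ x ∈ Cor α P Kn m e, ∀ y ∈ Cor α P Kn m e, x * y = y * x) :
    ∃ X : Finset 𝔸, (∀ h, h ∈ X ↔ h ∈ atoms α P Kn e m) ∧
      (∀ h ∈ X, ∀ h' ∈ X, h ≠ h' → h * h' = 0) ∧ ∑ h ∈ X, h = e := by
  classical
  obtain ⟨s, hs1, hs2, hs3⟩ := hs.dec n e m he hnm
  have hes : ∀ h ∈ s, e * h = h := by
    intro h hh
    rw [← hs3, Finset.sum_mul, Finset.sum_eq_single_of_mem h hh fun b hb hbh => hs2 b hb h hh hbh]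
    exact (hs1 h hh).idem
  refine ⟨s, fun h => ⟨fun hh => ⟨hs1 h hh, hes h hh⟩, fun hh => ?_⟩, hs2, hs3⟩
  have h1 : ∃ g ∈ s, g * h ≠ 0 := by
    by_contra hcon
    push Not at hcon
    apply hh.1.ne
    rw [← hh.2, ← hs3, Finset.sum_mul]
    exact Finset.sum_eq_zero hcon
  obtain ⟨g, hg, hgh⟩ := h1
  have h2 : g * h = h * g :=
    hcm _ (atoms_cor he.sa ⟨hs1 g hg, hes g hg⟩) _ (atoms_cor he.sa hh)
  rw [← MinP.eq_of_comm (hs1 g hg) hh.1 h2 hgh]
  exact hg

theorem atoms_finite (hs : Sys α P Kn p) (he : MinP α P Kn n e) (hnm : n ≤ m)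
    (hcm : ∀ x ∈ Cor α P Kn m e, ∀ y ∈ Cor α P Kn m e, x * y = y * x) :
    (atoms α P Kn e m).Finite := by
  obtain ⟨X, hX, _⟩ := exists_atoms hs he hnm hcm
  exact X.finite_toSet.subset fun h hh => (hX h).2 hh

theorem atoms_orth (hs : Sys α P Kn p) (he : MinP α P Kn n e)
    (hcm : ∀ x ∈ Cor α P Kn m e, ∀ y ∈ Cor α P Kn m e, x * y = y * x) {h h' : 𝔸}
    (hh : h ∈ atoms α P Kn e m) (hh' : h' ∈ atoms α P Kn e m) (hne : h ≠ h') : h * h' = 0 := by
  by_contra h0
  exact hne (MinP.eq_of_comm hh.1 hh'.1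
    (hcm _ (atoms_cor he.sa hh) _ (atoms_cor he.sa hh')) h0)

/-- `K_n` permutes the atoms transitively. -/
theorem atoms_act (hs : Sys α P Kn p) (he : MinP α P Kn n e) (hh : h ∈ atoms α P Kn e m) {g : K}
    (hg : g ∈ Kn n) : α g h ∈ atoms α P Kn e m := by
  refine ⟨hh.1.act hs (hs.chain.mono (Nat.zero_le n) hg), ?_⟩
  have h1 := congrArg (α g) hh.2
  rwa [map_mul, he.mem.2 g hg] at h1

theorem atoms_trans (hs : Sys α P Kn p) (he : MinP α P Kn n e) (hnm : n ≤ m)
    (hcm : ∀ x ∈ Cor α P Kn m e, ∀ y ∈ Cor α P Kn m e, x * y = y * x) {h h' : 𝔸}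
    (hh : h ∈ atoms α P Kn e m) (hh' : h' ∈ atoms α P Kn e m) : ∃ g ∈ Kn n, α g h = h' := by
  obtain ⟨g, hg, h1⟩ := sup hs he hnm (atoms_cor he.sa hh) (atoms_cor he.sa hh') hh.1.ne hh'.1.ne
  refine ⟨g, hg, ?_⟩
  by_contra hne
  exact h1 (atoms_orth hs he hcm (atoms_act hs he hh hg) hh' hne)

/-! ### dimensions -/

/-- Vectors with different weights are independent. -/
theorem wt_indep (S : Finset (K → ℂ)) (z : (K → ℂ) → 𝔸) (hz : ∀ χ ∈ S, Wt α Kn m χ (z χ))
    (hS : ∀ χ ∈ S, ∀ ψ ∈ S, χ ≠ ψ → ∃ k ∈ Kn m, χ k ≠ ψ k) (h0 : ∑ χ ∈ S, z χ = 0) :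
    ∀ χ ∈ S, z χ = 0 := by
  classical
  induction S using Finset.induction_on generalizing z with
  | empty => intro χ hχ; exact absurd hχ (Finset.notMem_empty _)
  | insert χ₀ S hχ₀ ih =>
    have h1 : ∀ χ ∈ S, z χ = 0 := by
      intro χ hχ
      have hne : χ ≠ χ₀ := fun h => hχ₀ (h ▸ hχ)
      obtain ⟨k, hk, hkχ⟩ := hS χ (Finset.mem_insert_of_mem hχ) χ₀ (Finset.mem_insert_self _ _) hne
      have h2 : ∑ χ ∈ S, (χ k - χ₀ k) • z χ = 0 := by
        have h3 : α k (∑ χ ∈ insert χ₀ S, z χ) - χ₀ k • ∑ χ ∈ insert χ₀ S, z χ = 0 := by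
          rw [h0, map_zero, smul_zero, sub_zero]
        rw [Finset.sum_insert hχ₀, map_add, map_sum, smul_add, Finset.smul_sum,
          hz χ₀ (Finset.mem_insert_self _ _) k hk, add_sub_add_left_eq_sub,
          ← Finset.sum_sub_distrib] at h3
        rw [← h3]
        refine Finset.sum_congr rfl fun ψ hψ => ?_
        rw [hz ψ (Finset.mem_insert_of_mem hψ) k hk, sub_smul]
      have h4 := ih (fun χ => (χ k - χ₀ k) • z χ)
        (fun ψ hψ l hl => by
          rw [map_smul, hz ψ (Finset.mem_insert_of_mem hψ) l hl, smul_comm])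
        (fun χ hχ ψ hψ => hS χ (Finset.mem_insert_of_mem hχ) ψ (Finset.mem_insert_of_mem hψ)) h2
        χ hχ
      exact (smul_eq_zero.1 h4).resolve_left (sub_ne_zero.2 hkχ)
    intro χ hχ
    rcases Finset.mem_insert.1 hχ with h2 | h2
    · rw [Finset.sum_insert hχ₀, Finset.sum_eq_zero h1, add_zero] at h0
      rw [h2, h0]
    · exact h1 χ h2

/-- elements of `Sg` are determined by their values on `K_m` -/
theorem Sg_ext {χ ψ : K → ℂ} (hχ : χ ∈ Sg α P Kn e m) (hψ : ψ ∈ Sg α P Kn e m) (hne : χ ≠ ψ) :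
    ∃ k ∈ Kn m, χ k ≠ ψ k := by
  by_contra hcon
  push Not at hcon
  apply hne
  funext k
  by_cases hk : k ∈ Kn m
  · exact hcon k hk
  · rw [hχ.1 k hk, hψ.1 k hk]

/-- The dimension of the corner at the next level is the number of weights. -/
theorem finrank_Cor (hs : Sys α P Kn p) (hh : MinP α P Kn m h) :
    Module.finrank ℂ (Cor α P Kn (m + 1) h) = (Sg α P Kn h m).ncard := by
  classical
  haveI : Finite (Sg α P Kn h m) := (Sg_finite hs h m).to_subtype
  haveI : Fintype (Sg α P Kn h m) := Fintype.ofFinite _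
  have hex : ∀ χ : Sg α P Kn h m, ∃ u ∈ Cor α P Kn (m + 1) h, u ≠ 0 ∧ Wt α Kn m (χ : K → ℂ) u :=
    fun χ => χ.2.2
  choose u hu hu0 huw using hex
  have hli : LinearIndependent ℂ u := by
    rw [linearIndependent_iff']
    intro s c hc χ hχ
    have h1 := wt_indep (α := α) (Kn := Kn) (m := m) (s.map ⟨Subtype.val, Subtype.val_injective⟩)
      (fun ψ => if hψ : ψ ∈ Sg α P Kn h m then c ⟨ψ, hψ⟩ • u ⟨ψ, hψ⟩ else 0) ?_ ?_ ?_
      (χ : K → ℂ) (Finset.mem_map.2 ⟨χ, hχ, rfl⟩)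
    · simp only [dif_pos χ.2] at h1
      exact (smul_eq_zero.1 h1).resolve_right (hu0 _)
    · intro ψ hψ
      obtain ⟨ψ', _, rfl⟩ := Finset.mem_map.1 hψ
      intro k hk
      simp only [Function.Embedding.coeFn_mk, dif_pos ψ'.2]
      rw [map_smul, huw ψ' k hk, smul_comm]
    · intro χ₁ h1 χ₂ h2 hne
      obtain ⟨ψ₁, _, rfl⟩ := Finset.mem_map.1 h1
      obtain ⟨ψ₂, _, rfl⟩ := Finset.mem_map.1 h2
      exact Sg_ext ψ₁.2 ψ₂.2 hne
    · rw [Finset.sum_map, ← hc]
      refine Finset.sum_congr rfl fun ψ _ => ?_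
      simp only [Function.Embedding.coeFn_mk, dif_pos ψ.2]
  have hspan : Submodule.span ℂ (Set.range u) = Cor α P Kn (m + 1) h := by
    apply le_antisymm
    · rw [Submodule.span_le]
      rintro _ ⟨χ, rfl⟩
      exact hu χ
    · intro y hy
      have h2 := wt_span hs (Nat.le_succ m) (by omega : m + 1 ≤ m + 2) (Cor α P Kn (m + 1) h)
        (fun y hy => hy.1) (fun k hk y hy => act_Cor hs hh.mem hk hy) y hy
      refine (Submodule.span_le.2 ?_) h2
      rintro z ⟨hz, χ, hχ⟩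
      by_cases hz0 : z = 0
      · rw [hz0]; exact zero_mem _
      have h3 : rs Kn m χ ∈ Sg α P Kn h m := rs_mem_Sg hz hz0 hχ
      obtain ⟨c, hc⟩ := propor hs hh (by omega : m + 1 ≤ m + 2) (huw ⟨_, h3⟩) hχ (hu0 ⟨_, h3⟩)
        (hu ⟨_, h3⟩) hz (fun k hk => (rs_of_mem hk).symm)
      rw [hc]
      exact Submodule.smul_mem _ _ (Submodule.subset_span ⟨_, rfl⟩)
  rw [← hspan, finrank_span_eq_card hli, ← Nat.card_coe_set_eq, Nat.card_eq_fintype_card]

/-- The dimension of a commutative corner is the number of atoms. -/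
theorem finrank_atoms (hs : Sys α P Kn p) (he : MinP α P Kn n e) (hnm : n ≤ m)
    (hcm : ∀ x ∈ Cor α P Kn m e, ∀ y ∈ Cor α P Kn m e, x * y = y * x) :
    Module.finrank ℂ (Cor α P Kn m e) = (atoms α P Kn e m).ncard := by
  classical
  obtain ⟨X, hX, hX1, hX2⟩ := exists_atoms hs he hnm hcm
  have hset : atoms α P Kn e m = (X : Set 𝔸) := by
    ext h; rw [Finset.mem_coe, hX]
  have hli : LinearIndependent ℂ (fun h : X => (h : 𝔸)) := by
    rw [linearIndependent_iff']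
    intro s c hc g hg
    have h1 : (∑ i ∈ s, c i • (i : 𝔸)) * (g : 𝔸) = 0 := by rw [hc, zero_mul]
    rw [Finset.sum_mul, Finset.sum_eq_single_of_mem g hg, smul_mul_assoc,
      ((hX _).1 g.2).1.idem] at h1
    · exact (smul_eq_zero.1 h1).resolve_right ((hX _).1 g.2).1.ne
    · intro b _ hbg
      rw [smul_mul_assoc, hX1 b b.2 g g.2 fun h => hbg (Subtype.ext h), smul_zero]
  have hspan : Submodule.span ℂ (Set.range fun h : X => (h : 𝔸)) = Cor α P Kn m e := by
    apply le_antisymm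
    · rw [Submodule.span_le]
      rintro _ ⟨h, rfl⟩
      exact atoms_cor he.sa ((hX _).1 h.2)
    · intro x hx
      have h1 : x = ∑ h ∈ X, x * h := by rw [← Finset.mul_sum, hX2, hx.2.2]
      rw [h1]
      refine Submodule.sum_mem _ fun h hh => ?_
      have hha := (hX h).1 hh
      have h2 : x * h ∈ Cor α P Kn m h := by
        have hhC := atoms_cor he.sa hha
        refine ⟨Qn_mul hx.1 hha.1.mem, ?_, by rw [mul_assoc, hha.1.idem]⟩
        rw [hcm x hx h hhC, ← mul_assoc, hha.1.idem]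
      obtain ⟨c, hc⟩ := hha.1.scal _ h2
      rw [hc]
      exact Submodule.smul_mem _ _ (Submodule.subset_span ⟨⟨h, hh⟩, rfl⟩)
  rw [← hspan, finrank_span_eq_card hli, hset, Set.ncard_coe_finset, Fintype.card_coe]

/-- The number of atoms. -/
theorem card_atoms (hs : Sys α P Kn p) (hf : Opt α P Kn n f) (hnm : n ≤ m) :
    (atoms α P Kn f m).ncard = (Sg α P Kn f n).ncard ^ (m - n) := by
  classical
  induction m, hnm using Nat.le_induction with
  | base =>
    rw [Nat.sub_self, pow_zero, ← finrank_atoms hs hf.1 le_rfl (comm_all hs hf n)]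
    have h1 : Cor α P Kn n f = Submodule.span ℂ {f} := by
      apply le_antisymm
      · intro a ha
        obtain ⟨c, rfl⟩ := hf.1.scal a ha
        exact Submodule.smul_mem _ c (Submodule.mem_span_singleton_self f)
      · rw [Submodule.span_singleton_le_iff_mem]
        exact hf.1.self_mem
    rw [h1]
    exact finrank_span_singleton hf.1.ne
  | succ m hnm ih =>
    obtain ⟨X, hX, hX1, hX2⟩ := exists_atoms hs hf.1 hnm (comm_all hs hf m)
    obtain ⟨Y, hY, hY1, hY2⟩ := exists_atoms hs hf.1 (by omega : n ≤ m + 1) (comm_all hs hf (m + 1))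
    have hopt : ∀ h ∈ X, Opt α P Kn m h := fun h hh =>
      hf.le hs hnm ((hX h).1 hh).1 ((hX h).1 hh).2
    have hZ : ∀ h : X, ∃ Z : Finset 𝔸, ∀ g, g ∈ Z ↔ g ∈ atoms α P Kn (h : 𝔸) (m + 1) := by
      intro h
      obtain ⟨Z, hZ, _⟩ := exists_atoms hs (hopt h h.2).1 (Nat.le_succ m)
        (comm_all hs (hopt h h.2) (m + 1))
      exact ⟨Z, hZ⟩
    choose Z hZ using hZ
    have hXm : (atoms α P Kn f m).ncard = X.card := by
      have h1 : atoms α P Kn f m = (X : Set 𝔸) := by ext h; rw [Finset.mem_coe, hX]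
      rw [h1, Set.ncard_coe_finset]
    have hYm : (atoms α P Kn f (m + 1)).ncard = Y.card := by
      have h1 : atoms α P Kn f (m + 1) = (Y : Set 𝔸) := by ext h; rw [Finset.mem_coe, hY]
      rw [h1, Set.ncard_coe_finset]
    have hcardZ : ∀ h : X, (Z h).card = (Sg α P Kn f n).ncard := by
      intro h
      have h1 : atoms α P Kn (h : 𝔸) (m + 1) = (Z h : Set 𝔸) := by ext g; rw [Finset.mem_coe, hZ]
      rw [← Set.ncard_coe_finset, ← h1, ← finrank_atoms hs (hopt h h.2).1 (Nat.le_succ m)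
        (comm_all hs (hopt h h.2) (m + 1)), finrank_Cor hs (hopt h h.2).1,
        hf.eq hs hnm ((hX h).1 h.2).1 ((hX h).1 h.2).2, hf.ncard hs hnm]
    have hYZ : Y = (Finset.univ : Finset X).biUnion Z := by
      ext g
      rw [hY, Finset.mem_biUnion]
      constructor
      · intro hg
        have h1 : ∃ h ∈ X, h * g ≠ 0 := by
          by_contra hcon
          push Not at hcon
          apply hg.1.ne
          rw [← hg.2, ← hX2, Finset.sum_mul]
          exact Finset.sum_eq_zero hcon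
        obtain ⟨h, hh, hhg⟩ := h1
        refine ⟨⟨h, hh⟩, Finset.mem_univ _, (hZ _ g).2 ⟨hg.1, ?_⟩⟩
        -- `h * g` is a non-zero projection below `g`
        have hhC : h ∈ Cor α P Kn (m + 1) f :=
          Cor_mono hs.chain (Nat.le_succ m) (atoms_cor hf.1.sa ((hX h).1 hh))
        have hc : h * g = g * h := comm_all hs hf (m + 1) _ hhC _ (atoms_cor hf.1.sa hg)
        have h2 : h * g ∈ Cor α P Kn (m + 1) g := by
          refine ⟨Qn_mul hhC.1 hg.1.mem, ?_, by rw [mul_assoc, hg.1.idem]⟩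
          rw [hc, ← mul_assoc, hg.1.idem]
        obtain ⟨c, hc1⟩ := hg.1.scal _ h2
        have hidem : h * (h * g) = h * g := by rw [← mul_assoc, ((hX h).1 hh).1.idem]
        have hc0 : c ≠ 0 := by
          rintro rfl
          rw [zero_smul] at hc1
          exact hhg hc1
        rw [hc1, mul_smul_comm] at hidem
        exact smul_right_injective 𝔸 hc0 hidem
      · rintro ⟨h, _, hg⟩
        have h1 := (hZ h g).1 hg
        refine ⟨h1.1, ?_⟩
        rw [← h1.2, ← mul_assoc, ((hX h).1 h.2).2]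
    have hdisj : ((Finset.univ : Finset X) : Set X).PairwiseDisjoint Z := by
      intro h _ h' _ hne
      rw [Function.onFun, Finset.disjoint_left]
      intro g hg hg'
      have h1 := (hZ h g).1 hg
      have h2 := (hZ h' g).1 hg'
      apply h1.1.ne
      rw [← h1.2, ← h2.2, ← mul_assoc, hX1 h h.2 h' h'.2 fun h3 => hne (Subtype.ext h3), zero_mul]
    rw [hYm, hYZ, Finset.card_biUnion hdisj, Finset.sum_congr rfl fun h _ => hcardZ h,
      Finset.sum_const, Finset.card_univ, Fintype.card_coe, ← hXm, ih, smul_eq_mul,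
      ← pow_succ, Nat.succ_sub hnm]

/-! ### the number of weights -/

/-- The number of weights is at most the index. -/
theorem Sg_card_le (hs : Sys α P Kn p) : (Sg α P Kn e m).ncard ≤ (Kn (m + 1)).relIndex (Kn m) := by
  classical
  set N : Subgroup (Kn m) := (Kn (m + 1)).subgroupOf (Kn m) with hN
  haveI : N.FiniteIndex := ⟨hs.chain.relIndex_ne (Nat.le_succ m)⟩
  haveI : Fintype ((Kn m) ⧸ N) := Fintype.ofFinite _
  haveI : Finite (Sg α P Kn e m) := (Sg_finite hs e m).to_subtype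
  haveI : Fintype (Sg α P Kn e m) := Fintype.ofFinite _
  -- the characters as monoid homomorphisms
  have h1 : ∀ χ : Sg α P Kn e m, ∃ φ : (Kn m) →* ℂ, ∀ k : Kn m, φ k = (χ : K → ℂ) (k : K) := by
    rintro ⟨χ, _, z, hz, h0, hw⟩
    refine ⟨⟨⟨fun k => χ k, ?_⟩, fun k l => hw.mul_eq h0 k.2 l.2⟩, fun k => rfl⟩
    have h2 := hw 1 (Kn m).one_mem
    rw [map_one] at h2
    have h3 : (1 : ℂ) • z = χ 1 • z := by rw [one_smul]; exact h2
    exact (smul_left_injective ℂ h0 h3).symm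
  choose φ hφ using h1
  have hinj : Function.Injective φ := by
    intro χ ψ hχψ
    by_contra hne
    obtain ⟨k, hk, h2⟩ := Sg_ext χ.2 ψ.2 fun h => hne (Subtype.ext h)
    apply h2
    have h3 := DFunLike.congr_fun hχψ (⟨k, hk⟩ : Kn m)
    rwa [hφ, hφ] at h3
  have hli : LinearIndependent ℂ (fun χ : Sg α P Kn e m => (fun k : Kn m => φ χ k)) :=
    (linearIndependent_monoidHom (Kn m) ℂ).comp φ hinj
  have hli2 : LinearIndependent ℂ
      (fun χ : Sg α P Kn e m => (fun q : (Kn m) ⧸ N => φ χ q.out)) := by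
    rw [linearIndependent_iff'] at hli ⊢
    intro s c hc
    refine hli s c ?_
    funext k
    have h2 := congrFun hc ((k : Kn m) : (Kn m) ⧸ N)
    obtain ⟨l, hl⟩ := QuotientGroup.mk_out_eq_mul N k
    simp only [Finset.sum_apply, Pi.smul_apply, Pi.zero_apply] at h2 ⊢
    rw [← h2]
    refine Finset.sum_congr rfl fun χ _ => ?_
    rw [hl]
    have h3 : φ χ (l : Kn m) = 1 := by
      obtain ⟨_, z, hz, h0, hw⟩ := χ.2
      rw [hφ]
      exact hw.eq_one h0 hz.1 (l : Kn m).2 (Subgroup.mem_subgroupOf.1 l.2)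
    rw [map_mul, h3, mul_one]
  have h2 := hli2.fintype_card_le_finrank
  rw [Module.finrank_fintype_fun_eq_card] at h2
  have h3 : (Sg α P Kn e m).ncard = Fintype.card (Sg α P Kn e m) := by
    rw [← Nat.card_coe_set_eq, Nat.card_eq_fintype_card]
  have h4 : (Kn (m + 1)).relIndex (Kn m) = Fintype.card ((Kn m) ⧸ N) := by
    rw [← Nat.card_eq_fintype_card]; rfl
  rw [h3, h4]
  exact h2

/-! ### weight vectors over an atom -/

/-- products of weights are weights -/
theorem Sg_mul (hs : Sys α P Kn p) (hh : MinP α P Kn m h) {χ ψ : K → ℂ}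
    (hχ : χ ∈ Sg α P Kn h m) (hψ : ψ ∈ Sg α P Kn h m) :
    (fun k => χ k * ψ k) ∈ Sg α P Kn h m := by
  obtain ⟨hχ0, u, hu, hu0, huw⟩ := hχ
  obtain ⟨hψ0, v, hv, hv0, hvw⟩ := hψ
  refine ⟨fun k hk => by simp only [hχ0 k hk, zero_mul], u * v, Cor_mul hu hv, ?_, huw.mul hvw⟩
  intro h0
  obtain ⟨c, hc0, hc⟩ := inv_of hs hh (by omega : m + 1 ≤ m + 2) huw hu0 hu.1 hu.2.2
  have h1 : star u * (u * v) = c • v := by rw [← mul_assoc, hc, smul_mul_assoc, hv.2.1]
  rw [h0, mul_zero] at h1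
  exact smul_ne_zero hc0 hv0 h1.symm

theorem Sg_star (hs : Sys α P Kn p) (hh : MinP α P Kn m h) {χ : K → ℂ}
    (hχ : χ ∈ Sg α P Kn h m) : (fun k => conj (χ k)) ∈ Sg α P Kn h m := by
  obtain ⟨hχ0, u, hu, hu0, huw⟩ := hχ
  exact ⟨fun k hk => by simp only [hχ0 k hk, map_zero], star u, Cor_star hh.sa hu, star_ne_zero.2 hu0,
    huw.star⟩

/-- Positivity of the scalars `a* a = c h`. -/
theorem pos_scalar (hs : Sys α P Kn p) (hsa : star h = h) (hid : h * h = h) (h0 : h ≠ 0) {c : ℂ}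
    (hv : z ≠ 0) (hc : star z * z = c • h) : ∃ r : ℝ, 0 < r ∧ c = (r : ℂ) := by
  have h1 : conj c = c := by
    have h2 := congrArg star hc
    rw [star_mul, star_star, star_smul, hsa, hc] at h2
    exact (smul_left_injective ℂ h0 h2).symm
  obtain ⟨r, hr⟩ := Complex.conj_eq_iff_real.1 h1
  refine ⟨r, ?_, hr⟩
  by_contra hneg
  push Not at hneg
  have h2 : ∑ i : Bool, star (bif i then z else ((Real.sqrt (-r) : ℝ) : ℂ) • h) *
      (bif i then z else ((Real.sqrt (-r) : ℝ) : ℂ) • h) = 0 := by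
    rw [Fintype.sum_bool]
    simp only [cond_true, cond_false]
    rw [star_smul, hsa, smul_mul_smul_comm, hid, hc, Complex.star_def, Complex.conj_ofReal,
      ← Complex.ofReal_mul, Real.mul_self_sqrt (by linarith), ← add_smul, hr, ← Complex.ofReal_add,
      add_neg_cancel, Complex.ofReal_zero, zero_smul]
  exact hv (hs.pos (Finset.univ : Finset Bool) _ h2 true (Finset.mem_univ _))

/-- A weight vector over an atom: it is a unitary of the corner, its `p`-th power is a scalar. -/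
theorem exists_wv (hs : Sys α P Kn p) (hh : MinP α P Kn m h) {χ : K → ℂ}
    (hχ : χ ∈ Sg α P Kn h m) : ∃ u ∈ Cor α P Kn (m + 1) h, u ≠ 0 ∧ Wt α Kn m χ u ∧
      star u * u = h ∧ u * star u = h ∧ ∃ t : ℂ, t ≠ 0 ∧ u ^ p = t • h := by
  obtain ⟨_, v, hv, hv0, hvw⟩ := hχ
  obtain ⟨c, hc0, hc⟩ := inv_of hs hh (by omega : m + 1 ≤ m + 2) hvw hv0 hv.1 hv.2.2
  obtain ⟨r, hr, rfl⟩ := pos_scalar hs hh.sa hh.idem hh.ne hv0 hc
  have hsq : (Real.sqrt r)⁻¹ * (Real.sqrt r)⁻¹ * r = 1 := by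
    have h1 := Real.mul_self_sqrt hr.le
    have h2 : Real.sqrt r ≠ 0 := (Real.sqrt_pos.2 hr).ne'
    field_simp
    rw [sq, h1]
  set s : ℂ := (((Real.sqrt r)⁻¹ : ℝ) : ℂ) with hs'
  have hs0 : s ≠ 0 := by
    rw [hs', Complex.ofReal_ne_zero]
    exact inv_ne_zero (Real.sqrt_pos.2 hr).ne'
  set u := s • v with hu
  have huC : u ∈ Cor α P Kn (m + 1) h := Submodule.smul_mem _ _ hv
  have hu0 : u ≠ 0 := smul_ne_zero hs0 hv0
  have huw : Wt α Kn m χ u := fun k hk => by rw [hu, map_smul, hvw k hk, smul_comm]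
  have h1 : star u * u = h := by
    rw [hu, star_smul, smul_mul_smul_comm, hc, smul_smul, hs', Complex.star_def,
      Complex.conj_ofReal, ← Complex.ofReal_mul, ← Complex.ofReal_mul, hsq, Complex.ofReal_one,
      one_smul]
  obtain ⟨c', hc0', hc'⟩ := inv_of' hs hh (by omega : m + 1 ≤ m + 2) huw hu0 huC.1 huC.2.1
  have h2 : u * star u = h := by
    have h3 : (u * star u) * (u * star u) = u * star u := by
      rw [mul_assoc, ← mul_assoc (star u), h1, ← mul_assoc, huC.2.2]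
    rw [hc', smul_mul_smul_comm, hh.idem] at h3
    have h4 : c' * c' = c' := smul_left_injective ℂ hh.ne h3
    have h5 : c' = 1 := mul_left_cancel₀ hc0' (by rw [h4, mul_one])
    rw [hc', h5, one_smul]
  have hp := hs.chain.pos
  have hhC : h ∈ Cor α P Kn (m + 1) h := Cor_mono hs.chain (Nat.le_succ m) hh.self_mem
  have h3 : u ^ p ∈ Cor α P Kn m h := by
    refine mem_Cor_of_wt (wt_pow huw p) (Cor_pow hhC huC hp) fun k hk => ?_
    rw [← huw.pow_eq hu0 hk]
    exact huw.eq_one hu0 huC.1 ((Kn m).pow_mem hk p) (hs.chain.pow _ _ hk)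
  obtain ⟨t, ht⟩ := hh.scal _ h3
  refine ⟨u, huC, hu0, huw, h1, h2, t, ?_, ht⟩
  rintro rfl
  rw [zero_smul] at ht
  have h4 := pow_ne_of_inv (c := 1) one_ne_zero hh.ne hh.idem huC.2.1 (by rw [one_smul]; exact h1)
    hp
  rw [ht, mul_zero, one_pow, one_smul] at h4
  exact hh.ne h4.symm

/-- The corner at the next level is spanned by the weight vectors. -/
theorem Cor_span (hs : Sys α P Kn p) (hh : MinP α P Kn m h) (hx : x ∈ Cor α P Kn (m + 1) h) :
    x ∈ Submodule.span ℂ {u | u ∈ Cor α P Kn (m + 1) h ∧ ∃ χ ∈ Sg α P Kn h m, Wt α Kn m χ u} := by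
  have h2 := wt_span hs (Nat.le_succ m) (by omega : m + 1 ≤ m + 2) (Cor α P Kn (m + 1) h)
    (fun y hy => hy.1) (fun k hk y hy => act_Cor hs hh.mem hk hy) x hx
  refine (Submodule.span_le.2 ?_) h2
  rintro z ⟨hz, χ, hχ⟩
  by_cases hz0 : z = 0
  · rw [hz0]; exact zero_mem _
  exact Submodule.subset_span ⟨hz, rs Kn m χ, rs_mem_Sg hz hz0 hχ,
    hχ.congr fun k hk => (rs_of_mem hk).symm⟩

end Vale.Agent.P092.H175.T1
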